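import Vale.Agent.P366Y.G.Sk
import Vale.Agent.P366Z.Calc3

/-!
# P366Y, block G: the conformal change of the conformal Laplacian
-/

open Vale.Agent.P366.Stmt

noncomputable section

namespace Vale.Agent.P366Z.Y

namespace ScfH

variable {n : ℕ}

/-- the difference of the Christoffel symbols -/
def aa (G : Fin n → Fin n → ℝ) (p X : Fin n → ℝ) (k i j : Fin n) : ℝ :=
  (if k = i then p j else 0) + (if k = j then p i else 0) - G i j * X k

section alg
variable {G : Fin n → Fin n → ℝ} {p X : Fin n → ℝ}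

theorem aa_sy (hs : ∀ i j, G i j = G j i) (k i j : Fin n) : aa G p X k i j = aa G p X k j i := by
  unfold aa
  rw [hs i j]
  ring

theorem sum1 (hX : ∀ i, ∑ k, G i k * X k = p i) (i : Fin n) : ∑ k, aa G p X k i k = n * p i := by
  simp [aa, Finset.sum_add_distrib, Finset.sum_sub_distrib, hX]

theorem sum2 (q : Fin n → ℝ) (i j : Fin n) :
    ∑ l, q l * aa G p X l i j = q i * p j + q j * p i - G i j * ∑ l, q l * X l := by
  simp [aa, mul_add, mul_sub, Finset.sum_add_distrib, Finset.sum_sub_distrib, Finset.mul_sum,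
    mul_left_comm]

theorem sum3 (H Y : Fin n → Fin n → ℝ) (i j : Fin n) :
    ∑ k, aa G (H k) (Y k) k i j = H i j + H j i - G i j * ∑ k, Y k k := by
  simp [aa, Finset.sum_add_distrib, Finset.sum_sub_distrib, Finset.mul_sum]

theorem sum5 (q : Fin n → ℝ) (k i : Fin n) : ∑ l, q l * aa G p X k i l =
    (if k = i then ∑ l, q l * p l else 0) + q k * p i - (∑ l, G i l * q l) * X k := by
  simp only [aa, mul_add, mul_sub, Finset.sum_add_distrib, Finset.sum_sub_distrib, Finset.sum_mul,
    mul_ite, mul_zero, Finset.sum_ite_eq, Finset.mem_univ, if_true]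
  congr 1
  · split_ifs <;> simp
  · exact Finset.sum_congr rfl fun l _ => by ring

theorem quad (hs : ∀ i j, G i j = G j i) (hX : ∀ i, ∑ k, G i k * X k = p i) (i j : Fin n) :
    ∑ k, ∑ l, (aa G p X k k l * aa G p X l i j - aa G p X k j l * aa G p X l i k) =
      (n - 2) * (p i * p j - G i j * ∑ l, p l * X l) := by
  have h1 : ∑ k, ∑ l, aa G p X k k l * aa G p X l i j =
      n * (p i * p j + p j * p i - G i j * ∑ l, p l * X l) := by
    rw [Finset.sum_comm, ← sum2, Finset.mul_sum]
    refine Finset.sum_congr rfl fun l _ => ?_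
    simp only [← Finset.sum_mul, aa_sy hs _ _ l, sum1 hX, mul_assoc]
  have h2 : ∀ k, ∑ l, aa G p X k j l * X l = if k = j then ∑ l, p l * X l else 0 := fun k => by
    simp only [mul_comm _ (X _)]
    rw [sum5, hX]
    ring
  have h3 : ∑ k, aa G p X k j i * p k = p j * p i + p i * p j - G i j * ∑ l, p l * X l := by
    rw [hs i j, ← sum2]
    exact Finset.sum_congr rfl fun k _ => mul_comm _ _
  have h4 : ∀ k, ∑ l, aa G p X k j l * aa G p X l i k = aa G p X k j i * p k +
      aa G p X k j k * p i - G i k * if k = j then ∑ l, p l * X l else 0 := fun k => by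
    rw [sum2, h2]
  simp only [Finset.sum_sub_distrib, h1, h4, Finset.sum_add_distrib, h3, ← Finset.sum_mul,
    sum1 hX, mul_ite, mul_zero, Finset.sum_ite_eq', Finset.mem_univ, if_true]
  ring

end alg

variable {g : Field n} {a s : E n → ℝ} {x : E n}

/-- the same as a function -/
def af (g : Field n) (s : E n → ℝ) (k i j : Fin n) (y : E n) : ℝ :=
  aa (g y) (fun i => pd i s y) (fun k => gr g s k y) k i j

theorem diff_ite (hs : Smooth s) (c : Prop) [Decidable c] (j : Fin n) :
    DifferentiableAt ℝ (fun y => if c then pd j s y else 0) x := by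
  split_ifs
  exacts [(hs.pd j).diff x, differentiableAt_const _]

theorem pd_ite (c : Prop) [Decidable c] (m j : Fin n) :
    pd m (fun y => if c then pd j s y else 0) x = if c then pd m (pd j s) x else 0 := by
  split_ifs
  exacts [rfl, pd_const _ _ _]

theorem diff_af (hg : Met g) (hs : Smooth s) (k i j : Fin n) :
    DifferentiableAt ℝ (af g s k i j) x :=
  ((diff_ite hs _ j).fun_add (diff_ite hs _ i)).fun_sub
    (((hg.sm i j).diff x).fun_mul (hg.diff_gr (hs.c2 x) k))

theorem pd_af (hg : Met g) (hs : Smooth s) (m k i j : Fin n) : pd m (af g s k i j) x =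
    aa (g x) (hess g s x m) (fun k => ∑ l, up g k l x * hess g s x m l) k i j -
      ∑ l, (chr g k m l x * af g s l i j x - chr g l m i x * af g s k j l x -
        chr g l m j x * af g s k i l x) := by
  have h1 := (hg.sm i j).diff x
  have h2 := hg.diff_gr (hs.c2 x) k
  have h3 : pd m (af g s k i j) x = _ :=
    pd_sub ((diff_ite hs (k = i) j).fun_add (diff_ite hs (k = j) i)) (h1.fun_mul h2) m
  rw [h3, pd_add (diff_ite hs _ j) (diff_ite hs _ i), pd_ite, pd_ite, pd_mul h1 h2, hg.pd_g,
    hg.pd_gr (hs.c2 x)]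
  simp only [Finset.sum_sub_distrib, af]
  rw [sum2, sum5, sum5]
  have h4 : ∀ j, pd m (pd j s) x = hess g s x m j + ∑ l, chr g l m j x * pd l s x := fun j => by
    unfold hess
    ring
  simp only [h4, aa]
  split_ifs <;> ring

/-- the logarithm of the factor -/
def ls (a : E n → ℝ) (y : E n) : ℝ := bb n * Real.log (a y)

theorem sm_ls (ha : Smooth a) (h0 : ∀ y, 0 < a y) : Smooth (ls a) :=
  ContDiff.mul contDiff_const (ContDiff.log ha fun y => (h0 y).ne')

theorem pd_ls (ha : Smooth a) (h0 : ∀ y, 0 < a y) (i : Fin n) :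
    pd i (ls a) x = bb n / a x * pd i a x := by
  have h1 : pd i (ls a) x = _ := pd_const_mul (f := fun y => Real.log (a y)) (bb n) i
  rw [h1, pd_log (ha.diff x) (h0 x).ne']
  ring

theorem pd_cf (hg : Met g) (ha : Smooth a) (h0 : ∀ y, 0 < a y) (m i j : Fin n) :
    pd m (fun y => cf a g y i j) x = a x ^ (2 * bb n) *
      (2 * pd m (ls a) x * g x i j + pd m (fun y => g y i j) x) := by
  have h1 : pd m (fun y => cf a g y i j) x = _ :=
    pd_mul ((ha.rpow h0 (2 * bb n)).diff x) ((hg.sm i j).diff x) m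
  rw [h1, pd_rpow (ha.diff x) (h0 x).ne', pd_ls ha h0, Real.rpow_sub_one (h0 x).ne']
  ring

theorem chr_cf (hg : Met g) (ha : Smooth a) (h0 : ∀ y, 0 < a y) (k i j : Fin n) :
    chr (cf a g) k i j = fun y => chr g k i j y + af g (ls a) k i j y := by
  funext y
  have h1 : a y ^ (-(2 * bb n)) * a y ^ (2 * bb n) = 1 := by
    rw [← Real.rpow_add (h0 y)]
    simp
  have h2 : ∀ j (c : ℝ), (if k = j then c else 0) = ∑ l, up g k l y * g y j l * c := fun j c => by
    simp only [← Finset.sum_mul, hg.sy y j, hg.up_mul, ite_mul, one_mul, zero_mul]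
  unfold chr af aa gr
  simp only [pd_cf hg ha h0, hg.up_cf (h0 y), h2, Finset.mul_sum, Finset.sum_div,
    ← Finset.sum_add_distrib, ← Finset.sum_sub_distrib]
  refine Finset.sum_congr rfl fun l _ => ?_
  linear_combination (up g k l y * (2 * pd i (ls a) y * g y j l + pd i (fun y => g y j l) y +
    (2 * pd j (ls a) y * g y i l + pd j (fun y => g y i l) y) -
    (2 * pd l (ls a) y * g y i j + pd l (fun y => g y i j) y)) / 2) * h1

/-- the Ricci tensor -/
def ric (g : Field n) (x : E n) (i j : Fin n) : ℝ :=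
  ∑ k, (pd k (chr g k i j) x - pd j (chr g k i k) x +
    ∑ l, (chr g k k l x * chr g l i j x - chr g k j l x * chr g l i k x))

theorem ric_cf (hg : Met g) (ha : Smooth a) (h0 : ∀ y, 0 < a y) (i j : Fin n) :
    ric (cf a g) x i j = ric g x i j + ((2 - n) * hess g (ls a) x i j - g x i j * lap g (ls a) x +
      (n - 2) * (pd i (ls a) x * pd j (ls a) x - g x i j * ip g (ls a) (ls a) x)) := by
  have hs := sm_ls ha h0
  have h1 := quad (hg.sy x) (p := fun i => pd i (ls a) x) (X := fun k => gr g (ls a) k x)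
    (fun i => hg.g_up_mul x i _) i j
  have h2 := sum3 (G := g x) (hess g (ls a) x)
    (fun m k => ∑ l, up g k l x * hess g (ls a) x m l) i j
  have h3 := sum1 (G := g x) (p := hess g (ls a) x j)
    (X := fun k => ∑ l, up g k l x * hess g (ls a) x j l) (fun i => hg.g_up_mul x i _) i
  rw [hg.hess_sy (hs.c2 x) j i] at h2 h3
  rw [ip_eq_gr, ← h1, hg.lap_eq_tr (hs.c2 x)]
  have h4 : (2 - n) * hess g (ls a) x i j - g x i j * tr g (hess g (ls a)) x =
      hess g (ls a) x i j + hess g (ls a) x i j -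
        g x i j * ∑ k, ∑ l, up g k l x * hess g (ls a) x k l - n * hess g (ls a) x i j := by
    unfold tr
    ring
  rw [h4, ← h2, ← h3]
  unfold ric
  simp only [← Finset.sum_add_distrib, ← Finset.sum_sub_distrib]
  refine Finset.sum_congr rfl fun k _ => ?_
  simp only [chr_cf hg ha h0]
  rw [pd_add ((hg.sm_chr _ _ _).diff x) (diff_af hg hs _ _ _),
    pd_add ((hg.sm_chr _ _ _).diff x) (diff_af hg hs _ _ _), pd_af hg hs, pd_af hg hs]
  have h5 : ∑ l, ((chr g k k l x + af g (ls a) k k l x) * (chr g l i j x + af g (ls a) l i j x) -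
      (chr g k j l x + af g (ls a) k j l x) * (chr g l i k x + af g (ls a) l i k x)) =
      ∑ l, (chr g k k l x * chr g l i j x - chr g k j l x * chr g l i k x) +
      ∑ l, (af g (ls a) k k l x * af g (ls a) l i j x - af g (ls a) k j l x * af g (ls a) l i k x) +
      ∑ l, (chr g k k l x * af g (ls a) l i j x - chr g l k i x * af g (ls a) k j l x -
        chr g l k j x * af g (ls a) k i l x) -
      ∑ l, (chr g k j l x * af g (ls a) l i k x - chr g l j i x * af g (ls a) k k l x -
        chr g l j k x * af g (ls a) k i l x) := by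
    simp only [← Finset.sum_add_distrib, ← Finset.sum_sub_distrib]
    refine Finset.sum_congr rfl fun l _ => ?_
    rw [hg.chr_sy l k i, hg.chr_sy l j i, hg.chr_sy l j k]
    ring
  rw [h5]
  unfold af
  ring

theorem scal_cf (hg : Met g) (ha : Smooth a) (h0 : ∀ y, 0 < a y) :
    scal (cf a g) x = a x ^ (-(2 * bb n)) * (scal g x - 2 * (n - 1) * lap g (ls a) x -
      (n - 1) * (n - 2) * ip g (ls a) (ls a) x) := by
  have hs := sm_ls ha h0
  have h1 : ∀ g : Field n, scal g x = ∑ i, ∑ j, up g i j x * ric g x i j := fun _ => rfl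
  have h2 : ∑ i, ∑ j, up g i j x * g x i j = n := by
    have h : ∀ i, ∑ j, up g i j x * g x i j = 1 := fun i => by
      simp only [hg.sy x i, hg.up_mul, if_true]
    simp [h]
  have h3 : ∑ i, ∑ j, up g i j x * hess g (ls a) x i j = lap g (ls a) x :=
    (hg.lap_eq_tr (hs.c2 x)).symm
  have h4 : ∑ i, ∑ j, up g i j x * pd i (ls a) x * pd j (ls a) x = ip g (ls a) (ls a) x := rfl
  have h5 : scal g x - 2 * (n - 1) * lap g (ls a) x - (n - 1) * (n - 2) * ip g (ls a) (ls a) x =
      scal g x + (2 - n) * lap g (ls a) x + (n - 2) * ip g (ls a) (ls a) x -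
        n * (lap g (ls a) x + (n - 2) * ip g (ls a) (ls a) x) := by ring
  rw [h5, h1, h1]
  generalize hL : lap g (ls a) x + (n - 2) * ip g (ls a) (ls a) x = L
  rw [← h3, ← h4]
  nth_rewrite 3 [← h2]
  simp only [hg.up_cf (h0 x), ric_cf hg ha h0, Finset.mul_sum, Finset.sum_mul,
    ← Finset.sum_add_distrib, ← Finset.sum_sub_distrib]
  refine Finset.sum_congr rfl fun i _ => Finset.sum_congr rfl fun j _ => ?_
  rw [← hL]
  ring

theorem lap_ls (hg : Met g) (ha : Smooth a) (h0 : ∀ y, 0 < a y) :
    lap g (ls a) x = bb n / a x * lap g a x - bb n / a x ^ 2 * ip g a a x := by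
  have h1 : deriv (fun t => bb n * Real.log t) = fun t => bb n * t⁻¹ := by
    funext t
    rw [deriv_const_mul_field, Real.deriv_log]
  have h2 : lap g (ls a) x = _ := hg.lap_comp (φ := fun t => bb n * Real.log t) (ha.c2 x)
    (contDiffAt_const.mul (Real.contDiffAt_log.2 (h0 x).ne'))
  rw [h2, h1, deriv_const_mul_field, deriv_inv]
  ring

end ScfH

open ScfH in
/-- **SCF** -/
theorem scf : SCF := by
  intro n g a v x hn hg ha h0 hv
  have hx := (h0 x).ne'
  rw [hg.cl_mul (ha.c2 x) (hv.c2 x) hx]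
  unfold cl
  rw [hg.lap_cf hn h0, scal_cf hg ha h0, lap_ls hg ha h0, ip_of_pd (pd_ls ha h0) (pd_ls ha h0),
    n_bb hn, show -(2 + 2 * bb n) = -(2 * bb n) - 1 - 1 by ring, Real.rpow_sub_one hx,
    Real.rpow_sub_one hx]
  have h1 := nm2_bb hn
  have h2 := nm1_bb hn
  have h3 : gam n = (n - 1) * bb n / 2 := by linarith
  rw [h3]
  generalize a x ^ (-(2 * bb n)) = A
  field_simp
  linear_combination (-2 * A * v x * (n - 1) * bb n * ip g a a x) * h1

end Vale.Agent.P366Z.Y
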