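import Vale.Agent.P366Y.G.Int
import Vale.Agent.P366Y.G.Res
import Mathlib.Topology.UniformSpace.Dini

/-!
# P366Y, block G (after P366Z), row SCH: the barrier and the monotone iteration
-/

open MeasureTheory Metric Filter Topology Set
open scoped ContDiff ENNReal
open Vale.Agent.P366.Stmt

noncomputable section

namespace Vale.Agent.P366Z.Y.SchX

variable {n : ℕ}

/-- a concave truncation -/
theorem ex_F : ∃ F : ℝ → ℝ, ContDiff ℝ ∞ F ∧ (∀ t, 0 ≤ deriv F t ∧ deriv (deriv F) t ≤ 0) ∧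
    F 0 = 0 ∧ Monotone F ∧ ∃ c, 1 ≤ c ∧ (∀ t, F t ≤ c) ∧ ∀ t, 2 ≤ t → F t = c := by
  obtain ⟨k, hk⟩ : ∃ k : ℝ → ℝ, k = fun t => 1 - Real.smoothTransition (t - 1) := ⟨_, rfl⟩
  have k1 : ContDiff ℝ ∞ k := by
    rw [hk]
    exact contDiff_const.sub (Real.smoothTransition.contDiff.comp (contDiff_id.sub contDiff_const))
  have k2 : Antitone k := by
    rw [hk]
    exact fun s t h => sub_le_sub_left (Real.smoothTransition.monotone (sub_le_sub_right h 1)) 1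
  have c1 : ∀ t, HasDerivAt (fun t => ∫ s in (0 : ℝ)..t, k s) (k t) t := fun t =>
    (k1.continuous.integral_hasStrictDerivAt 0 t).hasDerivAt
  have c2 : deriv (fun t => ∫ s in (0 : ℝ)..t, k s) = k := funext fun t => (c1 t).deriv
  have k0 : ∀ t, 0 ≤ k t := fun t => by
    rw [hk]
    exact sub_nonneg.2 (Real.smoothTransition.le_one _)
  have m : Monotone fun t => ∫ s in (0 : ℝ)..t, k s :=
    monotone_of_deriv_nonneg (fun t => (c1 t).differentiableAt) fun t => c2.symm ▸ k0 t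
  have e : ∀ t, 2 ≤ t → ∫ s in (0 : ℝ)..t, k s = ∫ s in (0 : ℝ)..2, k s := fun t ht => by
    have e2 : EqOn k (fun _ => 0) (uIcc 2 t) := fun s hs => by
      rw [uIcc_of_le ht] at hs
      simp only [hk, Real.smoothTransition.one_of_one_le (show 1 ≤ s - 1 by linarith [hs.1]),
        sub_self]
    rw [← intervalIntegral.integral_add_adjacent_intervals (b := 2)
      (k1.continuous.intervalIntegrable _ _) (k1.continuous.intervalIntegrable _ _),
      intervalIntegral.integral_congr e2, intervalIntegral.integral_zero, add_zero]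
  refine ⟨_, contDiff_infty_iff_deriv.2 ⟨fun t => (c1 t).differentiableAt, c2.symm ▸ k1⟩,
    fun t => by rw [c2]; exact ⟨k0 t, k2.deriv_nonpos⟩, intervalIntegral.integral_same, m, _, ?_,
    fun t => (le_total t 2).elim (fun h => m h) fun h => (e t h).le, e⟩
  have e2 : EqOn k (fun _ => 1) (uIcc 0 1) := fun s hs => by
    rw [uIcc_of_le zero_le_one] at hs
    simp only [hk, Real.smoothTransition.zero_of_nonpos (show s - 1 ≤ 0 by linarith [hs.2]),
      sub_zero]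
  refine le_trans (le_of_eq ?_) (m one_le_two)
  show _ = ∫ s in (0 : ℝ)..1, k s
  rw [intervalIntegral.integral_congr e2]
  simp

/-- the barrier -/
theorem barrier {B : Bg n} {U : E n → ℝ} {a β R s' : ℝ} (hB : B.Ok) (hS : St B U a β R s')
    (R' : ℝ) : ∃ φ : E n → ℝ, ContDiff ℝ 2 φ ∧ (∃ M, ∀ x, |φ x| ≤ M) ∧
      (∀ x, 0 ≤ φ x ∧ wl B.g U φ x ≤ 0) ∧ (∀ x, ‖x‖ ≤ R' → 1 ≤ φ x) ∧
      Tendsto φ (cocompact (E n)) (𝓝 0) := by
  obtain ⟨F, F1, F2, F3, F4, c, c1, c2, c3⟩ := ex_F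
  obtain ⟨R₀, r1, r2, r3, r4⟩ : ∃ R₀, R ≤ R₀ ∧ R' ≤ R₀ ∧ 1 ≤ R₀ ∧ 4 * B.δ ≤ R₀ :=
    ⟨max (max R R') (max 1 (4 * B.δ)), by simp, by simp, by simp, by simp⟩
  have n3 : (3 : ℝ) ≤ n := by exact_mod_cast hB.dim
  obtain ⟨A, hA⟩ : ∃ A : ℝ, A = 4 * (R₀ + 1) ^ (1 / 2 : ℝ) := ⟨_, rfl⟩
  have A0 : 0 < A := by rw [hA]; positivity
  obtain ⟨G, hG⟩ : ∃ G : E n → ℝ, G = fun x => A * ‖x‖ ^ (-(1 / 2) : ℝ) / U x := ⟨_, rfl⟩
  have U0 := hS.pos hB
  have G0 : ∀ x, 0 ≤ G x := fun x => by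
    rw [hG]
    exact div_nonneg (by positivity) (U0 x).le
  have G1 : ∀ x, x ≠ 0 → ContDiffAt ℝ 2 G x := fun x hx => by
    rw [hG]
    exact (contDiffAt_const.mul (contDiffAt_norm_rpow hx _)).div (hS.sm.c2 x) (U0 x).ne'
  have G2 : ∀ x, R₀ < ‖x‖ → ‖x‖ < R₀ + 1 → 2 ≤ G x := fun x h1 h2 => by
    have h3 := Real.rpow_le_rpow_of_nonpos (by linarith) h2.le (by norm_num : (-(1 / 2) : ℝ) ≤ 0)
    have h4 : A * (R₀ + 1) ^ (-(1 / 2) : ℝ) = 4 := by
      rw [hA, mul_assoc, ← Real.rpow_add (by linarith), add_neg_cancel, Real.rpow_zero, mul_one]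
    rw [hG, le_div_iff₀ (U0 x)]
    nlinarith [hS.le_two hB x, mul_le_mul_of_nonneg_left h3 A0.le]
  have G3 : ∀ x, R₀ < ‖x‖ → wl B.g U G x ≤ 0 := fun x h1 => by
    have p0 : 0 < ‖x‖ := by linarith
    have hx : x ≠ 0 := norm_pos_iff.1 p0
    have h2 := hB.met.mul_lap_mul (hS.sm.c2 x) (G1 x hx)
    have h3 : ∀ y, U y * G y = A * ‖y‖ ^ (-(1 / 2) : ℝ) := fun y => by
      rw [hG, mul_div_cancel₀ _ (U0 y).ne']
    rw [funext h3, h3, lap_const_mul, hB.flat.lap_eq (by linarith [hS.Rρ]), lap_eu_rpow hx,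
      hS.eqn x (by linarith), Real.rpow_sub p0, Real.rpow_two] at h2
    have h4 := (hB.Qf x (by linarith [hS.Rρ])).1
    have h5 := Real.rpow_le_rpow_of_exponent_le (r3.trans h1.le)
      (by push_cast; linarith : (-(n + 2) : ℝ) ≤ -((3 : ℕ) : ℝ))
    rw [Real.rpow_neg p0.le ((3 : ℕ) : ℝ), Real.rpow_natCast] at h5
    have h6 : B.δ * (‖x‖ ^ 3)⁻¹ ≤ 1 / 4 * (‖x‖ ^ 2)⁻¹ := by
      rw [pow_succ, mul_inv, mul_left_comm, mul_comm]
      refine mul_le_mul_of_nonneg_right ?_ (by positivity)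
      rw [mul_inv_le_iff₀ p0]
      linarith
    have h7 : -(1 / 2) * (-(1 / 2) + n - 2) * (‖x‖ ^ 2)⁻¹ ≤ B.Q x := by
      have := mul_le_mul_of_nonneg_left h5 hB.δ0.le
      have := mul_nonneg (sub_nonneg.2 n3) (inv_nonneg.2 (sq_nonneg ‖x‖))
      linarith
    have h8 := mul_le_mul_of_nonneg_left h7
      (show 0 ≤ U x * A * ‖x‖ ^ (-(1 / 2) : ℝ) from mul_nonneg (mul_pos (U0 x) A0).le (by positivity))
    rw [div_eq_mul_inv _ (‖x‖ ^ 2)] at h2
    linarith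
  have e1 : ∀ x : E n, ‖x‖ < R₀ + 1 → (fun y => if ‖y‖ < R₀ + 1 then c else F (G y)) =ᶠ[𝓝 x]
      fun _ => c := fun x h =>
    ((isOpen_lt continuous_norm continuous_const).eventually_mem h).mono fun y hy => if_pos hy
  have e2 : ∀ x : E n, R₀ < ‖x‖ → (if ‖x‖ < R₀ + 1 then c else F (G x)) = F (G x) := fun x h => by
    split_ifs with h'
    exacts [(c3 _ (G2 x h h')).symm, rfl]
  have e3 : ∀ x : E n, R₀ < ‖x‖ → (fun y => if ‖y‖ < R₀ + 1 then c else F (G y)) =ᶠ[𝓝 x]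
      fun y => F (G y) := fun x h =>
    ((isOpen_lt continuous_const continuous_norm).eventually_mem h).mono e2
  have F5 : ∀ t, ContDiffAt ℝ 2 F t := fun t => F1.contDiffAt.of_le (by norm_cast)
  have p1 : ∀ x : E n, 0 ≤ (if ‖x‖ < R₀ + 1 then c else F (G x)) ∧
      (if ‖x‖ < R₀ + 1 then c else F (G x)) ≤ c := fun x => by
    split_ifs
    exacts [⟨by linarith, le_rfl⟩, ⟨F3.ge.trans (F4 (G0 x)), c2 _⟩]
  have nz : ∀ x : E n, R₀ < ‖x‖ → x ≠ 0 := fun x h => norm_pos_iff.1 (by linarith)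
  refine ⟨fun y => if ‖y‖ < R₀ + 1 then c else F (G y), contDiff_iff_contDiffAt.2 fun x => ?_,
    ⟨c, fun x => by rw [abs_of_nonneg (p1 x).1]; exact (p1 x).2⟩, fun x => ⟨(p1 x).1, ?_⟩,
    fun x h => c1.trans_eq (if_pos (by linarith)).symm, ?_⟩
  · rcases lt_or_ge R₀ ‖x‖ with h | h
    · exact ((F5 _).comp x (G1 x (nz x h))).congr_of_eventuallyEq (e3 x h)
    · exact contDiffAt_const.congr_of_eventuallyEq (e1 x (by linarith))
  · rcases lt_or_ge R₀ ‖x‖ with h | h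
    · rw [wl_congr EventuallyEq.rfl (e3 x h), hB.met.wl_comp (hS.sm.diff x) (G1 x (nz x h)) (F5 _)]
      exact add_nonpos (mul_nonpos_of_nonneg_of_nonpos (F2 _).1 (G3 x h))
        (mul_nonpos_of_nonpos_of_nonneg (F2 _).2 (mul_nonneg (sq_nonneg _) (hB.met.ip_nonneg _ _)))
    · rw [wl_congr EventuallyEq.rfl (e1 x (by linarith)), wl_const]
  · have t1 : Tendsto (fun x : E n => A * ‖x‖ ^ (-(1 / 2) : ℝ) / (a / 2)) (cocompact (E n))
        (𝓝 0) := by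
      simpa using (((tendsto_rpow_neg_atTop (by norm_num : (0 : ℝ) < 1 / 2)).comp
        (tendsto_norm_cocompact_atTop (E := E n))).const_mul A).div_const (a / 2)
    have t2 : Tendsto G (cocompact (E n)) (𝓝 0) := squeeze_zero G0 (fun x => by
      rw [hG]
      exact div_le_div_of_nonneg_left (by positivity) (half_pos hS.a0) (hS.half hB x)) t1
    have t3 := (F1.continuous.tendsto 0).comp t2
    rw [F3] at t3
    exact t3.congr' (((tendsto_norm_cocompact_atTop (E := E n)).eventually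
      (eventually_gt_atTop R₀)).mono fun x h => (e2 x h).symm)

variable {g : Field n} {ρ R' : ℝ} {U V φ : E n → ℝ}

/-- the comparison principle -/
theorem cmp (hW : WMB) (hg : Met g) (hf : Flat g ρ) (hU : Wt g U) {l M M' : ℝ} (hl : 0 < l)
    {v w : E n → ℝ} (hv : ContDiff ℝ 2 v) (hw : ContDiff ℝ 2 w) (bv : ∀ x, |v x| ≤ M)
    (bw : ∀ x, |w x| ≤ M')
    (h : ∀ x, l * U x ^ 2 * v x - wl g U v x ≤ l * U x ^ 2 * w x - wl g U w x) (x : E n) :
    v x ≤ w x :=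
  sub_nonneg.1 (hW n g ρ l U (fun y => w y - v y) hg hf hU hl (hw.sub hv)
    ⟨M' + M, fun y => (abs_sub _ _).trans (add_le_add (bw y) (bv y))⟩ (fun y => by
      rw [hg.wl_sub (hU.sm.diff y) hw.contDiffAt hv.contDiffAt]
      linarith [h y]) x)

/-- the monotone iteration -/
theorem exist (hR : RES) (hW : WMB) (hG : GRAD) (hn : 3 ≤ n) (hg : Met g) (hf : Flat g ρ)
    (hU : Wt g U) (hV : Smooth V) (V0 : ∀ x, 0 ≤ V x) (V1 : ∀ x, R' ≤ ‖x‖ → V x = 0)
    (φ1 : ContDiff ℝ 2 φ) (φ2 : ∃ M, ∀ x, |φ x| ≤ M) (φ3 : ∀ x, 0 ≤ φ x ∧ wl g U φ x ≤ 0)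
    (φ4 : ∀ x, ‖x‖ ≤ R' → 1 ≤ φ x) (φ5 : Tendsto φ (cocompact (E n)) (𝓝 0)) :
    ∃ h : E n → ℝ, ContDiff ℝ 2 h ∧ (∀ R, ∃ K, H2 K h (ball 0 R)) ∧
      (∀ x, 0 ≤ h x ∧ h x ≤ 1 ∧ 1 - φ x ≤ h x) ∧ (∀ x, wl g U h x = V x * h x) ∧
      ∃ C, ∀ x, ‖fderiv ℝ h x‖ ≤ C := by
  obtain ⟨c, c0, C, hC⟩ := hU.bd
  obtain ⟨Mφ, φ2⟩ := φ2
  have U0 : ∀ x, 0 < U x ^ 2 := fun x => pow_pos (c0.trans_le (hC x).1) 2
  have U1 : ∀ x, U x ^ 2 ≤ C ^ 2 := fun x =>
    pow_le_pow_left₀ (c0.le.trans (hC x).1) (hC x).2.1 2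
  have sW : Smooth fun x => V x / U x ^ 2 :=
    ContDiff.div hV (ContDiff.pow hU.sm 2) fun x => (U0 x).ne'
  obtain ⟨K, K0, hK⟩ := bdd_of_const sW (R := R') (c := 0) fun y hy => by rw [V1 y hy.le, zero_div]
  obtain ⟨l₀, h0⟩ := hR n g ρ U (by omega) hg hf hU
  obtain ⟨l, l1, l2⟩ : ∃ l, l₀ ≤ l ∧ K ≤ l := ⟨max l₀ K, le_max_left _ _, le_max_right _ _⟩
  have l0 := K0.trans_le l2
  obtain ⟨K₁, K₂, h1⟩ := h0 l l1
  obtain ⟨D, hD⟩ := hG n g ρ U hn hg hf hU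
  have W0 : ∀ x, V x ≤ l * U x ^ 2 := fun x =>
    (div_le_iff₀ (U0 x)).1 ((le_abs_self _).trans ((hK x).1.trans l2))
  have bW : BL (l + K) fun x => l - V x / U x ^ 2 :=
    ResH.bl_of (fun x => (sW.diff x).const_sub l) fun x => ⟨by
      rw [Real.norm_eq_abs]
      exact (abs_sub _ _).trans (add_le_add (abs_of_pos l0).le (hK x).1), by
      rw [fderiv_const_sub, norm_neg]
      linarith [(hK x).2]⟩
  obtain ⟨M, M1, M2⟩ : ∃ M, 1 ≤ M ∧ D * (1 / 1 + 1 * (l * C ^ 2)) ≤ M :=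
    ⟨_, le_max_left _ _, le_max_right _ _⟩
  let S := {h : E n → ℝ // BL M h ∧ ∀ x, 0 ≤ h x ∧ h x ≤ 1 ∧ 1 - φ x ≤ h x}
  have ab : ∀ (h : S) x, |h.1 x| ≤ 1 := fun h x => abs_le.2 ⟨by linarith [(h.2.2 x).1], (h.2.2 x).2.1⟩
  have step : ∀ h : S, ∃ w : S, ContDiff ℝ 2 w.1 ∧ (∀ R, ∃ K, H2 K w.1 (ball 0 R)) ∧
      (∀ x, ‖fderiv ℝ w.1 x‖ ≤ M) ∧
      ∀ x, l * U x ^ 2 * w.1 x - wl g U w.1 x = (l * U x ^ 2 - V x) * h.1 x := by
    rintro ⟨h, b, k⟩
    obtain ⟨w, w1, w2, w3, w4⟩ := h1 _ _ (ResH.BL.smul bW b)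
    have w5 : ∀ x, l * U x ^ 2 * w x - wl g U w x = (l * U x ^ 2 - V x) * h x := fun x => by
      have := (U0 x).ne'
      rw [w4 x, smul_eq_mul, ← mul_assoc, mul_sub, mul_div_cancel₀ _ this, mul_comm l]
    have a0 := cmp hW hg hf hU l0 (v := fun _ => 0) (M := 0) contDiff_const w1 (by simp) w2.1
      fun x => by
        rw [wl_const, w5]
        simpa using mul_nonneg (sub_nonneg.2 (W0 x)) (k x).1
    have a1 := cmp hW hg hf hU l0 (w := fun _ => 1) (M' := 1) w1 contDiff_const w2.1 (by simp)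
      fun x => by
        rw [wl_const, w5]
        nlinarith [V0 x, mul_le_mul_of_nonneg_left (k x).2.1 (sub_nonneg.2 (W0 x))]
    have a2 := cmp hW hg hf hU l0 (v := fun x => 1 - φ x) (M := 1 + Mφ) (contDiff_const.sub φ1) w1
      (fun x => (abs_sub _ _).trans (add_le_add abs_one.le (φ2 x))) w2.1 fun x => by
        have : 0 ≤ V x * (φ x - 1) := by
          rcases le_total R' ‖x‖ with e | e
          · rw [V1 x e, zero_mul]
          · exact mul_nonneg (V0 x) (sub_nonneg.2 (φ4 x e))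
        rw [wl_const_sub, w5]
        linarith [(φ3 x).2, mul_le_mul_of_nonneg_left (k x).2.2 (sub_nonneg.2 (W0 x))]
    have a3 : ∀ x, |w x| ≤ 1 := fun x => abs_le.2 ⟨by linarith [a0 x], a1 x⟩
    have a4 : ∀ x, ‖fderiv ℝ w x‖ ≤ M := fun x => (hD 1 1 (l * C ^ 2) x w one_pos le_rfl
      fun y _ => ⟨w1.contDiffAt, a3 y, by
        have b1 := mul_nonneg (mul_pos l0 (U0 y)).le (a0 y)
        have b2 := mul_le_mul_of_nonneg_left (a1 y) (mul_pos l0 (U0 y)).le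
        have b3 := mul_nonneg (sub_nonneg.2 (W0 y)) (k y).1
        have b4 := mul_le_mul_of_nonneg_left (k y).2.1 (sub_nonneg.2 (W0 y))
        have b5 := mul_le_mul_of_nonneg_left (U1 y) l0.le
        rw [abs_le]
        constructor <;> linarith [w5 y, V0 y]⟩).trans M2
    exact ⟨⟨w, ResH.bl_of (w1.differentiable (by norm_num)) fun x => ⟨(a3 x).trans M1, a4 x⟩,
      fun x => ⟨a0 x, a1 x, a2 x⟩⟩, w1, fun R => ⟨_, w3 R⟩, a4, w5⟩
  choose T T1 T2 T3 T4 using step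
  have mono : ∀ (h h' : S) (e : ℝ), 0 ≤ e → (∀ x, h.1 x ≤ h'.1 x + e) →
      ∀ x, (T h).1 x ≤ (T h').1 x + e := fun h h' e he k =>
    cmp hW hg hf hU l0 (M' := 1 + |e|) (T1 h) ((T1 h').add contDiff_const) (ab _)
      (fun x => (abs_add_le _ _).trans (add_le_add (ab _ x) le_rfl)) fun x => by
        rw [wl_add_const, T4]
        linarith [T4 h' x, mul_le_mul_of_nonneg_left (k x) (sub_nonneg.2 (W0 x)),
          mul_nonneg (V0 x) he]
  let o : S := ⟨fun _ => 1, ⟨fun _ => norm_one.le.trans M1, fun x y => by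
    rw [sub_self, norm_zero]; positivity⟩, fun x => ⟨zero_le_one, le_rfl, by linarith [(φ3 x).1]⟩⟩
  let u : ℕ → S := fun k => T^[k] o
  have us : ∀ k, u (k + 1) = T (u k) := fun k => Function.iterate_succ_apply' T k o
  have an : ∀ x, Antitone fun k => (u k).1 x := fun x => antitone_nat_of_succ_le fun k => by
    induction k generalizing x with
    | zero => exact ((u 1).2.2 x).2.1
    | succ k ih =>
      rw [us (k + 1), us k]
      simpa using mono (T (u k)) (u k) 0 le_rfl (fun y => by rw [add_zero, ← us]; exact ih y) x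
  have bd : ∀ x, BddBelow (range fun k => (u k).1 x) := fun x =>
    ⟨0, by rintro _ ⟨k, rfl⟩; exact ((u k).2.2 x).1⟩
  have lim := fun x => tendsto_atTop_ciInf (an x) (bd x)
  let h : S := ⟨fun x => ⨅ k, (u k).1 x, ⟨fun x => le_of_tendsto' (lim x).norm fun k => (u k).2.1.1 x,
    fun x y => le_of_tendsto' ((lim x).sub (lim y)).norm fun k => (u k).2.1.2 x y⟩,
    fun x => ⟨ge_of_tendsto' (lim x) fun k => ((u k).2.2 x).1,
      le_of_tendsto' (lim x) fun k => ((u k).2.2 x).2.1,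
      ge_of_tendsto' (lim x) fun k => ((u k).2.2 x).2.2⟩⟩
  have lo : ∀ k x, h.1 x ≤ (u k).1 x := fun k x => ciInf_le (bd x) k
  have ct : ∀ w : S, Continuous w.1 := fun w => (lip_of_le w.2.1.2).cont
  have un : ∀ e > 0, ∃ k, ∀ x, (u k).1 x ≤ h.1 x + e := fun e he => by
    obtain ⟨A, hA, k1⟩ := mem_cocompact.1 (φ5.eventually (eventually_lt_nhds he))
    obtain ⟨k, k2⟩ := (Metric.tendstoUniformlyOn_iff.1 (Antitone.tendstoUniformlyOn_of_forall_tendsto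
      hA (fun k => (ct (u k)).continuousOn) (fun x _ => an x) (ct h).continuousOn
      fun x _ => lim x) e he).exists
    refine ⟨k, fun x => ?_⟩
    by_cases hx : x ∈ A
    · have := k2 x hx
      rw [Real.dist_eq, abs_lt] at this
      linarith [this.1]
    · have : φ x < e := k1 hx
      linarith [((u k).2.2 x).2.1, (h.2.2 x).2.2]
  have fx : (T h).1 = h.1 := funext fun x => le_antisymm
    (le_ciInf fun k => (by simpa using mono h (u k) 0 le_rfl (by simpa using lo k) x :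
      (T h).1 x ≤ (T (u k)).1 x).trans (by rw [← us]; exact an x k.le_succ))
    (le_of_forall_pos_le_add fun e he => by
      obtain ⟨k, hk⟩ := un e he
      exact (lo (k + 1) x).trans (by rw [us]; exact mono _ _ e he.le hk x))
  refine ⟨(T h).1, T1 h, T2 h, (T h).2.2, fun x => ?_, M, T3 h⟩
  have := T4 h x
  rw [fx] at this ⊢
  linarith

end Vale.Agent.P366Z.Y.SchX
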