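import Vale.Agent.P366Z.LinkA
import Vale.Agent.P366Z.One0

/-!
# P366Y, RED: a regular level and the conformal blow up
-/

open MeasureTheory Metric Filter Topology Set
open scoped ContDiff ENNReal
open Vale.Agent.P366.Stmt
open Real (smoothTransition)

noncomputable section

namespace Vale.Agent.P366Z.RedH

variable {n : ℕ} {g : Field n} {ρ : ℝ} {t U F : E n → ℝ} {x : E n}

/-- a small perturbation with few critical values -/
theorem pert (hg : Met g) (hf : Flat g ρ) (ht : Smooth t) :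
    ∃ t', Smooth t' ∧ (∀ x, |t' x - t x| ≤ 1 / 2) ∧ (∀ x, gn g t' x ≤ gn g t x + 1) ∧
      volume (Lk.Cv t') = 0 := by
  obtain ⟨Λ, hΛ⟩ := hg.ell hf
  have hs : Continuous fun a : Fin n → ℝ => ∑ i, |a i| * 2 := by fun_prop
  have k2 := (hs.tendsto 0).eventually (gt_mem_nhds (a := 1 / 2) (by simp))
  have hs' : Continuous fun a : Fin n → ℝ => Λ * ∑ i, a i ^ 2 := by fun_prop
  have k1 := (hs'.tendsto 0).eventually (gt_mem_nhds (a := 1) (by simp))
  obtain ⟨a, k5, k0⟩ := (Measure.dense_of_ae (Lk.cv_null ht)).inter_nhds_nonempty (k1.and k2)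
  obtain ⟨k3, k4⟩ := k0
  refine ⟨Lk.pt t a, Lk.sm_pt ht a, fun x => ?_, fun x => ?_, k5⟩
  · have k6 : |∑ i, a i * Real.arctan (x i)| ≤ ∑ i, |a i| * 2 :=
      (Finset.abs_sum_le_sum_abs _ _).trans (Finset.sum_le_sum fun i _ => by
        rw [abs_mul]
        refine mul_le_mul_of_nonneg_left (abs_le.2 ⟨?_, ?_⟩) (abs_nonneg _)
        · linarith [Real.neg_pi_div_two_lt_arctan (x i), Real.pi_le_four]
        · linarith [Real.arctan_lt_pi_div_two (x i), Real.pi_le_four])
    rw [Lk.pt, sub_sub_cancel_left, abs_neg]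
    linarith
  · have hv : ∀ i, pd i (fun y => Lk.pt t a y - t y) x = -(a i * (1 / (1 + x i ^ 2))) := fun i => by
      rw [pd_sub ((Lk.sm_pt ht a).diff x) (ht.diff x), Lk.pd_pt ht]; ring
    have h1 := hg.gn_add_le (x := x) (u := Lk.pt t a) (u₁ := t)
      (u₂ := fun y => Lk.pt t a y - t y) fun i => by rw [hv, Lk.pd_pt ht]; ring
    have h2 : ip g (fun y => Lk.pt t a y - t y) (fun y => Lk.pt t a y - t y) x ≤ 1 := by
      refine (hΛ.up_hi x fun i => pd i (fun y => Lk.pt t a y - t y) x).trans ?_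
      refine le_trans (mul_le_mul_of_nonneg_left (Finset.sum_le_sum fun i _ => ?_)
        (by linarith [hΛ.one])) k3.le
      rw [hv, neg_sq, mul_pow]
      refine mul_le_of_le_one_right (sq_nonneg _) (pow_le_one₀ (by positivity) ?_)
      exact (div_le_one (by positivity)).2 (by linarith [sq_nonneg (x i)])
    have h3 : gn g (fun y => Lk.pt t a y - t y) x ≤ 1 := Real.sqrt_le_one.2 h2
    linarith

theorem cont_dv (hg : Met g) {X : Fin n → E n → ℝ} (hX : ∀ i, ContDiffAt ℝ ∞ (X i) x) :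
    ContinuousAt (dv g X) x := by
  refine ContinuousAt.div ?_ hg.sm_dens.cont.continuousAt (hg.dens_pos x).ne'
  have : ContDiffAt ℝ 0 (fun y => ∑ i, pd i (fun z => dens g z * X i z) y) x :=
    ContDiffAt.sum fun i _ => contDiffAt_pd (m := ∞)
      ((ContDiff.contDiffAt hg.sm_dens).mul (hX i)) (by norm_cast) i
  exact this.continuousAt

/-- the field of the calibration -/
def fl (g : Field n) (U F : E n → ℝ) (i : Fin n) (y : E n) : ℝ :=
  U y ^ (2 * gam n) * gr g F i y / gn g F y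

theorem fl_sm (hg : Met g) (hU : Smooth U) (hl : ∀ x, 1 / 2 ≤ U x) (hF : Smooth F)
    (h : gn g F x ≠ 0) (i : Fin n) : ContDiffAt ℝ ∞ (fl g U F i) x := by
  have h2 : ContDiffAt ℝ ∞ (gn g F) x :=
    (hg.sm_ip hF hF).contDiffAt.sqrt fun h0 => h (by rw [gn, h0, Real.sqrt_zero])
  exact ((hU.rpow (fun y => by linarith [hl y]) _).contDiffAt.mul
    (hg.sm_gr hF i).contDiffAt).div h2 h

/-- a collar of the regular level -/
theorem collar (hg : Met g) (hU : Smooth U) (hl : ∀ x, 1 / 2 ≤ U x) (hF : Smooth F)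
    (hρ : ∀ x, ρ ≤ ‖x‖ → 1 < F x) (hr : ∀ x, F x = 0 → ∃ i, pd i F x ≠ 0) :
    ∃ s₀ > (0 : ℝ), ∃ g₀ > (0 : ℝ), ∃ H₀ ≥ (0 : ℝ), ∀ x, |F x| ≤ s₀ →
      g₀ ≤ gn g F x ∧ dv g (fl g U F) x ≤ H₀ := by
  have cg : Continuous (gn g F) := (hg.sm_ip hF hF).cont.sqrt
  have hA : IsCompact (closedBall (0 : E n) ρ ∩ {x | gn g F x = 0}) :=
    (isCompact_closedBall _ _).inter_right (isClosed_eq cg continuous_const)
  obtain ⟨s₁, h1, h2⟩ := hA.exists_forall_le' (f := fun x => |F x|) hF.cont.abs.continuousOn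
    (a := 0) fun x hx => abs_pos.2 fun h0 => by
      obtain ⟨i, hi⟩ := hr x h0
      have h3 : 0 < ip g F F x := hg.up_pos x (ξ := fun i => pd i F x) fun e => hi (congrFun e i)
      exact (Real.sqrt_pos.2 h3).ne' hx.2
  have hK : IsCompact (closedBall (0 : E n) ρ ∩ {x | |F x| ≤ min (s₁ / 2) 1}) :=
    (isCompact_closedBall _ _).inter_right (isClosed_le hF.cont.abs continuous_const)
  have h4 : ∀ x ∈ closedBall (0 : E n) ρ ∩ {x | |F x| ≤ min (s₁ / 2) 1}, gn g F x ≠ 0 :=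
    fun x hx h0 => by
      have h5 := h2 x ⟨hx.1, h0⟩
      have h6 : |F x| ≤ s₁ / 2 := le_trans hx.2 (min_le_left _ _)
      linarith
  obtain ⟨g₀, h5, h6⟩ := hK.exists_forall_le' (f := gn g F) cg.continuousOn (a := 0)
    fun x hx => lt_of_le_of_ne (gn_nonneg _ _ _) (h4 x hx).symm
  obtain ⟨H, hH⟩ := hK.exists_bound_of_continuousOn (f := dv g (fl g U F))
    fun x hx => (cont_dv hg (fl_sm hg hU hl hF (h4 x hx))).continuousWithinAt
  refine ⟨min (s₁ / 2) 1, lt_min (by linarith) one_pos, g₀, h5, |H|, abs_nonneg _, fun x hx => ?_⟩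
  have h7 : x ∈ closedBall (0 : E n) ρ ∩ {x | |F x| ≤ min (s₁ / 2) 1} := by
    refine ⟨mem_closedBall_zero_iff.2 (not_lt.1 fun h => ?_), hx⟩
    linarith [hρ x h.le, le_abs_self (F x), min_le_right (s₁ / 2) 1]
  exact ⟨h6 x h7, (le_abs_self _).trans ((hH x h7).trans (le_abs_self _))⟩

/-- the profile of the blow up -/
def th (z : ℝ) : ℝ := smoothTransition (2 - z) * (2 - Real.sin z)

theorem th_sm : ContDiff ℝ ∞ th :=
  (Real.smoothTransition.contDiff.comp (contDiff_const.sub contDiff_id)).mul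
    (contDiff_const.sub Real.contDiff_sin)

theorem th_mem (z : ℝ) : 0 ≤ th z ∧ th z ≤ 3 := by
  have h1 := Real.smoothTransition.nonneg (2 - z)
  have h2 := Real.smoothTransition.le_one (2 - z)
  have h3 := Real.sin_le_one z
  have h4 := Real.neg_one_le_sin z
  unfold th
  constructor <;> nlinarith

theorem th_zero {z : ℝ} (h : 2 ≤ z) : th z = 0 := by
  rw [th, Real.smoothTransition.zero_of_nonpos (by linarith), zero_mul]

theorem th_d {z : ℝ} (h : |z| ≤ 1 / 2) : deriv th z ≤ -(1 / 2) := by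
  have e : th =ᶠ[𝓝 z] fun w => 2 - Real.sin w := by
    filter_upwards [gt_mem_nhds (a := 1) (b := z) (by linarith [le_abs_self z])] with w hw
    rw [th, Real.smoothTransition.one_of_one_le (by linarith), one_mul]
  rw [e.deriv_eq, ((Real.hasDerivAt_sin z).const_sub 2).deriv]
  have := Real.one_sub_sq_div_two_le_cos (x := z)
  have h2 : z ^ 2 ≤ (1 / 2) ^ 2 := by rw [← sq_abs]; exact pow_le_pow_left₀ (abs_nonneg _) h 2
  linarith

theorem th_bd : ∃ M ≥ (0 : ℝ), ∀ z ∈ Icc (0 : ℝ) 2, |deriv th z| ≤ M ∧ |deriv (deriv th) z| ≤ M := by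
  have h1 : ContDiff ℝ ∞ (deriv th) := (contDiff_infty_iff_deriv.1 th_sm).2
  have h2 : ContDiff ℝ ∞ (deriv (deriv th)) := (contDiff_infty_iff_deriv.1 h1).2
  obtain ⟨A, hA⟩ := (isCompact_Icc (a := (0 : ℝ)) (b := 2)).exists_bound_of_continuousOn
    h1.continuous.continuousOn
  obtain ⟨B, hB⟩ := (isCompact_Icc (a := (0 : ℝ)) (b := 2)).exists_bound_of_continuousOn
    h2.continuous.continuousOn
  refine ⟨|A| + |B|, by positivity, fun z hz => ⟨?_, ?_⟩⟩
  · linarith [hA z hz, Real.norm_eq_abs (deriv th z), le_abs_self A, abs_nonneg B]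
  · linarith [hB z hz, Real.norm_eq_abs (deriv (deriv th) z), le_abs_self B, abs_nonneg A]

/-- the rescaled profile -/
def ph (H s z : ℝ) : ℝ := 1 + s * H * th (z / s)

theorem ph_sm (H s : ℝ) : ContDiff ℝ ∞ (ph H s) :=
  contDiff_const.add (contDiff_const.mul (th_sm.comp (contDiff_id.div_const s)))

theorem ph_d {s : ℝ} (hs : 0 < s) (H z : ℝ) : HasDerivAt (ph H s) (H * deriv th (z / s)) z := by
  have h1 : HasDerivAt th (deriv th (z / s)) (z / s) :=
    (th_sm.differentiable (by simp) _).hasDerivAt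
  have h2 := ((h1.comp z ((hasDerivAt_id z).div_const s)).const_mul (s * H)).const_add 1
  refine h2.congr_deriv ?_
  field_simp

theorem ph_dd {s : ℝ} (hs : 0 < s) (H z : ℝ) :
    deriv (deriv (ph H s)) z = H / s * deriv (deriv th) (z / s) := by
  have e : deriv (ph H s) = fun z => H * deriv th (z / s) := funext fun z => (ph_d hs H z).deriv
  have h1 : HasDerivAt (deriv th) (deriv (deriv th) (z / s)) (z / s) :=
    ((contDiff_infty_iff_deriv.1 th_sm).2.differentiable (by simp) _).hasDerivAt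
  have h2 := (h1.comp z ((hasDerivAt_id z).div_const s)).const_mul H
  rw [e]
  refine (HasDerivAt.deriv h2).trans ?_
  ring

/-- the conformal blow up makes the level strictly mean concave -/
theorem blow (hn : 3 ≤ n) (hg : Met g) (hU : Smooth U) (hl : ∀ x, 1 / 2 ≤ U x) (hF : Smooth F)
    (hρ : ∀ x, ρ ≤ ‖x‖ → 1 < F x) (hr : ∀ x, F x = 0 → ∃ i, pd i F x ≠ 0) :
    ∃ K ≥ (0 : ℝ), ∀ᶠ s in 𝓝[>] (0 : ℝ), ∃ y : E n → ℝ, Smooth y ∧ (∀ x, 1 ≤ y x ∧ y x ≤ 8 / 7) ∧
      (∀ x, 2 * s ≤ F x → y x = 1) ∧ (∀ x, 0 ≤ F x → F x ≤ 2 * s → s * |wl g U y x| ≤ K) ∧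
      ∀ x, |F x| ≤ s / 2 → gn g F x ≠ 0 ∧
        dv g (fun i z => (U z * y z) ^ (2 * gam n) * gr g F i z / gn g F z) x ≤ -1 := by
  obtain ⟨s₀, s0, g₀, g0, H₀, H0, hc⟩ := collar hg hU hl hF hρ hr
  obtain ⟨M, M0, hM⟩ := th_bd
  obtain ⟨A, hA⟩ := (isCompact_closedBall (0 : E n) ρ).exists_bound_of_continuousOn
    (hg.sm_wl hU hF).cont.continuousOn
  obtain ⟨B, hB⟩ := (isCompact_closedBall (0 : E n) ρ).exists_bound_of_continuousOn
    (f := fun x => U x ^ 2 * ip g F F x) ((hU.cont.pow 2).mul (hg.sm_ip hF hF).cont).continuousOn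
  obtain ⟨H, hH⟩ : ∃ H, H = 16 * (2 * H₀ + 1) / g₀ := ⟨_, rfl⟩
  have H1 : 0 < H := by rw [hH]; positivity
  have H2 : H * g₀ = 16 * (2 * H₀ + 1) := by rw [hH]; field_simp
  refine ⟨H * M * (|A| + |B|), by positivity, ?_⟩
  filter_upwards [ev_small H (t := 1 / 21) (by norm_num), ev_small 1 (t := 1 / 2) (by norm_num),
    ev_small 1 s0, self_mem_nhdsWithin] with s k1 k2 k3 k4
  have hs : 0 < s := k4
  have y1 : ∀ z, 1 ≤ ph H s z ∧ ph H s z ≤ 8 / 7 := fun z => by
    have := th_mem (z / s)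
    have h5 : 0 < s * H := by positivity
    unfold ph
    constructor <;> nlinarith
  have sy : Smooth fun x => ph H s (F x) := (ph_sm H s).comp hF
  refine ⟨fun x => ph H s (F x), sy, fun x => y1 _, fun x hx => ?_, fun x h1 h2 => ?_,
    fun x hx => ?_⟩
  · simp only [ph]
    rw [th_zero ((le_div_iff₀ hs).2 hx), mul_zero, add_zero]
  · have hx : x ∈ closedBall (0 : E n) ρ :=
      mem_closedBall_zero_iff.2 (not_lt.1 fun h => by linarith [hρ x h.le])
    obtain ⟨m1, m2⟩ := hM (F x / s) ⟨by positivity, (div_le_iff₀ hs).2 h2⟩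
    have a1 : |wl g U F x| ≤ |A| := (hA x hx).trans (le_abs_self _)
    have a2 : |U x ^ 2 * ip g F F x| ≤ |B| := (hB x hx).trans (le_abs_self _)
    rw [hg.wl_comp (hU.diff x) (hF.c2 x) ((ph_sm H s).contDiffAt.of_le (by norm_cast)),
      (ph_d hs H _).deriv, ph_dd hs, ← abs_of_pos hs, ← abs_mul, abs_of_pos hs]
    have e : s * (H * deriv th (F x / s) * wl g U F x +
        H / s * deriv (deriv th) (F x / s) * (U x ^ 2 * ip g F F x)) =
        H * (s * (deriv th (F x / s) * wl g U F x) +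
          deriv (deriv th) (F x / s) * (U x ^ 2 * ip g F F x)) := by field_simp
    rw [e, abs_mul, abs_of_pos H1, mul_assoc H]
    refine mul_le_mul_of_nonneg_left ((abs_add_le _ _).trans ?_) H1.le
    rw [abs_mul, abs_mul, abs_mul (deriv (deriv th) _), abs_of_pos hs]
    have b1 := mul_le_mul m1 a1 (abs_nonneg _) M0
    have b2 := mul_le_mul m2 a2 (abs_nonneg _) M0
    have b3 : s * (|deriv th (F x / s)| * |wl g U F x|) ≤ 1 * (M * |A|) :=
      mul_le_mul (by linarith) b1 (by positivity) zero_le_one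
    linarith
  · obtain ⟨c1, c2⟩ := hc x (by linarith)
    have c0 : gn g F x ≠ 0 := by linarith
    refine ⟨c0, ?_⟩
    have y0 : ∀ z, 0 < ph H s (F z) := fun z => by linarith [(y1 (F z)).1]
    have e : (fun i z => (U z * ph H s (F z)) ^ (2 * gam n) * gr g F i z / gn g F z) =
        fun i z => ph H s (F z) ^ (2 * gam n) * fl g U F i z := by
      funext i z
      rw [fl, Real.mul_rpow (by linarith [hl z]) (y0 z).le]; ring
    have d1 : ∀ i, pd i (fun z => ph H s (F z) ^ (2 * gam n)) x =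
        2 * gam n * ph H s (F x) ^ (2 * gam n - 1) * (H * deriv th (F x / s)) * pd i F x :=
      fun i => by
        rw [pd_rpow (sy.diff x) (y0 x).ne', pd_comp (ph_d hs H _) (hF.diff x)]; ring
    have d2 : ∑ i, pd i F x * fl g U F i x = U x ^ (2 * gam n) * gn g F x := by
      have : ∑ i, pd i F x * fl g U F i x = U x ^ (2 * gam n) * ip g F F x / gn g F x := by
        rw [ip_eq_gr, Finset.mul_sum, Finset.sum_div]
        exact Finset.sum_congr rfl fun i _ => by rw [fl]; ring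
      rw [this, ← hg.gn_sq]; field_simp
    rw [e, hg.dv_smul ((sy.rpow y0 _).diff x)
      fun i => (fl_sm hg hU hl hF c0 i).differentiableAt (by simp)]
    simp only [d1, mul_assoc _ (pd _ F x), ← Finset.mul_sum, d2]
    have g1 := one_lt_gam hn
    have g2 := gam_le hn
    have p1 : ph H s (F x) ^ (2 * gam n) ≤ 2 := by
      calc ph H s (F x) ^ (2 * gam n) ≤ ph H s (F x) ^ ((4 : ℕ) : ℝ) :=
            Real.rpow_le_rpow_of_exponent_le (y1 _).1 (by push_cast; linarith)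
        _ = ph H s (F x) ^ 4 := Real.rpow_natCast _ _
        _ ≤ (8 / 7) ^ 4 := pow_le_pow_left₀ (y0 x).le (y1 _).2 4
        _ ≤ 2 := by norm_num
    have p0 : 0 ≤ ph H s (F x) ^ (2 * gam n) := Real.rpow_nonneg (y0 x).le _
    have p2 : 1 ≤ ph H s (F x) ^ (2 * gam n - 1) := Real.one_le_rpow (y1 _).1 (by linarith)
    have p3 : 1 / 16 ≤ U x ^ (2 * gam n) := by
      calc (1 / 16 : ℝ) = (1 / 2) ^ ((4 : ℕ) : ℝ) := by rw [Real.rpow_natCast]; norm_num
        _ ≤ (1 / 2) ^ (2 * gam n) :=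
            Real.rpow_le_rpow_of_exponent_ge (by norm_num) (by norm_num) (by push_cast; linarith)
        _ ≤ U x ^ (2 * gam n) := Real.rpow_le_rpow (by norm_num) (hl x) (by linarith)
    have p4 : deriv th (F x / s) ≤ -(1 / 2) :=
      th_d (by rw [abs_div, abs_of_pos hs, div_le_iff₀ hs]; linarith)
    have q1 : ph H s (F x) ^ (2 * gam n) * dv g (fl g U F) x ≤ 2 * H₀ :=
      (mul_le_mul_of_nonneg_left c2 p0).trans (mul_le_mul_of_nonneg_right p1 H0)
    have q2 : 2 * 1 ≤ 2 * gam n * ph H s (F x) ^ (2 * gam n - 1) :=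
      mul_le_mul (by linarith) p2 zero_le_one (by linarith)
    have q3 : 1 / 16 * g₀ ≤ U x ^ (2 * gam n) * gn g F x :=
      mul_le_mul p3 c1 g0.le (by linarith)
    have q4 : H * (1 / 2) ≤ H * -deriv th (F x / s) :=
      mul_le_mul_of_nonneg_left (by linarith) H1.le
    have q5 := mul_le_mul (mul_le_mul q2 q4 (by positivity) (by linarith)) q3 (by positivity)
      (mul_nonneg (by linarith) (by linarith [mul_pos H1 (by norm_num : (0 : ℝ) < 1 / 2)]))
    nlinarith

end Vale.Agent.P366Z.RedH
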