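import Vale.Agent.P366Y.G.Sk
import Vale.Agent.P366Y.G.Red0
import Vale.Agent.P366Z.Upd

/-!
# P366Y, RED: from a neck to a background with a shield
-/

open MeasureTheory Metric Filter Topology Set
open scoped ContDiff ENNReal
open Vale.Agent.P366.Stmt

noncomputable section

namespace Vale.Agent.P366Z

namespace RedH

/-- the profile of the shield -/
theorem prof {C δ s T : ℝ} (hC : 0 < C) (hδ : 0 < δ) (hs : 0 < s) (hT : 0 ≤ T) :
    ∃ p : ℝ → ℝ, ContDiff ℝ ∞ p ∧ (∀ z, 0 < p z) ∧ (∀ z ≤ 1, p z = C / (δ * s)) ∧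
      (∀ z ≥ T + 2, p z = C / (δ * (s + T))) ∧ ∀ z, |deriv p z| * C ≤ δ * p z ^ 2 := by
  obtain ⟨e, f, hf⟩ := UpdH.ex_fc (η' := 1) one_pos
  have w0 : ∀ z, 0 < s + f z - f (z - T) := fun z => by
    linarith [UpdH.mono hf (sub_le_self z hT)]
  have df : ∀ z, HasDerivAt f (deriv f z) z := fun z =>
    (hf.sm.differentiable (by simp) z).hasDerivAt
  refine ⟨fun z => C / (δ * (s + f z - f (z - T))), contDiff_const.div (contDiff_const.mul
    ((contDiff_const.add hf.sm).sub (hf.sm.comp (contDiff_id.sub contDiff_const))))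
    fun z => (mul_pos hδ (w0 z)).ne', fun z => div_pos hC (mul_pos hδ (w0 z)), fun z hz => ?_,
    fun z hz => ?_, fun z => ?_⟩
  · simp only [hf.zero z hz, hf.zero (z - T) (by linarith), add_zero, sub_zero]
  · simp only [hf.lin z (by linarith), hf.lin (z - T) (by linarith)]
    congr 2; ring
  · have d1 : HasDerivAt (fun z => δ * (s + f z - f (z - T)))
        (δ * (deriv f z - deriv f (z - T))) z :=
      (((df z).const_add s).sub ((df (z - T)).comp_sub_const z T)).const_mul δ
    have d2 := (hasDerivAt_const z C).fun_div d1 (mul_pos hδ (w0 z)).ne'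
    rw [d2.deriv, zero_mul, zero_sub, abs_div, abs_neg, abs_mul, abs_mul, abs_of_pos hC,
      abs_of_pos hδ, abs_sq, div_pow, div_mul_eq_mul_div, ← mul_div_assoc]
    refine div_le_div_of_nonneg_right ?_ (sq_nonneg _)
    have h1 : |deriv f z - deriv f (z - T)| ≤ 1 :=
      abs_le.2 ⟨by linarith [(hf.d1 z).1, (hf.d1 (z - T)).2],
        by linarith [(hf.d1 z).2, (hf.d1 (z - T)).1]⟩
    have h2 := mul_le_mul_of_nonneg_left h1 (show 0 ≤ C * δ * C by positivity)
    linarith

theorem asy_out {n : ℕ} {u v : E n → ℝ} {a β R : ℝ} (h : Asy u a β)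
    (e : ∀ x, R ≤ ‖x‖ → v x = u x) : Asy v a β := by
  obtain ⟨C, R', h⟩ := h
  refine ⟨C, max R' (R + 1), fun x hx => ?_⟩
  have h1 : R < ‖x‖ := by linarith [le_max_right R' (R + 1)]
  have h2 : v =ᶠ[𝓝 x] u := by
    filter_upwards [(isOpen_lt continuous_const continuous_norm).mem_nhds h1] with y hy
    exact e y (le_of_lt hy)
  simp only [e x h1.le, pd_congr h2]
  exact h x ((le_max_left _ _).trans hx)

end RedH

namespace Y

open RedH

theorem red : RED := by
  intro n D m hn hN η hη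
  obtain ⟨ρ, hρ, hN⟩ := hN η hη
  refine ⟨ρ, fun δ hδ => ?_⟩
  obtain ⟨c₀, hc, hN⟩ := hN δ hδ
  obtain ⟨A, A0, hA⟩ := fderiv_cut n
  obtain ⟨C, hC⟩ : ∃ C, C = 1 / c₀ + 1 := ⟨_, rfl⟩
  have C0 : 0 < C := by rw [hC]; positivity
  obtain ⟨T, hT⟩ : ∃ T, T = C * A / (δ * δ * c₀) := ⟨_, rfl⟩
  have T0 : 0 < T := by rw [hT]; positivity
  obtain ⟨g, u, Q, t, β, h, hu⟩ := hN (T + 6)
  obtain ⟨t', st, ht1, ht2, ht3⟩ := pert h.met h.flat h.smt
  obtain ⟨t₀, ⟨a1, a2⟩, a3⟩ : ∃ t₀ ∈ Ioo (T + 3) (T + 4), t₀ ∉ Lk.Cv t' := by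
    by_contra k
    have k1 : Ioo (T + 3) (T + 4) ⊆ Lk.Cv t' := fun z hz => by_contra fun k2 => k ⟨z, hz, k2⟩
    have k2 := measure_mono_null k1 ht3
    rw [Real.volume_Ioo, ENNReal.ofReal_eq_zero] at k2
    linarith
  obtain ⟨F, hF⟩ : ∃ F : E n → ℝ, F = fun x => t₀ - t' x := ⟨_, rfl⟩
  have sF : Smooth F := by rw [hF]; exact ContDiff.sub contDiff_const st
  have F1 : ∀ x, t₀ - t x - 1 / 2 ≤ F x ∧ F x ≤ t₀ - t x + 1 / 2 := fun x => by
    have := abs_le.1 (ht1 x)
    rw [hF]; constructor <;> linarith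
  have F2 : ∀ i x, pd i F x = -1 * pd i t' x := fun i x => by rw [hF, pd_const_sub]; ring
  have F3 : ∀ x, ρ / 2 ≤ ‖x‖ → T + 2 < F x := fun x hx => by linarith [(F1 x).1, h.out x hx]
  obtain ⟨K, K0, hK⟩ := blow hn h.met h.smu h.lo sF (ρ := ρ / 2)
    (fun x hx => by linarith [F3 x hx]) fun x hx => by
      by_contra k
      refine a3 ⟨x, ?_, fun i => ?_⟩
      · rw [hF] at hx; linarith
      · have k1 : pd i F x = 0 := by_contra fun k1 => k ⟨i, k1⟩
        linarith [F2 i x]
  obtain ⟨s, ⟨⟨y, sy, y1, y2, y3, y4⟩, s1, s2⟩, hs⟩ := ((hK.and ((ev_small 1 (t := 1 / 2)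
    (by norm_num)).and (ev_small (32 * K * δ ^ 2) (pow_pos C0 2)))).and self_mem_nhdsWithin).exists
  replace hs : 0 < s := hs
  obtain ⟨p, sp, p0, p1, p2, p3⟩ := prof C0 hδ hs T0.le
  have u0 : ∀ x, 0 < u x := fun x => by linarith [h.lo x]
  have y0 : ∀ x, 0 < y x := fun x => by linarith [(y1 x).1]
  have sU : Smooth fun x => u x * y x := ContDiff.mul h.smu sy
  have U0 : ∀ x, 0 < u x * y x := fun x => mul_pos (u0 x) (y0 x)
  have U1 : ∀ x, u x ≤ u x * y x := fun x => le_mul_of_one_le_right (u0 x).le (y1 x).1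
  obtain ⟨Q', hQ⟩ : ∃ Q' : E n → ℝ, Q' = fun x => lap g (fun z => u z * y z) x / (u x * y x) :=
    ⟨_, rfl⟩
  have sQ : Smooth Q' := by
    rw [hQ]; exact ContDiff.div (h.met.sm_lap sU) sU fun x => (U0 x).ne'
  have Q1 : ∀ x, Q' x = Q x + wl g u y x / (u x * (u x * y x)) := fun x => by
    have := (u0 x).ne'
    have := (y0 x).ne'
    simp only [hQ]
    rw [h.met.lap_mul_wl (h.smu.c2 x) (sy.c2 x) (u0 x).ne', h.eqn]
    field_simp
  have Q2 : ∀ x, 2 * s < F x → Q' x = Q x := fun x hx => by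
    have e : y =ᶠ[𝓝 x] fun _ => 1 := by
      filter_upwards [(isOpen_lt continuous_const sF.cont).mem_nhds hx] with z hz
      exact y2 z (le_of_lt hz)
    rw [Q1, wl_congr (EventuallyEq.refl _ u) e, wl_const, zero_div, add_zero]
  have Q3 : ∀ x, ρ / 2 ≤ ‖x‖ → Q' x = Q x := fun x hx => Q2 x (by linarith [F3 x hx])
  have r0 : 0 < ρ / 2 := by linarith
  have c1 : ∀ x, 0 < t x → ‖x‖ < ρ / 2 := fun x hx => not_le.1 fun k => by linarith [h.out x k]
  have g1 := one_lt_gam hn
  have g2 := gam_le hn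
  refine ⟨⟨g, F, fun x => u x * y x, Q', ρ, s / 2, 1, δ⟩, β, ⟨hn, h.met,
    h.flat.mono (by linarith), by linarith, sF, sU, half_pos hs, one_pos, hδ,
    fun x hx => ?_, ?_, fun x => ⟨?_, ?_⟩, fun x => ?_,
    ⟨fun x => cut (ρ / 2) x * p (F x), ContDiff.mul (sm_cut _) (sp.comp sF),
      fun x => mul_nonneg (cut_nonneg _ _) (p0 _).le, fun x hx => ?_, fun x hx => ?_⟩,
    fun x hx => ?_, ?_, y4⟩, le_rfl, le_rfl, asy_out h.asy (R := ρ / 2) fun x hx => ?_, h.mass,
    fun x hx => ?_, fun x hx ξ => (h.cmp x hx ξ).trans ?_⟩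
  · linarith [F3 x (by dsimp only at hx; linarith)]
  · obtain ⟨x, hx⟩ := D.bdry
    exact ⟨x, by linarith [(F1 x).2, h.deep x hx.le]⟩
  · linarith [h.lo x, U1 x]
  · have := mul_le_mul (hu x) (y1 x).2 (y0 x).le (by norm_num)
    linarith
  · simp only [hQ]
    rw [div_mul_cancel₀ _ (U0 x).ne']
  · dsimp only at hx ⊢
    rw [cut_zero (x := x) r0 (by linarith), zero_mul]
  · dsimp only at hx ⊢
    have S0 := h.pos x (by linarith [(F1 x).2])
    have m0 := le_max_right (scal g x - 4 * gam n * Q' x) 0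
    have m1 := le_max_left (scal g x - 4 * gam n * Q' x) 0
    constructor
    · by_cases k : 2 * s < F x
      · rw [Q2 x k]; positivity
      · have k1 := y3 x hx (not_lt.1 k)
        rw [cut_one (c1 x (by linarith [(F1 x).1])).le, p1 _ (by linarith), one_mul, Q1]
        have k2 : 1 / 2 * (1 / 2) ≤ u x * (u x * y x) :=
          mul_le_mul (h.lo x) ((h.lo x).trans (U1 x)) (by norm_num) (u0 x).le
        have k3 : wl g u y x / (u x * (u x * y x)) ≤ 4 * K / s := by
          rw [div_le_div_iff₀ (by linarith) hs]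
          have := mul_le_mul_of_nonneg_left (le_abs_self (wl g u y x)) hs.le
          nlinarith
        have k4 : 8 * (4 * K / s) ≤ (C / (δ * s)) ^ 2 := by
          rw [div_pow, ← mul_div_assoc, div_le_div_iff₀ hs (by positivity)]
          have := mul_le_mul_of_nonneg_right s2.le hs.le
          nlinarith
        have k5 : 0 ≤ 4 * K / s := by positivity
        have k6 := mul_le_mul_of_nonneg_left k3 (show 0 ≤ 4 * gam n by linarith)
        have k7 := mul_le_mul_of_nonneg_right (show 4 * gam n ≤ 8 by linarith) k5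
        linarith
    · by_cases k : 0 < t x
      · have e : (fun z => cut (ρ / 2) z * p (F z)) =ᶠ[𝓝 x] fun z => p (F z) := by
          filter_upwards [(isOpen_lt continuous_norm continuous_const).mem_nhds (c1 x k)] with z hz
          rw [cut_one (le_of_lt hz), one_mul]
        have k1 := (h.nk x k.le (by linarith [(F1 x).2])).2
        have k2 : gn g F x ≤ C := by
          rw [gn_of_pd (F2 · x), hC, abs_neg, abs_one, one_mul]
          have : gn g t x ≤ 1 / c₀ := by rw [le_div_iff₀ hc]; linarith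
          linarith [ht2 x]
        rw [gn_congr e, gn_comp (sp.differentiable (by simp) _).hasDerivAt (sF.diff x),
          cut_one (c1 x k).le, one_mul]
        have k3 := mul_le_mul_of_nonneg_left k2 (abs_nonneg (deriv p (F x)))
        have k4 := mul_nonneg hδ.le m0
        linarith [p3 (F x)]
      · have k0 : T + 2 < F x := by linarith [(F1 x).1]
        have e : (fun z => cut (ρ / 2) z * p (F z)) =ᶠ[𝓝 x]
            fun z => C / (δ * (s + T)) * cut (ρ / 2) z := by
          filter_upwards [(isOpen_lt continuous_const sF.cont).mem_nhds k0] with z hz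
          rw [p2 _ (le_of_lt hz), mul_comm]
        have k1 : 0 < C / (δ * (s + T)) := by positivity
        have k5 := mul_nonneg hδ.le (sq_nonneg (cut (ρ / 2) x * p (F x)))
        have k6 := mul_nonneg hδ.le m0
        rw [gn_congr e, gn_of_pd (pd_const_mul _), abs_of_pos k1]
        by_cases k2 : ‖x‖ < ρ / 2
        · rw [gn_zero (pd_cut_in k2)]; linarith
        by_cases k3 : 2 * (ρ / 2) < ‖x‖
        · rw [gn_zero (pd_cut_out r0 k3)]; linarith
        have k4 := h.ann x (not_lt.1 k2) (by linarith)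
        rw [h.flat.gn_eq (not_lt.1 k2), gn_eu ((sm_cut _).diff x)]
        have k7 : ‖fderiv ℝ (cut (ρ / 2)) x‖ ≤ A :=
          (hA _ r0 x).trans (div_le_self A0.le (by linarith))
        have k8 : C / (δ * (s + T)) * A ≤ δ * c₀ := by
          rw [div_mul_eq_mul_div, div_le_iff₀ (by positivity)]
          have e1 : C * A = T * (δ * δ * c₀) := by rw [hT]; field_simp
          have : 0 < s * (δ * δ * c₀) := by positivity
          nlinarith
        have k9 := mul_le_mul_of_nonneg_left k7 k1.le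
        rw [← Q2 x (by linarith)] at k4
        have k10 := mul_le_mul_of_nonneg_left (k4.trans m1) hδ.le
        linarith
  · dsimp only at hx ⊢
    rw [Q3 x (by linarith)]
    exact h.Qf x hx
  · obtain ⟨L, hL⟩ := h.Qd
    obtain ⟨L', -, hL'⟩ := bdd_of_out (F := fderiv ℝ Q') (sQ.continuous_fderiv (by simp))
      (R := ρ) (C := L) fun z hz => by
        have e : Q' =ᶠ[𝓝 z] Q := by
          filter_upwards [(isOpen_lt continuous_const continuous_norm).mem_nhds hz] with w hw
          exact Q3 w (by linarith [show ρ < ‖w‖ from hw])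
        rw [e.fderiv_eq]
        exact hL z hz.le
    exact ⟨L', hL'⟩
  · simp only [y2 x (by linarith [F3 x hx]), mul_one]
  · linarith [(F1 x).2, h.deep x hx]
  · refine mul_le_mul_of_nonneg_right (mul_le_mul_of_nonneg_right
      (Real.rpow_le_rpow (u0 x).le (U1 x) (by linarith)) (Real.sqrt_nonneg _)) (dens_nonneg _ _)

end Y

end Vale.Agent.P366Z
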