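import Vale.Agent.P366Y.G.All
import Vale.Agent.P366Y.G.Scf
import Vale.Agent.P366Y.G.Nk2
import Vale.Agent.P366Y.G.Red

/-!
# P366Y, block G: the inequality for a neck
-/

namespace Vale.Agent.P366Z.Y

/-- block G -/
theorem rps : RPS := rps_of (nk2_of scf) red

end Vale.Agent.P366Z.Y
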