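import Vale.Agent.P366Y.G.Int
import Vale.Agent.P366Z.One0

/-!
# P366Y, block G: near minimisers
-/

open MeasureTheory Metric Filter Topology Set
open scoped ContDiff ENNReal
open Vale.Agent.P366.Stmt

noncomputable section

namespace Vale.Agent.P366Z.Y

variable {n : ℕ} {U : E n → ℝ}

variable {B : Bg n} {L κ : ℝ} {m p q ψ : E n → ℝ}

theorem pp_nonneg (hP : Pen B L m p q) (hψ : Cls B L ψ) (hU : ∀ x, 0 ≤ U x) (hκ : 0 ≤ κ) :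
    0 ≤ pp B m U κ ψ :=
  add_nonneg (per_nonneg B ψ hU) (mul_nonneg hκ (integral_nonneg fun x =>
    mul_nonneg (mul_nonneg (hP.m01 x).1 (hψ.mem x).1) (dens_nonneg _ _)))

theorem exists_near (hP : Pen B L m p q) (hψ : Cls B L ψ) (hU : ∀ x, 0 ≤ U x) (hκ : 0 ≤ κ)
    {η : ℝ} (hη : 0 < η) : ∃ ψ₀, Near B L m U κ η ψ₀ := by
  have hb : BddBelow (pp B m U κ '' {ψ | Cls B L ψ}) :=
    ⟨0, by rintro _ ⟨ψ', h1, rfl⟩; exact pp_nonneg hP h1 hU hκ⟩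
  obtain ⟨_, ⟨ψ₀, h1, rfl⟩, h2⟩ := Real.lt_sInf_add_pos
    (s := pp B m U κ '' {ψ | Cls B L ψ}) ⟨_, ψ, hψ, rfl⟩ hη
  exact ⟨ψ₀, h1, fun ψ' h3 => h2.le.trans (by gcongr; exact csInf_le hb ⟨ψ', h3, rfl⟩)⟩

end Vale.Agent.P366Z.Y
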