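import Vale.Agent.P366Y.G.Int
import Vale.Agent.P366Y.G.One0

/-!
# P366Y, block G (after P366Z): the discrepancy
-/

open Metric Filter Topology Set
open scoped ContDiff
open Vale.Agent.P366.Stmt

noncomputable section

namespace Vale.Agent.P366Z.Y

namespace B2x

variable {n : ℕ} {g : Field n} {w k u v a : E n → ℝ} {x : E n} {ε : ℝ}

/-- the function `cosh ^ 2 (d / ε)` -/
def ps (w : E n → ℝ) (x : E n) : ℝ := (1 - w x ^ 2)⁻¹

theorem one_sub_pos (hw : ∀ x, |w x| < 1) (x : E n) : 0 < 1 - w x ^ 2 := by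
  have := (sq_lt_one_iff_abs_lt_one _).2 (hw x)
  linarith

theorem ps_mul (hw : ∀ x, |w x| < 1) (x : E n) : ps w x * (1 - w x ^ 2) = 1 :=
  inv_mul_cancel₀ (one_sub_pos hw x).ne'

theorem one_le_ps (hw : ∀ x, |w x| < 1) (x : E n) : 1 ≤ ps w x :=
  (one_le_inv₀ (one_sub_pos hw x)).2 (by linarith [sq_nonneg (w x)])

theorem sm_ps (hs : Smooth w) (hw : ∀ x, |w x| < 1) : Smooth (ps w) :=
  ContDiff.inv (contDiff_const.sub (ContDiff.pow hs 2)) fun x => (one_sub_pos hw x).ne'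

theorem pd_dd (hs : Smooth w) (hw : ∀ x, |w x| < 1) (ε : ℝ) (x : E n) (i : Fin n) :
    pd i (dd ε w) x = ε * ps w x * pd i w x := by
  obtain ⟨h1, h2⟩ := abs_lt.1 (hw x)
  have a1 : 1 + w x ≠ 0 := by linarith
  have a2 : 1 - w x ≠ 0 := by linarith
  have d1 : DifferentiableAt ℝ (fun y => 1 + w y) x := (hs.diff x).const_add 1
  have d2 : DifferentiableAt ℝ (fun y => 1 - w y) x := (hs.diff x).const_sub 1
  have e : 1 - w x ^ 2 = (1 + w x) * (1 - w x) := by ring
  have d3 : DifferentiableAt ℝ (fun y => (1 + w y) / (1 - w y)) x := by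
    simp only [div_eq_mul_inv]
    exact d1.fun_mul (d2.fun_inv a2)
  unfold dd ps
  rw [pd_const_mul, pd_log d3 (div_ne_zero a1 a2), pd_div d1 d2 a2, pd_const_add,
    pd_const_sub, e]
  field_simp
  ring

theorem pd_w (hs : Smooth w) (hw : ∀ x, |w x| < 1) (hε : 0 < ε) (x : E n) (i : Fin n) :
    pd i w x = (1 - w x ^ 2) / ε * pd i (dd ε w) x := by
  have := (one_sub_pos hw x).ne'
  rw [pd_dd hs hw, ps]
  field_simp

theorem pd_ps (hs : Smooth w) (hw : ∀ x, |w x| < 1) (hε : 0 < ε) (x : E n) (i : Fin n) :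
    pd i (ps w) x = 2 / ε * (w x * ps w x) * pd i (dd ε w) x := by
  have := (one_sub_pos hw x).ne'
  rw [pd_dd hs hw]
  unfold ps
  rw [pd_inv (((hs.diff x).fun_pow 2).const_sub 1) this, pd_const_sub, pd_pow (hs.diff x)]
  field_simp
  norm_num
  ring

theorem lap_of_pd (hg : Met g) (ha : Smooth a) (hv : Smooth v)
    (e : ∀ y i, pd i u y = a y * pd i v y) : lap g u x = a x * lap g v x + ip g a v x := by
  have := hg.wl_of_pd (U := fun _ => 1) (u := u) (b := fun _ => 0) (differentiableAt_const _)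
    (ha.diff x) (differentiableAt_const _) (hv.c2 x) (hv.c2 x)
    (Eventually.of_forall fun y i => by rw [e, zero_mul, add_zero])
  simpa [wl_one, ip_const_left] using this

theorem ip_w (hs : Smooth w) (hw : ∀ x, |w x| < 1) (hε : 0 < ε) :
    ip g w (dd ε w) x = (1 - w x ^ 2) / ε * ip g (dd ε w) (dd ε w) x := by
  rw [ip_of_pd (pd_w hs hw hε x) (t := 1) (v' := dd ε w) fun i => (one_mul _).symm, mul_one]

theorem ip_ps (hs : Smooth w) (hw : ∀ x, |w x| < 1) (hε : 0 < ε) :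
    ip g (ps w) (dd ε w) x = 2 / ε * (w x * ps w x) * ip g (dd ε w) (dd ε w) x := by
  rw [ip_of_pd (pd_ps hs hw hε x) (t := 1) (v' := dd ε w) fun i => (one_mul _).symm, mul_one]

theorem lap_dd (hg : Met g) (hs : Smooth w) (hw : ∀ x, |w x| < 1) (hε : 0 < ε)
    (e : ε * lap g w x = (-2 * w x / ε + k x) * (1 - w x ^ 2)) :
    lap g (dd ε w) x = 2 / ε * (w x * (ip g (dd ε w) (dd ε w) x - 1)) + k x := by
  have h := lap_of_pd (x := x) hg (u := w) (a := fun y => (1 - w y ^ 2) / ε)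
    (ContDiff.div_const (contDiff_const.sub (ContDiff.pow hs 2)) _) (sm_dd hs hw ε) (pd_w hs hw hε)
  have h2 : ip g (fun y => (1 - w y ^ 2) / ε) (dd ε w) x = -2 * w x / ε * ip g w (dd ε w) x := by
    rw [ip_of_pd (s := -2 * w x / ε) (u' := w) (t := 1) (v' := dd ε w) (fun i => ?_)
      fun i => (one_mul _).symm, mul_one]
    simp only [div_eq_mul_inv]
    rw [pd_mul_const, pd_const_sub, pd_pow (hs.diff x)]
    norm_num
    ring
  rw [h, h2, ip_w hs hw hε] at e
  refine mul_left_cancel₀ (one_sub_pos hw x).ne' ?_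
  field_simp
  field_simp at e
  linarith

theorem lap_ps (hg : Met g) (hs : Smooth w) (hw : ∀ x, |w x| < 1) (hε : 0 < ε) :
    lap g (ps w) x = 2 / ε * (w x * ps w x) * lap g (dd ε w) x +
      2 / ε ^ 2 * (ps w x * (1 + w x ^ 2)) * ip g (dd ε w) (dd ε w) x := by
  have h2 : ip g (fun y => 2 / ε * (w y * ps w y)) (dd ε w) x =
      2 / ε * ps w x * ip g w (dd ε w) x + 2 / ε * w x * ip g (ps w) (dd ε w) x :=
    ip_of_pd_add fun i => by
      rw [pd_const_mul, pd_mul (hs.diff x) ((sm_ps hs hw).diff x)]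
      ring
  rw [lap_of_pd hg (a := fun y => 2 / ε * (w y * ps w y))
    (contDiff_const.mul (ContDiff.mul hs (sm_ps hs hw))) (sm_dd hs hw ε) (pd_ps hs hw hε), h2,
    ip_w hs hw hε, ip_ps hs hw hε]
  have := (one_sub_pos hw x).ne'
  unfold ps
  field_simp
  ring

/-- the inequality at an interior maximum -/
theorem core (hP : PTM) (hg : Met g) (hs : Smooth w) (hw : ∀ x, |w x| < 1) (hε : 0 < ε)
    (hk : Smooth k) (e : ∀ᶠ y in 𝓝 x, ε * lap g w y = (-2 * w y / ε + k y) * (1 - w y ^ 2))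
    {δ C K : ℝ} (hδ : 0 ≤ δ) (hC : 0 ≤ C)
    (hm : IsLocalMax (fun y => 1 * ip g (dd ε w) (dd ε w) y + -δ * ps w y) x)
    (hB : ip g (dd ε w) (lap g (dd ε w)) x - C * ip g (dd ε w) (dd ε w) x ≤
      lap g (ip g (dd ε w) (dd ε w)) x / 2)
    (h2 : ip g (dd ε w) (dd ε w) x ≤ 2) (hK : ip g k k x ≤ K) (hk' : ε * |k x| ≤ 1 / 2)
    (hY : δ * ps w x < ip g (dd ε w) (dd ε w) x - 1) : δ ≤ ε ^ 2 * (4 * C + 2 + K) := by
  have sd := sm_dd hs hw ε
  have sz := hg.sm_ip sd sd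
  have sp := sm_ps hs hw
  obtain ⟨m1, m2⟩ := hP n g (fun _ => 1) _ x hg contDiff_const
    ((contDiffAt_const.mul (sz.c2 x)).add (contDiffAt_const.mul (sp.c2 x))) hm
  rw [wl_one, hg.lap_lin (sz.c2 x) (sp.c2 x), lap_ps hg hs hw hε,
    lap_dd hg hs hw hε e.self_of_nhds] at m2
  have m3 : ip g (ip g (dd ε w) (dd ε w)) (dd ε w) x = δ * ip g (ps w) (dd ε w) x := by
    rw [ip_of_pd (s := δ) (u' := ps w) (t := 1) (v' := dd ε w) (fun i => ?_)
      fun i => (one_mul _).symm, mul_one]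
    have := m1 i
    rw [pd_add ((sz.diff x).const_mul _) ((sp.diff x).const_mul _), pd_const_mul,
      pd_const_mul] at this
    linarith
  have m4 : ip g (lap g (dd ε w)) (dd ε w) x = 2 / ε * ((ip g (dd ε w) (dd ε w) x - 1) *
      ip g w (dd ε w) x + w x * ip g (ip g (dd ε w) (dd ε w)) (dd ε w) x) + ip g k (dd ε w) x := by
    have d1 : DifferentiableAt ℝ (fun y => ip g (dd ε w) (dd ε w) y - 1) x :=
      (sz.diff x).sub_const 1
    have d2 := (hs.diff x).fun_mul d1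
    rw [ip_congr (e.mono fun y hy => lap_dd hg hs hw hε hy) EventuallyEq.rfl,
      ip_add_left (d2.const_mul _) (hk.diff x),
      ip_of_pd_add (u := fun y => 2 / ε * (w y * (ip g (dd ε w) (dd ε w) y - 1)))
        (s := 2 / ε * (ip g (dd ε w) (dd ε w) x - 1)) (t := 2 / ε * w x) (u₁ := w)
        (u₂ := ip g (dd ε w) (dd ε w)) fun i => by
          rw [pd_const_mul, pd_mul (hs.diff x) d1, pd_sub_const]
          ring]
    ring
  rw [hg.ip_sy, m4, m3, ip_w hs hw hε, ip_ps hs hw hε] at hB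
  have c0 := hg.ip_nonneg k x
  have c1 := hg.ip_cs k (dd ε w) x
  have p1 := ps_mul hw x
  have p2 := one_le_ps hw x
  have p3 := one_sub_pos hw x
  have w1 := (hw x).le
  generalize ip g (dd ε w) (dd ε w) x = Z at *
  generalize ps w x = P at *
  generalize lap g (ip g (dd ε w) (dd ε w)) x = Lz at *
  generalize ip g k (dd ε w) x = J at *
  generalize ip g k k x = K' at *
  have q0 : 0 ≤ δ * P := by positivity
  have z0 : 0 ≤ Z := by linarith
  have c2 : -((Z + K') / 2) ≤ J :=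
    (abs_le_of_sq_le_sq' (by nlinarith [sq_nonneg (Z - K')]) (by positivity)).1
  have k1 : ε * (w x * k x) ≤ 1 / 2 := by
    refine le_trans (mul_le_mul_of_nonneg_left ((le_abs_self _).trans ?_) hε.le) hk'
    rw [abs_mul]
    exact mul_le_of_le_one_left (abs_nonneg _) w1
  have f1 : 2 * ((Z - 1) * ((1 - w x ^ 2) * Z) + 2 * w x ^ 2 * (δ * P) * Z) + ε ^ 2 * (J - C * Z) ≤
      δ * P * (2 * w x ^ 2 * (Z - 1) + ε * (w x * k x) + (1 + w x ^ 2) * Z) := by
    have a1 := mul_le_mul_of_nonneg_left hB (sq_nonneg ε)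
    have a2 := mul_le_mul_of_nonneg_left m2 (sq_nonneg ε)
    field_simp at a1 a2
    linarith
  have f2 : δ * P * ((1 - w x ^ 2) * Z) ≤ (Z - 1) * ((1 - w x ^ 2) * Z) :=
    mul_le_mul_of_nonneg_right hY.le (by positivity)
  have f3 : δ * P * (2 * w x ^ 2 * (Z - 1) + ε * (w x * k x) - (1 + w x ^ 2) * Z) ≤
      δ * P * (-(1 / 2)) := by
    refine mul_le_mul_of_nonneg_left ?_ q0
    nlinarith [mul_nonneg p3.le (show 0 ≤ Z - 1 by linarith), sq_nonneg (w x)]
  have f4 : ε ^ 2 * (-(1 + K / 2) - C * 2) ≤ ε ^ 2 * (J - C * Z) :=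
    mul_le_mul_of_nonneg_left (by nlinarith) (sq_nonneg ε)
  have f5 : δ * 1 ≤ δ * P := mul_le_mul_of_nonneg_left p2 hδ
  linarith

theorem sq_le_ps (hw : ∀ x, |w x| < 1) (ε : ℝ) (x : E n) :
    dd ε w x ^ 2 ≤ 2 * ε ^ 2 * ps w x := by
  obtain ⟨h1, h2⟩ := abs_lt.1 (hw x)
  have a1 : 0 < 1 + w x := by linarith
  have a2 : 0 < 1 - w x := by linarith
  set s : ℝ := Real.log ((1 + w x) / (1 - w x)) with hs
  have e1 : Real.exp s = (1 + w x) / (1 - w x) := Real.exp_log (div_pos a1 a2)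
  have e2 : Real.exp (-s) = (1 - w x) / (1 + w x) := by rw [Real.exp_neg, e1, inv_div]
  have e3 : 4 * ps w x = Real.exp s + Real.exp (-s) + 2 := by
    rw [e1, e2, ps, show 1 - w x ^ 2 = (1 + w x) * (1 - w x) by ring]
    field_simp
    ring
  have e4 : s ^ 2 / 2 ≤ 4 * ps w x := by
    have b1 := Real.exp_pos s
    have b2 := Real.exp_pos (-s)
    rcases le_total 0 s with h | h
    · linarith [Real.quadratic_le_exp_of_nonneg h]
    · have := Real.quadratic_le_exp_of_nonneg (neg_nonneg.2 h)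
      rw [neg_sq] at this
      linarith
  have e5 : dd ε w x = ε / 2 * s := rfl
  rw [e5]
  nlinarith [mul_le_mul_of_nonneg_left e4 (sq_nonneg ε)]

end B2x

open B2x in
theorem b2_of (hB : BOCH) (hP : PTM) (h1 : B1) : B2 := by
  intro n B L m p q U a β R s' hOk hPen hSt κ hκ t ht
  have U0 : ∀ x, 0 < U x := hSt.pos hOk
  have hg : Met (cf U B.g) := hOk.met.cf hSt.sm U0
  obtain ⟨C₁, hC₁⟩ := h1 n B L m p q U a β R s' hOk hPen hSt κ hκ
  obtain ⟨C₂, hC₂⟩ := (hB n _ hg).1 _ (isCompact_closedBall (0 : E n) L)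
  set k : E n → ℝ := fun x => κ * U x ^ (-(n * bb n)) with hk
  have sk : Smooth k := contDiff_const.mul (hSt.sm.rpow U0 _)
  obtain ⟨K, hK⟩ := (isCompact_closedBall (0 : E n) L).exists_bound_of_continuousOn
    (hg.sm_ip sk sk).cont.continuousOn
  obtain ⟨K', hK'⟩ := (isCompact_closedBall (0 : E n) L).exists_bound_of_continuousOn
    sk.cont.continuousOn
  set C : ℝ := 4 * |C₂| + 3 + |K| with hC
  have C1 : 1 ≤ C := by linarith [abs_nonneg C₂, abs_nonneg K]
  refine ⟨C, ?_⟩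
  filter_upwards [hC₁, ev_small C₁ one_pos, ev_small K' one_half_pos,
    ev_small C₁ (show 0 < t ^ 2 / 2 by positivity), self_mem_nhdsWithin]
    with ε e1 e2 e3 e4 (hε : 0 < ε) w hw hL x hx
  have good : ∀ y, |dd ε w y| ≤ t → B.s / 4 < B.F y ∧ ‖y‖ < L := fun y hy =>
    ⟨not_le.1 fun c => by linarith [hL.inn y c, (abs_le.1 hy).1],
      not_le.1 fun c => by linarith [hL.out y c, (abs_le.1 hy).2]⟩
  have s0 := hOk.s0
  have sd := sm_dd hw.sm hw.lt ε
  have sz := hg.sm_ip sd sd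
  have sp := sm_ps hw.sm hw.lt
  have hc : IsCompact {y | |dd ε w y| ≤ t} := (isCompact_closedBall (0 : E n) L).of_isClosed_subset
    (isClosed_le sd.cont.abs continuous_const) fun y hy => mem_closedBall_zero_iff.2 (good y hy).2.le
  obtain ⟨x₀, hx₀, hmax⟩ := hc.exists_isMaxOn ⟨x, hx⟩ (f := fun y =>
    1 * ip (cf U B.g) (dd ε w) (dd ε w) y + -(C * ε ^ 2) * ps w y)
    ((continuous_const.mul sz.cont).add (continuous_const.mul sp.cont)).continuousOn
  obtain ⟨g1, g2⟩ := good x₀ hx₀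
  have b1 := e1 w hw x₀ (by linarith) (by linarith)
  have key : ip (cf U B.g) (dd ε w) (dd ε w) x₀ - 1 ≤ C * ε ^ 2 * ps w x₀ := by
    by_contra hY
    have hY := not_le.1 hY
    rcases (show |dd ε w x₀| ≤ t from hx₀).eq_or_lt with c | c
    · have a1 := sq_le_ps hw.lt ε x₀
      rw [← sq_abs, c] at a1
      have a2 : 0 ≤ ε ^ 2 * ps w x₀ := by linarith [sq_nonneg t]
      nlinarith
    have hx' : x₀ ∈ closedBall (0 : E n) L := mem_closedBall_zero_iff.2 g2.le
    have nb : ∀ᶠ y in 𝓝 x₀, |dd ε w y| < t := (isOpen_lt sd.cont.abs continuous_const).mem_nhds c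
    have a3 := core (k := k) (δ := C * ε ^ 2) (C := |C₂|) (K := |K|) hP hg hw.sm hw.lt hε sk
      (nb.mono fun y hy => by
        obtain ⟨g1, g2⟩ := good y hy.le
        have q1 := hw.eqn y
        rw [hPen.p0 y (by linarith), hPen.q0 y (by linarith), hPen.m1 y g2.le] at q1
        have q2 : U y ^ (-(n * bb n)) * U y ^ (n * bb n) = 1 := by
          rw [← Real.rpow_add (U0 y), neg_add_cancel, Real.rpow_zero]
        rw [hOk.met.lap_cf hOk.dim U0, mul_left_comm, q1, hk]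
        linear_combination (-2 * w y * (1 - w y ^ 2) / ε) * q2)
      (by positivity) (abs_nonneg _) (hmax.isLocalMax (nb.mono fun y hy => hy.le))
      (by
        have q1 := hC₂ _ sd x₀ hx'
        have q2 := ((hB n _ hg).2 _ (dd ε w) sd x₀).1
        have q3 : (0 : ℝ) < n := by exact_mod_cast lt_of_lt_of_le (by norm_num) hOk.dim
        have q4 := nonneg_of_mul_nonneg_right ((sq_nonneg _).trans q2) q3
        have q5 := mul_le_mul_of_nonneg_right (le_abs_self C₂) (hg.ip_nonneg (dd ε w) x₀)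
        linarith)
      (by linarith) ((le_abs_self _).trans ((hK x₀ hx').trans (le_abs_self _)))
      ((mul_le_mul_of_nonneg_left (hK' x₀ hx') hε.le).trans e3.le) hY
    nlinarith [sq_pos_of_pos hε]
  have k1 : ip (cf U B.g) (dd ε w) (dd ε w) x - 1 ≤ C * ε ^ 2 * ps w x := by
    have : 1 * ip (cf U B.g) (dd ε w) (dd ε w) x + -(C * ε ^ 2) * ps w x ≤
      1 * ip (cf U B.g) (dd ε w) (dd ε w) x₀ + -(C * ε ^ 2) * ps w x₀ := hmax hx
    linarith
  have p1 := ps_mul hw.lt x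
  have p3 := one_sub_pos hw.lt x
  have k2 : ε * ip (cf U B.g) w w x / 2 - Wp (w x) / ε =
      (1 - w x ^ 2) ^ 2 / (2 * ε) * (ip (cf U B.g) (dd ε w) (dd ε w) x - 1) := by
    rw [ip_of_pd (pd_w hw.sm hw.lt hε x) (pd_w hw.sm hw.lt hε x), Wp]
    field_simp
  have k3 : (1 - w x ^ 2) ^ 2 / (2 * ε) * (C * ε ^ 2 * ps w x) = C * ε * ((1 - w x ^ 2) / 2) := by
    rw [ps]
    field_simp
  rw [k2]
  refine (mul_le_mul_of_nonneg_left k1 (by positivity)).trans ?_
  rw [k3]
  exact mul_le_of_le_one_right (by positivity) (by linarith [sq_nonneg (w x)])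

end Vale.Agent.P366Z.Y
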