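import Vale.Agent.P366Y.G.Int

/-!
# P366Y, block G (after P366Z): the calibration in the collar
-/

open MeasureTheory Metric Filter Topology Set
open scoped ContDiff ENNReal
open Vale.Agent.P366.Stmt

noncomputable section

namespace Vale.Agent.P366Z.Y

namespace ColA

/-- the ramp from `a` to `a + δ` -/
def rp (a δ t : ℝ) : ℝ := Real.smoothTransition ((t - a) / δ)

section

variable {a δ t : ℝ}

theorem rp_sm (a δ : ℝ) : ContDiff ℝ ∞ (rp a δ) :=
  Real.smoothTransition.contDiff.comp ((contDiff_id.sub contDiff_const).div_const δ)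

theorem rp_zero (hδ : 0 < δ) (h : t ≤ a) : rp a δ t = 0 :=
  Real.smoothTransition.zero_of_nonpos (div_nonpos_of_nonpos_of_nonneg (by linarith) hδ.le)

theorem rp_one (hδ : 0 < δ) (h : a + δ ≤ t) : rp a δ t = 1 :=
  Real.smoothTransition.one_of_one_le ((one_le_div hδ).2 (by linarith))

theorem rp_mem (a δ t : ℝ) : 0 ≤ rp a δ t ∧ rp a δ t ≤ 1 :=
  ⟨Real.smoothTransition.nonneg _, Real.smoothTransition.le_one _⟩

theorem rp_d0 (hδ : 0 < δ) (a t : ℝ) : 0 ≤ deriv (rp a δ) t :=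
  Monotone.deriv_nonneg fun _ _ h => Real.smoothTransition.monotone
    (div_le_div_of_nonneg_right (by linarith) hδ.le)

theorem rp_d1 (hδ : 0 < δ) (h : t < a) : deriv (rp a δ) t = 0 := by
  have : rp a δ =ᶠ[𝓝 t] fun _ => 0 := (eventually_lt_nhds h).mono
    fun s hs => rp_zero hδ hs.le
  rw [this.deriv_eq, deriv_const]

end

variable {n : ℕ} {B : Bg n} {L : ℝ} {m p q U ψ : E n → ℝ} {a β R s' a₁ δ : ℝ}

theorem in_ball (hB : B.Ok) {x : E n} (h : B.F x ≤ B.s) : ‖x‖ < B.ρ :=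
  lt_of_not_ge fun h' => (hB.far x h').not_ge h

/-- the cut-off of the calibration -/
def chi (B : Bg n) (δ t : ℝ) : ℝ := rp (-B.s) (B.s / 4) t * rp (-B.s) δ (-t)

/-- the calibration -/
def fld (B : Bg n) (δ : ℝ) (i : Fin n) (y : E n) : ℝ :=
  chi B δ (B.F y) * (B.U y ^ (2 * gam n) * gr B.g B.F i y / gn B.g B.F y)

theorem chi_mem (B : Bg n) (δ t : ℝ) : 0 ≤ chi B δ t ∧ chi B δ t ≤ 1 :=
  ⟨mul_nonneg (rp_mem _ _ _).1 (rp_mem _ _ _).1,
    mul_le_one₀ (rp_mem _ _ _).2 (rp_mem _ _ _).1 (rp_mem _ _ _).2⟩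

theorem chi_one (hB : B.Ok) (hδ : 0 < δ) {t : ℝ} (h1 : -(3 * B.s / 4) ≤ t) (h2 : t ≤ B.s - δ) :
    chi B δ t = 1 := by
  rw [chi, rp_one (by linarith [hB.s0]) (by linarith), rp_one hδ (by linarith), one_mul]

theorem fld_c1 (hB : B.Ok) (hδ : 0 < δ) (i : Fin n) : ContDiff ℝ 1 (fld B δ i) := by
  refine ContDiff.of_le (n := ∞) (contDiff_iff_contDiffAt.2 fun x => ?_) (by norm_cast)
  by_cases h : |B.F x| ≤ B.s
  · have h1 := (hB.cal x h).1
    have h2 : ContDiffAt ℝ ∞ (gn B.g B.F) x :=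
      (hB.met.sm_ip hB.smF hB.smF).contDiffAt.sqrt fun h0 => h1 (by rw [gn, h0, Real.sqrt_zero])
    exact (((rp_sm _ _).mul ((rp_sm _ _).comp contDiff_neg)).comp hB.smF).contDiffAt.mul
      (((hB.smU.rpow (fun y => by linarith [(hB.Ub y).1]) _).contDiffAt.mul
        (hB.met.sm_gr hB.smF i).contDiffAt).div h2 h1)
  · refine (contDiffAt_const (c := 0)).congr_of_eventuallyEq ?_
    filter_upwards [(isOpen_lt continuous_const hB.smF.cont.abs).mem_nhds (not_le.1 h)] with y hy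
    rcases lt_abs.1 hy with k | k
    · rw [fld, chi, rp_zero hδ (t := -B.F y) (by linarith), mul_zero, zero_mul]
    · rw [fld, chi, rp_zero (by linarith [hB.s0]) (t := B.F y) (by linarith), zero_mul, zero_mul]

theorem fld_dv (hB : B.Ok) (hP : Pen B L m p q) (hδ : 0 < δ) : ∃ K, 0 ≤ K ∧
    ∀ x, B.F x < B.s - δ → dv B.g (fld B δ) x ≤ -B.h + K * p x := by
  obtain ⟨M, hM⟩ := (isCompact_closedBall (0 : E n) B.ρ).exists_bound_of_continuousOn
    (hB.met.cont_dv (fld_c1 hB hδ)).continuousOn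
  have s0 := hB.s0
  refine ⟨(|M| + B.h) / 4, by linarith [abs_nonneg M, hB.h0], fun x hx => ?_⟩
  by_cases h : B.F x ≤ -(3 * B.s / 4)
  · have := hM x (mem_closedBall_zero_iff.2 (in_ball hB (by linarith)).le)
    rw [hP.p4 x h]
    linarith [le_abs_self M, le_abs_self (dv B.g (fld B δ) x), Real.norm_eq_abs (dv B.g (fld B δ) x)]
  · have h1 := (hB.cal x (abs_le.2 ⟨by linarith, by linarith⟩)).2
    rw [← dv_congr (X := fld B δ) fun i => ?_] at h1
    · have : 0 ≤ (|M| + B.h) / 4 * p x :=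
        mul_nonneg (by linarith [abs_nonneg M, hB.h0]) (hP.p04 x).1
      linarith
    · filter_upwards [(isOpen_lt continuous_const hB.smF.cont).mem_nhds (not_le.1 h),
        (isOpen_lt hB.smF.cont continuous_const).mem_nhds hx] with y k1 k2
      rw [fld, chi_one hB hδ (le_of_lt k1) (le_of_lt k2), one_mul]

theorem ramp_cls (hB : B.Ok) (hP : Pen B L m p q) (hδ : 0 < δ) (h1 : B.s / 4 ≤ a₁)
    (h2 : a₁ + δ ≤ B.s) : Cls B L fun x => rp a₁ δ (B.F x) where
  lip := lip_of_const ((rp_sm _ _).comp hB.smF) (R := B.ρ) (c := 1)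
    fun y hy => rp_one hδ (h2.trans (hB.far y hy.le).le)
  mem _ := rp_mem _ _ _
  zero _ hx := rp_zero hδ (hx.trans h1)
  one x hx := rp_one hδ (h2.trans (hB.far x (by linarith [hP.big, hB.one])).le)

theorem pt (hB : B.Ok) (hS : St B U a β R s') (hδ : 0 < δ) (h1 : B.s / 4 ≤ a₁)
    (h2 : a₁ + 2 * δ ≤ s') (hψ : Continuous ψ) {x : E n} (h01 : ψ x ≤ 1)
    (d1 : DifferentiableAt ℝ ψ x)
    (d2 : DifferentiableAt ℝ (fun y => min (ψ y) (rp a₁ δ (B.F y))) x)
    (e : ψ x = min (ψ x) (rp a₁ δ (B.F x)) →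
      ∀ i, pd i ψ x = pd i (fun y => min (ψ y) (rp a₁ δ (B.F y))) x) :
    ∑ i, pd i (fun y => ψ y - min (ψ y) (rp a₁ δ (B.F y))) x * fld B δ i x ≤
      U x ^ (2 * gam n) * gn B.g ψ x -
        U x ^ (2 * gam n) * gn B.g (fun y => min (ψ y) (rp a₁ δ (B.F y))) x := by
  simp only [pd_sub d1 d2]
  rcases le_or_gt (ψ x) (rp a₁ δ (B.F x)) with h | h
  · have k := e (min_eq_left h).symm
    simp [gn_of_pd_eq k, k]
  have s0 := hB.s0
  have s2 := hS.s2
  have hF : B.F x < a₁ + δ := lt_of_not_ge fun k => by rw [rp_one hδ k] at h; linarith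
  have ev : (fun y => min (ψ y) (rp a₁ δ (B.F y))) =ᶠ[𝓝 x] fun y => rp a₁ δ (B.F y) := by
    filter_upwards [(isOpen_lt ((rp_sm a₁ δ).continuous.comp hB.smF.cont) hψ).mem_nhds h] with y k
    exact min_eq_right (le_of_lt k)
  have hd := (((rp_sm a₁ δ).differentiable (by simp)) (B.F x)).hasDerivAt
  have hχ : chi B δ (B.F x) * deriv (rp a₁ δ) (B.F x) = deriv (rp a₁ δ) (B.F x) := by
    rcases le_or_gt (-(3 * B.s / 4)) (B.F x) with k | k
    · rw [chi_one hB hδ k (by linarith), one_mul]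
    · rw [rp_d1 hδ (by linarith), mul_zero]
  have e1 : ∑ i, (pd i ψ x - pd i (fun y => min (ψ y) (rp a₁ δ (B.F y))) x) * fld B δ i x =
      B.U x ^ (2 * gam n) * (chi B δ (B.F x) * (ip B.g ψ B.F x / gn B.g B.F x) -
        deriv (rp a₁ δ) (B.F x) * (gn B.g B.F x ^ 2 / gn B.g B.F x)) := by
    rw [hB.met.gn_sq, ip_eq_gr, ip_eq_gr, ← hχ]
    simp only [pd_congr ev, pd_comp hd (hB.smF.diff x), fld, Finset.sum_div, Finset.mul_sum,
      ← Finset.sum_sub_distrib]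
    exact Finset.sum_congr rfl fun i _ => by ring
  rw [e1, gn_congr ev, gn_comp hd (hB.smF.diff x), abs_of_nonneg (rp_d0 hδ _ _),
    hS.col x (by linarith), ← mul_sub, sq, mul_self_div_self]
  refine mul_le_mul_of_nonneg_left (sub_le_sub_right ?_ _)
    (Real.rpow_nonneg (by linarith [(hB.Ub x).1]) _)
  have k1 : ip B.g ψ B.F x / gn B.g B.F x ≤ gn B.g ψ x :=
    div_le_of_le_mul₀ (gn_nonneg _ _ _) (gn_nonneg _ _ _)
      ((le_abs_self _).trans (hB.met.abs_ip_le _ _ _))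
  have k2 := chi_mem B δ (B.F x)
  nlinarith [gn_nonneg B.g ψ x]

theorem int_per (hB : B.Ok) (hl : Lip ψ) (h1 : ∀ x, L ≤ ‖x‖ → ψ x = 1) (hU : Continuous U) :
    Integrable fun x => U x ^ (2 * gam n) * gn B.g ψ x * dens B.g x := by
  have h0 : 0 ≤ 2 * gam n := by linarith [one_lt_gam hB.dim]
  have := hl.integrable_gn hB.met hB.flat h1
    ((hU.rpow_const fun _ => Or.inr h0).mul hB.met.sm_dens.cont)
  refine this.congr (Eventually.of_forall fun x => ?_)
  simp only [Pi.mul_apply]; ring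

/-- the part of `ψ` above the ramp -/
def ex (B : Bg n) (a₁ δ : ℝ) (ψ : E n → ℝ) (x : E n) : ℝ := ψ x - min (ψ x) (rp a₁ δ (B.F x))

theorem ex_nonneg (x : E n) : 0 ≤ ex B a₁ δ ψ x := sub_nonneg.2 (min_le_left _ _)

theorem ex_zero (hδ : 0 < δ) {x : E n} (h01 : ψ x ≤ 1) (h : a₁ + δ ≤ B.F x) :
    ex B a₁ δ ψ x = 0 := by rw [ex, rp_one hδ h, min_eq_left h01, sub_self]

theorem ex_int (hB : B.Ok) (hδ : 0 < δ) (h2 : a₁ + δ ≤ B.s) (hψ : Continuous ψ)
    (h01 : ∀ x, ψ x ≤ 1) {f : E n → ℝ} (hf : Continuous f) :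
    Integrable fun x => ex B a₁ δ ψ x * f x :=
  integrable_of_out ((hψ.sub (hψ.min ((rp_sm a₁ δ).continuous.comp hB.smF.cont))).mul hf)
    (R := B.ρ) fun y hy => by rw [ex_zero hδ (h01 y) (h2.trans (hB.far y hy).le), zero_mul]

theorem cal (hB : B.Ok) (hP : Pen B L m p q) (hS : St B U a β R s') (hδ : 0 < δ)
    (h1 : B.s / 4 ≤ a₁) (h2 : a₁ + 2 * δ ≤ s') : ∃ K, 0 ≤ K ∧ ∀ ψ : E n → ℝ, Lip ψ →
      (∀ x, 0 ≤ ψ x ∧ ψ x ≤ 1) → (∀ x, L ≤ ‖x‖ → ψ x = 1) →
      Cls B L (fun x => min (ψ x) (rp a₁ δ (B.F x))) ∧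
      B.h * ∫ x, ex B a₁ δ ψ x * dens B.g x ≤
        per B U ψ - per B U (fun x => min (ψ x) (rp a₁ δ (B.F x))) +
          K * ∫ x, ex B a₁ δ ψ x * (p x * dens B.g x) := by
  obtain ⟨K, K0, hK⟩ := fld_dv hB hP hδ
  have s2 := hS.s2
  have h3 : a₁ + δ ≤ B.s := by linarith
  have hr := ramp_cls hB hP hδ h1 h3
  refine ⟨K, K0, fun ψ hl h01 ho => ?_⟩
  have hc : Cls B L fun x => min (ψ x) (rp a₁ δ (B.F x)) :=
    ⟨hl.min hr.lip, fun x => ⟨le_min (h01 x).1 (hr.mem x).1, min_le_of_left_le (h01 x).2⟩,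
      fun x hx => by rw [hr.zero x hx, min_eq_right (h01 x).1],
      fun x hx => by rw [hr.one x hx, ho x hx, min_self]⟩
  refine ⟨hc, ?_⟩
  have hle : Lip (ex B a₁ δ ψ) := hl.sub hc.lip
  have hz : ∀ y, B.ρ ≤ ‖y‖ → ex B a₁ δ ψ y = 0 := fun y hy =>
    ex_zero hδ (h01 y).2 (h3.trans (hB.far y hy).le)
  have cd := hB.met.sm_dens.cont
  have hi := fun f hf => ex_int hB hδ h3 hl.cont (fun x => (h01 x).2) (f := f) hf
  have i1 := hB.met.ibp_dv hle (supp_of_out hz) (fld_c1 hB hδ)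
  have i2 : ∫ x, ex B a₁ δ ψ x * dv B.g (fld B δ) x * dens B.g x ≤
      -B.h * (∫ x, ex B a₁ δ ψ x * dens B.g x) +
        K * ∫ x, ex B a₁ δ ψ x * (p x * dens B.g x) := by
    rw [← integral_const_mul, ← integral_const_mul, ← integral_add ((hi _ cd).const_mul _)
      ((hi _ (hP.smp.cont.fun_mul cd)).const_mul _)]
    simp only [mul_assoc (ex B a₁ δ ψ _)]
    refine integral_mono (hi _ ((hB.met.cont_dv (fld_c1 hB hδ)).fun_mul cd))
      (((hi _ cd).const_mul _).add ((hi _ (hP.smp.cont.fun_mul cd)).const_mul _)) fun x => ?_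
    rcases le_or_gt (a₁ + δ) (B.F x) with k | k
    · simp [ex_zero hδ (h01 x).2 k]
    · have := mul_le_mul_of_nonneg_left (hK x (by linarith))
        (mul_nonneg (ex_nonneg (B := B) (a₁ := a₁) (δ := δ) (ψ := ψ) x) (dens_nonneg B.g x))
      beta_reduce
      linarith
  have i3 : ∫ x, (∑ i, pd i (ex B a₁ δ ψ) x * fld B δ i x) * dens B.g x ≤
      per B U ψ - per B U (fun x => min (ψ x) (rp a₁ δ (B.F x))) := by
    have j1 := int_per hB hl ho hS.sm.cont
    have j2 := hc.int_per hB hS.sm.cont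
    rw [per, per, ← integral_sub j1 j2]
    refine integral_mono_ae ?_ (j1.sub j2) ?_
    · refine (integrable_finsetSum Finset.univ fun i _ =>
        hle.integrable_pd hz ((fld_c1 hB hδ i).continuous.mul cd) i).congr
        (Eventually.of_forall fun x => ?_)
      simp only [Finset.sum_mul, Pi.mul_apply]
      exact Finset.sum_congr rfl fun i _ => by ring
    · filter_upwards [hl.ae_diff, hc.lip.ae_diff, hl.ae_pd_eq hc.lip] with x d1 d2 e
      have := mul_le_mul_of_nonneg_right (pt hB hS hδ h1 h2 hl.cont (h01 x).2 d1 d2 e)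
        (dens_nonneg B.g x)
      rw [sub_mul] at this
      exact this
  linarith

end ColA

end Vale.Agent.P366Z.Y
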