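import Vale.Agent.P366Y.G.Int
import Vale.Agent.P366Z.DensR

/-!
# P366Y, block G (after P366Z): consequences of the comparison with the Euclidean metric
-/

open MeasureTheory Metric Filter Topology Set
open scoped ContDiff ENNReal
open Vale.Agent.P366.Stmt Vale.Agent.P366Z.DensH

noncomputable section

namespace Vale.Agent.P366Z.Y.DensH

variable {n : ℕ}

theorem lam_low {B : Bg n} {U : E n → ℝ} {a β R s' : ℝ} (hB : B.Ok) (hS : St B U a β R s')
    (C : ℝ) : ∃ l₀ > (0 : ℝ), ∀ (lam : ℝ) (s : Set (E n)) (y : E n), 0 < lam →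
      Rat B.g U C lam s → y ∈ s → l₀ ≤ lam := by
  obtain ⟨Λ, hE⟩ := hB.met.ell hB.flat
  have h1 := hE.one
  have ha := hS.a0
  have hb := bb_pos hB.dim
  have hn : (0 : ℝ) < n := by have := hB.dim; positivity
  obtain ⟨u, hu⟩ : ∃ u, u = (a / 2) ^ (2 * bb n) := ⟨_, rfl⟩
  have hu0 : 0 < u := by rw [hu]; positivity
  refine ⟨√(u / (Λ * (|C| + 1))), by positivity, fun lam s y hl hR hy => ?_⟩
  refine Real.sqrt_le_iff.2 ⟨hl.le, ?_⟩
  have h2 : u ≤ U y ^ (2 * bb n) := by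
    rw [hu]; exact Real.rpow_le_rpow (by positivity) (hS.half hB y) (by linarith)
  have h3 := (hR y hy fun _ => 1).2
  have h4 : ∑ i, ∑ j, cf U B.g y i j * 1 * 1 = U y ^ (2 * bb n) * ∑ i, ∑ j, B.g y i j * 1 * 1 := by
    simp only [cf, Finset.mul_sum, mul_assoc]
  have h5 := hE.g_lo y fun _ => 1
  have h6 := hB.met.g_nonneg y fun _ => 1
  have h7 : ∑ _i : Fin n, (1 : ℝ) ^ 2 = n := by simp
  rw [h4, h7] at h3
  rw [h7] at h5
  have h8 := (mul_le_mul_of_nonneg_right h2 h6).trans h3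
  have h9 : C * lam ^ 2 * n ≤ (|C| + 1) * lam ^ 2 * n :=
    mul_le_mul_of_nonneg_right (mul_le_mul_of_nonneg_right (by linarith [le_abs_self C])
      (sq_nonneg _)) hn.le
  rw [div_le_iff₀ (by positivity)]
  refine le_of_mul_le_mul_right ?_ hn
  calc u * n ≤ u * (Λ * ∑ i, ∑ j, B.g y i j * 1 * 1) := mul_le_mul_of_nonneg_left h5 hu0.le
    _ = Λ * (u * ∑ i, ∑ j, B.g y i j * 1 * 1) := by ring
    _ ≤ Λ * ((|C| + 1) * lam ^ 2 * n) := mul_le_mul_of_nonneg_left (h8.trans h9) (by linarith)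
    _ = _ := by ring

end Vale.Agent.P366Z.Y.DensH
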