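import Vale.Agent.P366Y.G.Int
import Vale.Agent.P366Z.Ex3

/-!
# P366Y, block G: minimisers exist
-/

open MeasureTheory Metric Filter Topology Set
open scoped ContDiff ENNReal
open Vale.Agent.P366.Stmt

noncomputable section

namespace Vale.Agent.P366Z.Y

open ExA

theorem ex_of (hR : RES) (hE : REG) (hG : GRAD) (hM : WMB) (hC : CHAIN) (hS : STWT) : EX := by
  intro n B L m p q U a β R s' hB hP hU κ ε κ0 ε0
  have hW := hS n B U a β R s' hB hU
  have hg := hB.met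
  have n0 : 0 < n := by have := hB.dim; omega
  have U0 := hU.pos hB
  obtain ⟨c, c0, C, hb⟩ := hW.bd
  have hα : BLp fun x => U x ^ (n * bb n) / ε :=
    blp_comp (lip_of_fderiv hW.sm.diff fun x => (hb x).2.2.1) (fun x => ⟨(hb x).1, (hb x).2.1⟩)
      (F := fun t => t ^ (n * bb n) / ε) (ContDiffOn.div_const
        (contDiffOn_id.rpow_const_of_ne fun t ht => (c0.trans_le ht.1).ne') _)
  have α0 : ∀ x, 0 < U x ^ (n * bb n) / ε := fun x => div_pos (Real.rpow_pos_of_pos (U0 x) _) ε0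
  have p0 : ∀ y, B.ρ < ‖y‖ → p y = 0 := fun y hy =>
    hP.p0 y (by linarith [hB.far y hy.le, hB.s0])
  have hp : BLp p := blp_out hP.smp p0
  have hq : BLp q := blp_out hP.smq fun y hy => hP.q4 y hy.le
  have hμ : BLp fun x => κ * m x := (blp_const κ).mul (blp_out hP.smm fun y hy => hP.m0 y hy.le)
  obtain ⟨l₀, hl⟩ := tstep hR hM hG hB.dim hg hB.flat hW ε0 hα hp hq hμ
  obtain ⟨A, hA⟩ := hα.2
  obtain ⟨l, l1, l2, l3⟩ : ∃ l, l₀ ≤ l ∧ 1 ≤ l ∧ (20 * A + 2 * κ) / (ε * c ^ 2) ≤ l :=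
    ⟨max l₀ (max 1 _), le_max_left _ _, le_max_of_le_right (le_max_left _ _),
      le_max_of_le_right (le_max_right _ _)⟩
  have co : ∀ x, Co (U x ^ (n * bb n) / ε) (p x) (q x) (κ * m x) (ε * U x ^ 2 * l) := fun x => by
    refine ⟨(α0 x).le, hP.p04 x, hP.q04 x, mul_nonneg κ0 (hP.m01 x).1, ?_⟩
    rw [div_le_iff₀ (by positivity)] at l3
    have a1 := mul_le_of_le_one_right κ0 (hP.m01 x).2
    have a2 := mul_le_mul_of_nonneg_left (pow_le_pow_left₀ c0.le (hb x).1 2)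
      (show 0 ≤ l * ε by positivity)
    linarith [(abs_le.1 (hA x)).2]
  obtain ⟨K, K0, hT⟩ := hl l l1 l2 co
  obtain ⟨Λ, hΛ⟩ := hg.ell hB.flat
  have uC : ∀ x, U x ^ 2 ≤ C ^ 2 := fun x => pow_le_pow_left₀ (U0 x).le (hb x).2.1 2
  have h : Dt B.g U (fun x => U x ^ (n * bb n) / ε) p q (fun x => κ * m x) B.ρ ε l (ε * C ^ 2) Λ :=
    ⟨n0, hg, hB.flat, hΛ, hU.sm, ε0, l2, fun x => mul_le_mul_of_nonneg_left (uC x) ε0.le, co,
      hα.1.cont, hp.1.cont, hq.1.cont, hμ.1.cont⟩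
  have ee : ∀ w, en B m p q U κ ε w = ∫⁻ x, ENNReal.ofReal (ed B.g U
      (fun x => U x ^ (n * bb n) / ε) p q (fun x => κ * m x) ε w x * dens B.g x) := fun w => by
    unfold en ed G0
    congr 1; funext x; congr 1; ring
  obtain ⟨z, hz, f1, f2⟩ := h.fix U0 K0 hT (by
    refine (integrable_of_out ((h.cont_ed contDiff_const).mul hg.sm_dens.cont)
      (R := max (B.ρ + 1) (L + 1)) fun y hy => ?_).lintegral_lt_top
    have a1 := p0 y (by linarith [le_max_left (B.ρ + 1) (L + 1)])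
    have a2 := hP.m0 y ((le_max_right _ _).trans hy)
    simp [ed, G0, Wp, ip_const_left, a1, a2])
  have ze : ∀ x, ε * wl B.g U z x = f0 (U x ^ (n * bb n) / ε) (p x) (q x) (κ * m x) (z x) :=
    fun x => by simpa using hz.eqn x
  have l0 : 0 ≤ l := zero_le_one.trans l2
  have k : ∀ x (t s : ℝ), 0 ≤ t → ε * s ≤ ε * U x ^ 2 * l * t → s ≤ l * C ^ 2 * t :=
    fun x t s t0 e => by
      have := mul_le_mul_of_nonneg_left (uC x) (show 0 ≤ ε * l * t by positivity)
      exact le_of_mul_le_mul_left (by linarith) ε0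
  have zc : ∀ σ : ℝ, (∀ x, z x = σ) → ∀ x,
      f0 (U x ^ (n * bb n) / ε) (p x) (q x) (κ * m x) σ = 0 := fun σ e x => by
    rw [← e x, ← ze x, show z = fun _ => σ from funext e, wl_const, mul_zero]
  obtain ⟨x₁, h1⟩ : ∃ x, 1 - z x ≠ 0 := by
    by_contra! e
    obtain ⟨x, hx⟩ := hB.deep
    have a1 := zc 1 (fun y => by linarith [e y]) x
    rw [hP.p4 x (by linarith [hB.s0])] at a1
    unfold f0 at a1
    linarith [α0 x]
  obtain ⟨x₂, h2⟩ : ∃ x, z x + 1 ≠ 0 := by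
    by_contra! e
    have := nontriv n0
    obtain ⟨x, hx⟩ := NormedSpace.exists_lt_norm ℝ (E n) (L + 2)
    have a1 := zc (-1) (fun y => by linarith [e y]) x
    rw [hP.q4 x hx.le] at a1
    unfold f0 at a1
    linarith [α0 x]
  refine ⟨z, hE n B.g U z (fun y => f0 (U y.1 ^ (n * bb n) / ε) (p y.1) (q y.1) (κ * m y.1) y.2 / ε)
    hg hU.sm U0 ?_ hz.c2 hz.h2 fun x => ?_, lip_of_le hz.lip, fun x => ?_, (ee z).trans_lt f1,
    fun w a b => ?_, fun x => ?_⟩
  · have a1 : ContDiff ℝ ∞ fun x => U x ^ (n * bb n) := hU.sm.rpow U0 _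
    have a2 : ContDiff ℝ ∞ p := hP.smp
    have a3 : ContDiff ℝ ∞ q := hP.smq
    have a4 : ContDiff ℝ ∞ m := hP.smm
    have a5 := a1.comp (contDiff_fst (𝕜 := ℝ) (E := E n) (F := ℝ))
    unfold f0
    refine ContDiff.div_const (ContDiff.add (ContDiff.mul (a5.div_const _) ?_) ?_) _ <;> fun_prop
  · rw [eq_div_iff ε0.ne', ← ze x, mul_comm]
  · have a1 := strict hC hg hU.sm U0 (c := l * C ^ 2) (by positivity) (u := fun y => 1 - z y)
      (contDiff_const.sub hz.c2) (fun y => sub_nonneg.2 (abs_le.1 (hz.one y)).2) (fun y =>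
        k y _ _ (sub_nonneg.2 (abs_le.1 (hz.one y)).2) (by
          rw [wl_const_sub]; linarith [ze y, (abs_le.1 ((co y).phi (hz.one y))).2])) h1 x
    have a2 := strict hC hg hU.sm U0 (c := l * C ^ 2) (by positivity) (u := fun y => z y + 1)
      (hz.c2.add contDiff_const) (fun y => by linarith [(abs_le.1 (hz.one y)).1]) (fun y =>
        k y _ _ (by linarith [(abs_le.1 (hz.one y)).1]) (by
          rw [wl_add_const]; linarith [ze y, (abs_le.1 ((co y).phi (hz.one y))).1])) h2 x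
    exact abs_lt.2 ⟨by linarith, by linarith⟩
  · rw [ee, ee]; exact f2 w a b
  · rw [ze]; unfold f0; ring

end Vale.Agent.P366Z.Y
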