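import Vale.Agent.P366Y.G.Int
import Vale.Agent.P366Y.G.Res
import Vale.Agent.P366Z.Calc3

/-!
# P366Y, block G (after P366Z): exponential convergence to the wells
-/

open MeasureTheory Metric Filter Topology Set
open scoped ContDiff
open Vale.Agent.P366.Stmt

noncomputable section

namespace Vale.Agent.P366Z.Y

namespace ExpH

variable {n : ℕ} {g : Field n} {U : E n → ℝ} {ρ : ℝ}

/-- the square of the distance to `x` -/
def sq (x : E n) (z : E n) : ℝ := ‖z - x‖ ^ 2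

theorem sm_sq (x : E n) : Smooth (sq x) := (contDiff_id.sub contDiff_const).norm_sq ℝ

theorem pd_sq (x : E n) (j : Fin n) : pd j (sq x) = fun z => 2 * (z j - x j) := funext fun _ =>
  (pd_translate (f := fun z => ‖z‖ ^ 2) x j).trans (pd_normSq j _)

theorem sum_sq (x z : E n) : ∑ j, pd j (sq x) z ^ 2 = 4 * ‖z - x‖ ^ 2 := by
  rw [norm_sq_eq, Finset.mul_sum]
  exact Finset.sum_congr rfl fun j _ => by rw [pd_sq, PiLp.sub_apply]; ring

theorem up_le (hg : Met g) {x : E n} {l : ℝ} (hl : 0 < l)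
    (h : ∀ ξ : Fin n → ℝ, l * ∑ i, ξ i ^ 2 ≤ ∑ i, ∑ j, g x i j * ξ i * ξ j) (ξ : Fin n → ℝ) :
    ∑ i, ∑ j, up g i j x * ξ i * ξ j ≤ l⁻¹ * ∑ i, ξ i ^ 2 := by
  have h1 : ∑ i, ∑ j, up g i j x * ξ i * ξ j = ∑ i, (∑ j, up g i j x * ξ j) * ξ i :=
    Finset.sum_congr rfl fun i _ => by
      rw [Finset.sum_mul]
      exact Finset.sum_congr rfl fun j _ => by ring
  have h2 := ((h fun i => ∑ j, up g i j x * ξ j).trans_eq (Finset.sum_congr rfl
    (g := fun i => (∑ j, up g i j x * ξ j) * ξ i) fun i _ => by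
      rw [← hg.g_up_mul x i ξ, Finset.mul_sum]
      exact Finset.sum_congr rfl fun j _ => by ring)).trans_eq h1.symm
  refine lo_of_hi (a := ∑ i, (∑ j, up g i j x * ξ j) ^ 2) (hg.up_nonneg x ξ) (by positivity) ?_ ?_
    (inv_pos.2 hl).le
  · rw [h1]
    exact Finset.sum_mul_sq_le_sq_mul_sq _ _ _
  · rwa [le_inv_mul_iff₀ hl]

theorem wl_bd (hg : Met g) (hf : Flat g ρ) (hU : Wt g U) :
    ∃ K ≥ (0 : ℝ), ∀ x z, wl g U (sq x) z ≤ K * (1 + ‖z - x‖) := by
  obtain ⟨c, hc, C, hC⟩ := hU.bd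
  obtain ⟨Λ, hΛ⟩ := hg.ell hf
  have Λ0 := hΛ.one
  have h0 : ∀ y, 0 < U y := fun y => hc.trans_le (hC y).1
  have C0 : 0 < C := (h0 0).trans_le (hC 0).2.1
  refine ⟨C ^ 2 * (n * (Λ * 2)) + 2 * C * (Λ * C * (Λ * 2)), by positivity, fun x z => ?_⟩
  have k0 := norm_nonneg (z - x)
  have k1 : ‖fderiv ℝ (sq x) z‖ ≤ 2 * ‖z - x‖ := by
    refine (pow_le_pow_iff_left₀ (norm_nonneg _) (by positivity) two_ne_zero).1 ?_
    rw [norm_fderiv_sq ((sm_sq x).diff z), sum_sq]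
    linarith
  have k2 := (le_abs_self _).trans ((hg.abs_ip_le U (sq x) z).trans (mul_le_mul
    ((hΛ.gn_le (hU.sm.diff z)).trans (mul_le_mul_of_nonneg_left (hC z).2.2.1 (by linarith)))
    ((hΛ.gn_le ((sm_sq x).diff z)).trans (mul_le_mul_of_nonneg_left k1 (by linarith)))
    (gn_nonneg _ _ _) (by positivity)))
  have k3 : lap g (sq x) z ≤ n * (Λ * 2) * (1 + ‖z - x‖) := by
    rw [hg.lap_eq ((sm_sq x).c2 z), ← Finset.sum_add_distrib]
    refine (Finset.sum_le_card_nsmul _ _ (Λ * 2 * (1 + ‖z - x‖)) fun i _ => ?_).trans_eq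
      (by simp [mul_assoc])
    have a1 : ∑ j, up g i j z * pd i (pd j (sq x)) z = up g i i z * 2 := by
      simp [pd_sq, pd_const_mul, pd_sub_const, pd_coord]
    have a2 := (le_abs_self _).trans ((abs_mul _ _).le.trans (mul_le_mul (hΛ.bv_bd z i).1
      ((abs_pd_le ((sm_sq x).diff z) i).trans k1) (abs_nonneg _) (by linarith)))
    have a3 := (le_abs_self _).trans (hΛ.up_bd z i i).1
    rw [a1]
    linarith
  have k4 := (mul_le_mul_of_nonneg_left k3 (sq_nonneg (U z))).trans (mul_le_mul_of_nonneg_right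
    (pow_le_pow_left₀ (h0 z).le (hC z).2.1 2) (by positivity))
  have k5 := (mul_le_mul_of_nonneg_left k2 (h0 z).le).trans (mul_le_mul_of_nonneg_right (hC z).2.1
    (by positivity))
  have k6 : 0 ≤ 2 * C * (Λ * C * (Λ * 2)) := by positivity
  rw [hg.wl_eq (hU.sm.diff z) ((sm_sq x).c2 z)]
  linarith

/-- comparison with the barrier -/
theorem core (hW : WMP) (hn : 0 < n) (hg : Met g) (hU : Smooth U) (h0 : ∀ x, 0 < U x) {ν t : ℝ}
    {x : E n} {c y : E n → ℝ} (ht : 0 < t) (hy : Smooth y) (h2 : ∀ z, y z ≤ 2)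
    (h : ∀ z ∈ ball x t, 0 ≤ c z ∧ c z * y z ≤ wl g U y z ∧
      ν * wl g U (sq x) z + ν ^ 2 * (U z ^ 2 * ip g (sq x) (sq x) z) ≤ c z) :
    y x ≤ 2 * Real.exp (-(ν * t ^ 2)) := by
  have d1 : ∀ s, HasDerivAt (fun s => 2 * Real.exp (ν * (s - t ^ 2)))
      (2 * Real.exp (ν * (s - t ^ 2)) * ν) s := fun s => by
    simpa [mul_assoc] using ((((hasDerivAt_id s).sub_const (t ^ 2)).const_mul ν).exp).const_mul 2
  have e1 : deriv (fun s => 2 * Real.exp (ν * (s - t ^ 2))) =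
      fun s => 2 * Real.exp (ν * (s - t ^ 2)) * ν := funext fun s => (d1 s).deriv
  have h1 : Smooth fun z => 2 * Real.exp (ν * (sq x z - t ^ 2)) :=
    contDiff_const.mul (contDiff_const.mul (ContDiff.sub (sm_sq x) contDiff_const)).exp
  have h3 := hW n g U (fun z => 2 * Real.exp (ν * (sq x z - t ^ 2)) - y z) c (ball x t) hn hg hU h0
    isOpen_ball (h1.cont.sub hy.cont).continuousOn (fun z hz => ⟨(h1.c2 z).sub (hy.c2 z), (h z hz).1,
      by
        rw [hg.wl_sub (hU.diff z) (h1.c2 z) (hy.c2 z), hg.wl_comp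
          (φ := fun s => 2 * Real.exp (ν * (s - t ^ 2))) (hU.diff z) ((sm_sq x).c2 z) (by fun_prop),
          e1, ((d1 _).mul_const ν).deriv]
        have k1 := mul_le_mul_of_nonneg_left (h z hz).2.2
          (by positivity : 0 ≤ 2 * Real.exp (ν * (sq x z - t ^ 2)))
        linarith [(h z hz).2.1]⟩)
    (fun z hz => by
      rw [sq, mem_sphere_iff_norm.1 (frontier_ball_subset_sphere hz), sub_self, mul_zero,
        Real.exp_zero]
      linarith [h2 z])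
    (fun e _ => ⟨‖x‖ + t, fun z hz k => absurd (norm_lt_of_mem_ball hz) (not_lt.2 k)⟩) x
    (mem_ball_self ht)
  simpa [sq] using h3

theorem alg {σ w p q P e k X : ℝ} (hσ : σ = 1 ∨ σ = -1) (hw : |w| < 1) (hp : 0 ≤ p) (hq : 0 ≤ q)
    (hc : if σ = 1 then p = 0 ∧ (9 / 10 ≤ w ∨ q = 4) else q = 0 ∧ (w ≤ -(9 / 10) ∨ p = 4))
    (k0 : 0 ≤ k) (k1 : k ≤ 1) (he : 0 < e) (hP : e * 2 ≤ P)
    (h : e * X = P * (-2 * w * (1 - w ^ 2) + 2 * p * (1 + w) - 2 * q * (1 - w)) / e +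
      k * (1 - w ^ 2)) : 2 * P / e ^ 2 * (-σ * w + 1) ≤ -σ * X := by
  obtain ⟨w1, w2⟩ := abs_lt.1 hw
  have h1 : X = (P * (-2 * w * (1 - w ^ 2) + 2 * p * (1 + w) - 2 * q * (1 - w)) +
      e * k * (1 - w ^ 2)) / e ^ 2 := by
    field_simp at h ⊢
    linarith
  have h2 := mul_nonneg he.le k0
  have h3 := mul_le_of_le_one_right he.le k1
  rw [h1, div_mul_eq_mul_div, ← mul_div_assoc]
  refine div_le_div_of_nonneg_right ?_ (by positivity)
  rcases hσ with rfl | rfl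
  · rw [if_pos rfl] at hc
    have h4 : 3 ≤ 2 * w * (1 + w) + 2 * q := by
      rcases hc.2 with h5 | h5 <;> nlinarith [sq_nonneg (2 * w + 1)]
    have h5 : 2 * P ≤ P * (2 * w * (1 + w) + 2 * q) - e * k * (1 + w) := by nlinarith
    rw [hc.1]
    nlinarith [mul_le_mul_of_nonneg_left h5 (sub_pos.2 w2).le]
  · rw [if_neg (by norm_num)] at hc
    have h4 : 3 ≤ -2 * w * (1 - w) + 2 * p := by
      rcases hc.2 with h5 | h5 <;> nlinarith [sq_nonneg (2 * w - 1)]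
    have h5 : 2 * P ≤ P * (-2 * w * (1 - w) + 2 * p) + e * k * (1 - w) := by nlinarith
    rw [hc.1]
    nlinarith [mul_le_mul_of_nonneg_left h5 (by linarith : 0 ≤ 1 + w)]

theorem log_ge {y s : ℝ} (h0 : 0 < y) (h : y ≤ 2 * Real.exp (-s)) (hs : 2 ≤ s) :
    s / 2 ≤ Real.log ((2 - y) / y) := by
  have h1 : 2 ≤ Real.exp (s / 2) := by linarith [Real.add_one_le_exp (s / 2)]
  have h2 : Real.exp (-s) * (Real.exp (s / 2) * Real.exp (s / 2)) = 1 := by
    rw [← Real.exp_add, ← Real.exp_add, ← Real.exp_zero]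
    congr 1
    ring
  have h3 : Real.exp (s / 2) ≤ (2 - y) / y := by
    rw [le_div_iff₀ h0]
    have h4 := mul_le_mul_of_nonneg_right h (mul_self_nonneg (Real.exp (s / 2)))
    have h5 : Real.exp (s / 2) + 1 ≤ Real.exp (s / 2) * Real.exp (s / 2) := by nlinarith
    nlinarith [mul_le_mul_of_nonneg_left h5 h0.le]
  exact (Real.le_log_iff_exp_le ((Real.exp_pos _).trans_le h3)).2 h3

theorem ev_le (A : ℝ) {B : ℝ} (hB : 0 < B) : ∀ᶠ ε in 𝓝[>] (0 : ℝ), ε * A ≤ B :=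
  nhdsWithin_le_nhds (((continuous_id.mul continuous_const).tendsto' 0 0 (zero_mul A)).eventually
    (ge_mem_nhds hB))

theorem cf_quad (U : E n → ℝ) (g : Field n) (x : E n) (ξ : Fin n → ℝ) :
    ∑ i, ∑ j, cf U g x i j * ξ i * ξ j = U x ^ (2 * bb n) * ∑ i, ∑ j, g x i j * ξ i * ξ j := by
  simp only [cf, Finset.mul_sum, mul_assoc]

end ExpH

open ExpH in
theorem exp_of (hW : WMP) : EXP := by
  intro n C
  refine ⟨1 / 8, by norm_num, fun B L m p q U a β R s' hB hP hS κ hκ t₀ ht₀ => ?_⟩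
  have hU := stwt n B U a β R s' hB hS
  have hg := hB.met
  have hn := hB.dim
  obtain ⟨K, K0, hK⟩ := wl_bd hg hB.flat hU
  obtain ⟨Λ, hΛ⟩ := hg.ell hB.flat
  obtain ⟨c, hc, D, hD⟩ := hU.bd
  have Λ0 : 0 < Λ := one_pos.trans_le hΛ.one
  have h0 : ∀ y, 0 < U y := fun y => hc.trans_le (hD y).1
  have b0 := bb_pos hn
  have n0 : (0 : ℝ) < n := by exact_mod_cast (by omega : 0 < n)
  have u0 : 0 < c ^ (n * bb n) := Real.rpow_pos_of_pos hc _
  have u1 : ∀ z, c ^ (n * bb n) ≤ U z ^ (n * bb n) := fun z =>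
    Real.rpow_le_rpow hc.le (hD z).1 (by positivity)
  have l0 : 0 < √(c ^ (2 * bb n) / Λ) := Real.sqrt_pos.2 (div_pos (Real.rpow_pos_of_pos hc _) Λ0)
  filter_upwards [self_mem_nhdsWithin, ev_le 2 u0,
    ev_le ((D ^ (2 * bb n) * Λ + 1) * (K * (t₀⁻¹ + 1)) / 2) u0, ev_le 4 (mul_pos l0 ht₀)]
    with ε (e0 : 0 < ε) e1 e2 e3 w hw σ lam t x hσ hl ht hR hc'
  have t0 := ht₀.trans_le ht
  obtain ⟨l, l1, l2, l3⟩ : ∃ l, lam ≤ l ∧ √(c ^ (2 * bb n) / Λ) ≤ l ∧ ∀ z ∈ ball x t,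
      ∀ ξ : Fin n → ℝ, l ^ 2 * ∑ i, ξ i ^ 2 ≤ ∑ i, ∑ j, cf U B.g z i j * ξ i * ξ j := by
    rcases le_total lam √(c ^ (2 * bb n) / Λ) with h | h
    · refine ⟨_, h, le_rfl, fun z _ ξ => ?_⟩
      rw [Real.sq_sqrt (by positivity), cf_quad, div_mul_eq_mul_div, mul_div_assoc]
      exact mul_le_mul (Real.rpow_le_rpow hc.le (hD z).1 (by positivity))
        ((div_le_iff₀' Λ0).2 (hΛ.g_lo z ξ)) (by positivity) (Real.rpow_nonneg (h0 z).le _)
    · exact ⟨lam, le_rfl, h, fun z hz ξ => (hR z hz ξ).1⟩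
  have l4 : 0 < l := hl.trans_le l1
  have l5 : l ≤ D ^ (2 * bb n) * Λ + 1 := by
    have h1 := (l3 x (mem_ball_self t0) fun _ => 1).trans ((cf_quad _ _ _ _).le.trans (mul_le_mul
      (Real.rpow_le_rpow (h0 x).le (hD x).2.1 (by positivity)) (hΛ.g_hi x _) (hg.g_nonneg x _)
      (Real.rpow_nonneg ((h0 x).le.trans (hD x).2.1) _)))
    rw [← mul_assoc] at h1
    have h2 := le_of_mul_le_mul_right h1 (by simpa using (by omega : 0 < n))
    nlinarith [sq_nonneg (l - 1)]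
  have hσ1 : |σ| = 1 := by rcases hσ with rfl | rfl <;> simp
  have hy : ∀ z, |σ * w z| < 1 := fun z => by rw [abs_mul, hσ1, one_mul]; exact hw.lt z
  have h1 := core (ν := l / (2 * ε * t)) (c := fun z => 2 * U z ^ (n * bb n) / ε ^ 2)
    (y := fun z => -σ * w z + 1) hW (by omega) hg hU.sm h0 t0
    (ContDiff.add (contDiff_const.mul hw.sm) contDiff_const)
    (fun z => by linarith [(abs_lt.1 (hy z)).1]) fun z hz => by
      have z0 := u0.trans_le (u1 z)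
      have z1 := (mem_ball_iff_norm.1 hz).le
      refine ⟨by positivity, (alg hσ (hw.lt z) (hP.p04 z).1 (hP.q04 z).1 (hc' z hz)
        (mul_nonneg hκ.1 (hP.m01 z).1) (mul_le_one₀ hκ.2 (hP.m01 z).1 (hP.m01 z).2) e0
        (e1.trans (u1 z)) (hw.eqn z)).trans_eq (wl_affine _ _).symm, ?_⟩
      have a1 : U z ^ 2 * ip B.g (sq x) (sq x) z =
          U z ^ (n * bb n) * ip (cf U B.g) (sq x) (sq x) z := by
        rw [hg.ip_cf (h0 z), ← mul_assoc, ← Real.rpow_add (h0 z), n_bb hn, add_neg_cancel_right,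
          Real.rpow_two]
      have a2 : ip (cf U B.g) (sq x) (sq x) z ≤ (l ^ 2)⁻¹ * (4 * t ^ 2) :=
        (up_le (hg.cf hU.sm h0) (pow_pos l4 2) (l3 z hz) _).trans (by rw [sum_sq]; gcongr)
      have a3 : (l / (2 * ε * t)) ^ 2 * (U z ^ 2 * ip B.g (sq x) (sq x) z) ≤
          U z ^ (n * bb n) / ε ^ 2 := by
        rw [a1]
        refine (mul_le_mul_of_nonneg_left (mul_le_mul_of_nonneg_left a2 z0.le)
          (sq_nonneg _)).trans_eq ?_
        field_simp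
        ring
      have a4 : l / (2 * ε * t) * wl B.g U (sq x) z ≤ U z ^ (n * bb n) / ε ^ 2 := by
        refine (mul_le_mul_of_nonneg_left ((hK x z).trans (mul_le_mul_of_nonneg_left
          (add_le_add_right z1 1) K0)) (by positivity)).trans ?_
        rw [show l / (2 * ε * t) * (K * (1 + t)) = ε * (l * (K * (t⁻¹ + 1)) / 2) / ε ^ 2 by
          field_simp]
        refine div_le_div_of_nonneg_right (le_trans ?_ (e2.trans (u1 z))) (sq_nonneg _)
        have a5 : 0 ≤ D ^ (2 * bb n) * Λ + 1 := l4.le.trans l5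
        gcongr
      rw [mul_div_assoc]
      linarith
  have h2 : 2 ≤ l / (2 * ε * t) * t ^ 2 := by
    rw [show l / (2 * ε * t) * t ^ 2 = l * t / (2 * ε) by field_simp, le_div_iff₀ (by positivity)]
    linarith [mul_le_mul l2 ht ht₀.le l4.le]
  have h3 := mul_le_mul_of_nonneg_left (log_ge (by linarith [(abs_lt.1 (hy x)).2]) h1 h2)
    (half_pos e0).le
  rw [show ε / 2 * (l / (2 * ε * t) * t ^ 2 / 2) = 1 / 8 * l * t by field_simp; ring] at h3
  refine le_trans (by gcongr) (h3.trans_eq ?_)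
  rcases hσ with rfl | rfl
  · rw [one_mul, dd]
    congr 3 <;> ring
  · rw [neg_one_mul, dd, ← mul_neg, ← Real.log_inv, inv_div]
    congr 3 <;> ring

end Vale.Agent.P366Z.Y
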