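import Vale.Agent.P366Y.G.Int
import Vale.Agent.P366Y.G.Fl.F4

/-!
# P366Y, block G (after P366Z): the choice of the constants of the flow
-/

open MeasureTheory Metric Filter Topology Set
open scoped ContDiff ENNReal
open Vale.Agent.P366.Stmt

noncomputable section

namespace Vale.Agent.P366Z.Y

variable {n : ℕ}

theorem ev_rpow {b : ℝ} (hb : 0 < b) (A : ℝ) {c : ℝ} (hc : 0 < c) :
    ∀ᶠ t in 𝓝[>] (0 : ℝ), A * t ^ b ≤ c := by
  have h1 : Tendsto (fun t : ℝ => A * t ^ b) (𝓝 0) (𝓝 (A * 0 ^ b)) :=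
    (Real.continuousAt_rpow_const 0 b (Or.inr hb.le)).tendsto.const_mul A
  rw [Real.zero_rpow hb.ne', mul_zero] at h1
  exact (h1.eventually (ge_mem_nhds hc)).filter_mono nhdsWithin_le_nhds

theorem ev_le {c : ℝ} (hc : 0 < c) : ∀ᶠ t in 𝓝[>] (0 : ℝ), 0 < t ∧ t ≤ c :=
  Filter.Eventually.and self_mem_nhdsWithin
    (Filter.Eventually.filter_mono nhdsWithin_le_nhds (ge_mem_nhds hc))

theorem ev_zeta (p : ℝ) {η : ℝ} (hη : 0 < η) : ∀ᶠ ζ in 𝓝[>] (0 : ℝ), (1 + ζ) ^ p ≤ 1 + η := by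
  have h1 : ContinuousAt (fun ζ : ℝ => (1 + ζ) ^ p) 0 :=
    ContinuousAt.rpow_const (by fun_prop) (Or.inl (by norm_num))
  have h2 := h1.tendsto
  simp only [add_zero, Real.one_rpow] at h2
  exact (h2.eventually (ge_mem_nhds (by linarith))).filter_mono nhdsWithin_le_nhds

theorem exp_le_one_sub {τ : ℝ} (h0 : 0 ≤ τ) (h1 : τ ≤ 1 / 2) : Real.exp (-(2 * τ)) ≤ 1 - τ := by
  rw [Real.exp_neg, inv_le_comm₀ (Real.exp_pos _) (by linarith)]
  refine le_trans ?_ (Real.add_one_le_exp _)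
  rw [inv_le_iff_one_le_mul₀ (by linarith)]
  nlinarith

theorem final_num (hn : 3 ≤ n) {μ ζ η δ l r₀ : ℝ} (hμ : 0 < μ) (ζ0 : 0 < ζ) (δ0 : 0 < δ)
    (δ1 : δ ≤ ζ) (l0 : 0 < l) (l1 : l ≤ 1 + ζ) (r0 : 0 < r₀)
    (hr : r₀ ^ (n - 2 : ℝ) = μ * (1 + ζ) / 2) (hζ : (1 + ζ) ^ (3 * (n - 1 : ℝ) + 3 * gam n) ≤ η) :
    ((1 + δ) * (1 + ζ) * l * r₀) ^ (n - 1 : ℝ) * (2 + ζ / 8) ^ (2 * gam n) ≤
      η * (2 * μ) ^ gam n := by
  have hγ : 0 < gam n := by linarith [one_lt_gam hn]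
  have h0 : (0 : ℝ) < n - 1 := by linarith [nm2_pos hn]
  have z0 : 0 < 1 + ζ := by linarith
  have h1 : ((1 + δ) * (1 + ζ) * l * r₀) ^ (n - 1 : ℝ) ≤
      ((1 + ζ) * (1 + ζ) * (1 + ζ) * r₀) ^ (n - 1 : ℝ) := by gcongr
  have h2 : (2 + ζ / 8) ^ (2 * gam n) ≤ (2 * (1 + ζ)) ^ (2 * gam n) := by gcongr; linarith
  have h3 : r₀ ^ (n - 1 : ℝ) = (μ / 2) ^ gam n * (1 + ζ) ^ gam n := by
    rw [← nm2_gam hn, Real.rpow_mul r0.le, hr, ← Real.mul_rpow (by positivity) z0.le]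
    congr 1; ring
  have h4 : (2 * μ) ^ gam n = (μ / 2) ^ gam n * 2 ^ (2 * gam n) := by
    rw [Real.rpow_mul two_pos.le, ← Real.mul_rpow (by positivity) (by positivity)]
    congr 1; norm_num; ring
  have h5 : (1 + ζ) ^ (3 * (n - 1 : ℝ) + 3 * gam n) = (1 + ζ) ^ (n - 1 : ℝ) *
      (1 + ζ) ^ (n - 1 : ℝ) * (1 + ζ) ^ (n - 1 : ℝ) * (1 + ζ) ^ gam n * (1 + ζ) ^ (2 * gam n) := by
    simp only [← Real.rpow_add z0]; congr 1; ring
  refine (mul_le_mul h1 h2 (by positivity) (by positivity)).trans ?_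
  rw [Real.mul_rpow (by positivity) r0.le, Real.mul_rpow (by positivity) z0.le,
    Real.mul_rpow z0.le z0.le, Real.mul_rpow two_pos.le z0.le, h3, h4]
  refine le_trans (le_of_eq ?_) (mul_le_mul_of_nonneg_right hζ (by positivity))
  rw [h5]; ring

set_option maxHeartbeats 1000000 in
theorem flow_of (hONE : ONE) (hFC : FC) (hU : UPD) (hL : HLOW) (hN : NEST) (hAR : AREA)
    (hR : RAMP) (hE : E4) (hST : STAB) (hNW : NEWT) (hH : HARN) (hA : ASY) : FLOW := by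
  intro n μ η ρ μ0 η0
  by_cases hn : 3 ≤ n
  swap
  · exact ⟨1, one_pos, fun B _ hB => absurd hB.dim hn⟩
  have hω := omega_pos (n := n) (by omega)
  have hb := bb_pos hn
  have hγ : 0 < gam n := by linarith [one_lt_gam hn]
  have n2 := nm2_pos hn
  obtain ⟨ζ, ⟨ζ0, ζ1⟩, hζ⟩ := ((ev_le one_pos).and
    (ev_zeta (3 * (n - 1 : ℝ) + 3 * gam n) (half_pos η0))).exists
  set ε₀ := η / 2 * omega n * (2 * μ) ^ gam n / 4 with hε₀
  clear_value ε₀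
  have ε0 : 0 < ε₀ := by rw [hε₀]; positivity
  set r₀ := (μ * (1 + ζ) / 2) ^ ((n - 2 : ℝ)⁻¹) with hr₀
  clear_value r₀
  have r0 : 0 < r₀ := by rw [hr₀]; positivity
  have rp : r₀ ^ (n - 2 : ℝ) = μ * (1 + ζ) / 2 := hr₀ ▸ Real.rpow_inv_rpow (by positivity) n2.ne'
  obtain ⟨CH, hH⟩ := hH n hn
  obtain ⟨ta, ⟨ta0, ta1⟩, ta2⟩ := ((ev_le one_pos).and (ev_rpow hb 12 one_pos)).exists
  obtain ⟨c', c'0, c'8, C, C0, hONE⟩ := hONE n (max (|CH| * (4 / ta + 1)) (4 / ta))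
  set C' := max (|CH| * (4 / ta + 1)) (4 / ta) with hC'
  clear_value C'
  set ρ₁ := max ρ 1 with hρ₁
  clear_value ρ₁
  have ρ1 : 1 ≤ ρ₁ := hρ₁ ▸ le_max_right _ _
  set X := omega n * ρ₁ ^ (n - 1 : ℝ) * 2 ^ (2 * gam n) + 1 with hX
  clear_value X
  have X0 : 0 < X := by rw [hX]; positivity
  set rh := max (max r₀ 1) ((ρ₁ + X) / c') with hrh
  clear_value rh
  have rh1 : 1 ≤ rh := hrh ▸ le_max_of_le_left (le_max_right _ _)
  have rh2 : r₀ ≤ rh := hrh ▸ le_max_of_le_left (le_max_left _ _)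
  have rh3 : ρ₁ + X ≤ c' * rh := by
    rw [mul_comm]; exact (div_le_iff₀ c'0).1 (hrh ▸ le_max_right _ _)
  obtain ⟨tb, ⟨tb0, tb1⟩, tb2⟩ := ((ev_le one_pos).and (ev_rpow hb rh r0)).exists
  set C₀ := max (2 * C' / tb) (4 / tb) with hC₀
  clear_value C₀
  have C₀0 : 0 < C₀ := hC₀ ▸ lt_max_of_lt_right (by positivity)
  obtain ⟨c, c0, K, K0, hONE⟩ := hONE C₀
  obtain ⟨δE, δE0, hE⟩ := hE n (2 * C₀) (c / 2) (ζ / 8) hn (by positivity) (by positivity)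
  set δ := min ζ (δE / 10) with hδ
  clear_value δ
  have δ0 : 0 < δ := by rw [hδ]; positivity
  have δ1 : δ ≤ ζ := hδ ▸ min_le_left _ _
  have δ2 : δ ≤ δE / 10 := hδ ▸ min_le_right _ _
  obtain ⟨CN, hNW⟩ := hNW n hn
  obtain ⟨t, ⟨⟨t0, t1⟩, t2⟩, t3⟩ := (((ev_le one_half_pos).and (ev_rpow hb (6 * rh) r0)).and
    (ev_rpow hb (4 * (|CN| * (C₀ + 1) * (3 / 2 * (rh / r₀)) ^ (n - 1 : ℝ)))
      (show 0 < ζ / 8 by positivity))).exists
  set T₁ := 2 * Real.log (2 / t) with hT₁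
  clear_value T₁
  have T₁0 : 0 < T₁ := hT₁ ▸ mul_pos two_pos (Real.log_pos (by rw [lt_div_iff₀ t0]; linarith))
  obtain ⟨η₂, ⟨η₂0, η₂1⟩, η₂2⟩ := ((ev_le (show 0 < ζ / 32 by positivity)).and
    (ev_small (96 * T₁) (show 0 < ζ / 8 * t ^ 2 by positivity))).exists
  obtain ⟨eS, eS0, hST⟩ := hST n (2 * C₀) (δ / 4) η₂ hn (by positivity) η₂0
  set e' := eS / (4 * C) with he'
  clear_value e'
  have e'0 : 0 < e' := by rw [he']; positivity
  set σ := e' * (ζ / 8 * t ^ 2) / 96 with hσ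
  clear_value σ
  have σ0 : 0 < σ := by rw [hσ]; positivity
  obtain ⟨W, hW⟩ := exists_nat_gt (2 / σ + 4 / e')
  have Wp : (0 : ℝ) < W := lt_trans (by positivity) hW
  have w1 : 2 / W ≤ σ := by
    rw [div_le_iff₀ Wp, mul_comm, ← div_le_iff₀ σ0]
    linarith [show 0 < 4 / e' by positivity]
  have w2 : 4 / W ≤ e' := by
    rw [div_le_iff₀ Wp, mul_comm, ← div_le_iff₀ e'0]
    linarith [show 0 < 2 / σ by positivity]
  set T := 2 * W * T₁ + 1 with hT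
  clear_value T
  have T0 : 0 < T := by rw [hT]; positivity
  have lζ : 0 < Real.log (1 + ζ) := Real.log_pos (by linarith)
  obtain ⟨θ, ⟨⟨θ0, θ1⟩, θ2⟩, θ3⟩ := (((ev_le (show 0 < ζ / 16 by positivity)).and
    (ev_small (6 * C₀) δ0)).and (ev_small (6 * T) lζ)).exists
  set D := min (δ * r₀ / K) (c' * rh / 2) with hD
  clear_value D
  have D0 : 0 < D := by rw [hD]; positivity
  have D1 : D ≤ δ * r₀ / K := hD ▸ min_le_left _ _
  have D2 : D ≤ c' * rh / 2 := hD ▸ min_le_right _ _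
  set a₀ := Real.exp (-(2 * T)) with ha₀
  clear_value a₀
  have a₀0 : 0 < a₀ := ha₀ ▸ Real.exp_pos _
  refine ⟨min (min (a₀ / 2) (eS * a₀ / 4)) ((θ / 2) ^ bb n * (a₀ / 2) ^ bb n / 128), by positivity,
    fun B β hB hρ hδB' hAs hβ => ?_⟩
  have hδB := hδB'.trans (min_le_left _ _)
  have ρ2 : B.ρ ≤ ρ₁ := hρ.trans (hρ₁ ▸ le_max_left _ _)
  have ρ0 := hB.one
  set L := 4 * (rh * a₀ ^ (-bb n)) + 2 * B.ρ + 1 with hL'
  clear_value L
  have L1 : 0 < rh * a₀ ^ (-bb n) := by positivity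
  have L0 : 0 < L := by linarith
  obtain ⟨m, p, q, hP⟩ := hFC.2 n B L hB (by linarith)
  obtain ⟨e₂, f, hf⟩ := hFC.1 θ θ0
  obtain ⟨κ₀, κ₀0, hONE⟩ := hONE B L a₀ θ D m p q hB hP a₀0 ⟨θ0, by linarith⟩ D0
    (hδB'.trans (min_le_right _ _))
  obtain ⟨Λ, hΛ⟩ := hB.met.ell hB.flat
  have Λ1 := hΛ.one
  obtain ⟨CA, CA0, hAR⟩ := hAR n
  set V := ∫ x, m x * dens B.g x with hV
  clear_value V
  obtain ⟨s, ⟨s0, -⟩, s1⟩ := ((ev_le one_pos).and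
    (ev_small (CA * T * (3 * (n - 2) * omega n * μ) / 2) ε0)).exists
  obtain ⟨τ₀, ⟨⟨τ₀0, τ₀1⟩, τ₀2⟩, τ₀3⟩ := (((ev_le one_half_pos).and (ev_small 4 lζ)).and
    (ev_small (CA * |V| / (2 * s)) ε0)).exists
  obtain ⟨N, hN'⟩ := exists_nat_gt (4 + T / τ₀)
  have N4 : (4 : ℝ) < N := by linarith [show 0 < T / τ₀ by positivity]
  set τ := T / N with hτ
  clear_value τ
  have τ0 : 0 < τ := by rw [hτ]; positivity
  have τ1 : τ ≤ τ₀ := by
    rw [hτ, div_le_iff₀ (by linarith), mul_comm, ← div_le_iff₀ τ₀0]; linarith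
  have Nτ : N * τ = T := by rw [hτ]; field_simp
  obtain ⟨κ, ⟨⟨κ0, κ1⟩, κ2⟩, κ3⟩ := (((ev_le (half_pos κ₀0)).and
    (ev_small (2 * (L + 1) ^ n * Λ) (show 0 < c' * a₀ ^ (2 * gam n) by positivity))).and
    (ev_small (2 * V * (1 + CA * T)) ε0)).exists
  obtain ⟨ηs, ⟨⟨ηs0, ηs1⟩, ηs2⟩, ηs3⟩ := (((ev_le (show 0 < δE / 8 by positivity)).and
    (ev_small (N * (2 * N / κ)) (show 0 < c / 2 * (δE / 8) ^ n by positivity))).and
    (ev_small (N + 2 + CA * T * (1 + (2 * N / κ + Λ) / (2 * s))) ε0)).exists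
  let P : Pm n := ⟨B, m, p, q, f, N, L, μ, μ * (1 + ζ), β, r₀, rh, τ, e₂, θ, δ, κ, ηs, C, C', C₀,
    c, K, D⟩
  have e0 : 0 < e₂ := θ0.trans_le hf.le.1
  have l1 : Real.exp (-(2 * τ)) ≤ P.lam := (exp_le_one_sub τ0.le (τ1.trans τ₀1)).trans (by
    show 1 - τ ≤ 1 - τ * (1 - e₂)
    linarith only [mul_pos τ0 e0])
  have l2 : a₀ ≤ P.a P.N := by
    have := pow_le_pow_left₀ (Real.exp_pos _).le l1 N
    rwa [← Real.exp_nat_mul, show N * -(2 * τ) = -(2 * T) by rw [← Nτ]; ring, ← ha₀] at this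
  have l3 : P.rH P.N ≤ rh * a₀ ^ (-bb n) := mul_le_mul_of_nonneg_left
    (Real.rpow_le_rpow_of_nonpos a₀0 l2 (by linarith)) (by show 0 ≤ rh; linarith)
  have ρ3 : B.ρ ≤ c' * rh := by linarith only [ρ2, rh3, X0]
  have H : P.Ok := ⟨hB, hP, hf, θ0, by show θ ≤ 1 / 8; linarith only [θ1, ζ1], τ0, τ1.trans τ₀1, hAs, μ0, hβ, by
      show μ * Real.exp (6 * τ * θ) ^ N ≤ μ * (1 + ζ)
      refine mul_le_mul_of_nonneg_left ?_ μ0.le
      rw [← Real.exp_nat_mul, ← Real.le_log_iff_exp_le (by linarith),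
        show N * (6 * τ * θ) = θ * (6 * T) by rw [← Nτ]; ring]
      exact θ3.le, by show μ * (1 + ζ) ≤ 2 * μ; nlinarith only [μ0, ζ1], r0, rp, rh2,
    ρ3.trans (by show c' * rh ≤ rh; nlinarith only [c'8, rh1]), δ0, δ1.trans ζ1,
    le_trans (by show 2 * B.δ ≤ a₀; linarith only [hδB.trans (min_le_left _ _)]) l2,
    by show 4 < N; exact_mod_cast N4, by show 6 * C₀ * θ ≤ δ; linarith only [θ2],
    ⟨CH, ta, hH, ta0, ta1, ta2, (le_max_left _ _).trans hC'.ge, (le_max_right _ _).trans hC'.ge⟩,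
    ⟨tb, tb0, tb1, tb2, (le_max_left _ _).trans hC₀.ge, (le_max_right _ _).trans hC₀.ge⟩, κ0, ηs0⟩
  have hX' : P.Ex a₀ κ₀ c' := ⟨hONE, l2, by show 2 * κ ≤ κ₀; linarith only [κ1], c'0,
    l3.trans (by show _ ≤ L; linarith only [hL', L1, ρ0]), ρ3, by
      show omega n * B.ρ ^ (n - 1 : ℝ) * 2 ^ (2 * gam n) + 1 ≤ c' * rh ^ (n - 1 : ℝ)
      have h1 : rh ^ (1 : ℝ) ≤ rh ^ (n - 1 : ℝ) :=
        Real.rpow_le_rpow_of_exponent_le rh1 (by
          have : (3 : ℝ) ≤ n := by exact_mod_cast hn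
          linarith)
      rw [Real.rpow_one] at h1
      have h2 : omega n * B.ρ ^ (n - 1 : ℝ) * 2 ^ (2 * gam n) + 1 ≤ X := by
        rw [hX]; gcongr; linarith
      linarith only [mul_le_mul_of_nonneg_left h1 c'0.le, h2, rh3, ρ1], fun x => by
      show 2 * κ * (L + 1) ^ n * dens B.g x ≤ c' * P.a P.N ^ (2 * gam n)
      have h1 : 2 * κ * (L + 1) ^ n * dens B.g x ≤ 2 * κ * (L + 1) ^ n * Λ :=
        mul_le_mul_of_nonneg_left (hΛ.dens_hi x) (by positivity)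
      have h2 : c' * a₀ ^ (2 * gam n) ≤ c' * P.a P.N ^ (2 * gam n) := by gcongr
      linarith only [h1, h2, κ2], by show 2 * D ≤ c' * rh; linarith only [D2]⟩
  have hS : P.Sh CN (ζ / 8) η₂ eS e' t T₁ σ := ⟨hST, hNW, e'0, C0, by
      show 4 * C * e' ≤ eS
      rw [he']; field_simp; rfl, by
      show 4 * B.δ ≤ eS * P.a P.N
      linarith only [hδB.trans (min_le_right _ _), mul_le_mul_of_nonneg_left l2 eS0.le], η₂0, t0, t2,
    by rw [← mul_assoc]; exact t3, by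
      have : σ / e' = ζ / 8 * t ^ 2 / 96 := by rw [hσ]; field_simp
      rw [this]; linarith only [η₂2]⟩
  have hT' : P.Tp (ζ / 8) η₂ ζ δE := ⟨hE, c0, ζ0, ζ1, le_rfl, by show θ + _ ≤ _; linarith only [θ1, η₂1], θ1,
    by show 10 * δ ≤ δE; linarith only [δ2], by
      show K * D ≤ δ * r₀
      rw [mul_comm]; exact (le_div_iff₀ K0).1 D1, ηs1, by
      show N * (2 * ηs * N / κ) ≤ c / 2 * (δE / 8) ^ n
      refine le_trans (le_of_eq ?_) ηs2.le; ring⟩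
  obtain ⟨d, hG⟩ := H.exists_run hU hL hR hX' N le_rfl
  obtain ⟨k, hk, ψ, hψ, h1⟩ := H.final hA hU hL hN hR hS hT' hG (W := W) (by exact_mod_cast Wp) t1
    hT₁.ge w1 w2 (le_of_eq (hT.symm.trans Nτ.symm)) (by show _ < L; linarith only [hL', l3, ρ0])
  have hI := H.inv hU hL hG le_rfl
  have N0 : 0 < P.N := by omega
  have h2 := H.area hAR CA0 hN hΛ s0 (hG.mono hk) (fun j hj => hI j (hj.trans hk.le)) hk.le hψ
  refine ⟨H.β_nonneg hG N0, L, (d 0).ψ, (hG 0 N0).1.near.1, h2.trans ?_⟩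
  have l4 : P.lam ^ (-bb n) ≤ 1 + ζ := by
    refine (Real.rpow_le_rpow_of_nonpos (Real.exp_pos _) l1 (by linarith)).trans ?_
    rw [← Real.exp_mul, ← Real.le_log_iff_exp_le (by linarith)]
    nlinarith only [bb_le hn, τ0, τ1, τ₀2]
  have h3 := mul_le_mul_of_nonneg_left (final_num hn μ0 ζ0 δ0 δ1
    (Real.rpow_pos_of_pos H.lam_pos _) l4 r0 rp hζ) hω.le
  have h4 : CA * τ * V / (2 * s) ≤ ε₀ := by
    refine le_trans ?_ τ₀3.le
    calc CA * τ * V / (2 * s) ≤ CA * τ₀ * |V| / (2 * s) :=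
          div_le_div_of_nonneg_right (mul_le_mul (mul_le_mul_of_nonneg_left τ1 CA0.le)
            (le_abs_self _) (hV ▸ integral_nonneg fun x =>
              mul_nonneg (hP.m01 x).1 (dens_nonneg _ _)) (by positivity)) (by positivity)
      _ = _ := by ring
  have h5 : CA * T * (3 * (n - 2) * omega n * μ * s / 2 + ηs + 2 * κ * V +
      (2 * ηs * N / κ + Λ * ηs) / (2 * s)) = s * (CA * T * (3 * (n - 2) * omega n * μ) / 2) +
      κ * (2 * V * (CA * T)) + ηs * (CA * T * (1 + (2 * N / κ + Λ) / (2 * s))) := by ring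
  change per B (P.U d k) ψ ≤ omega n * ((1 + δ) * (1 + ζ) * P.lam ^ (-bb n) * r₀) ^ (n - 1 : ℝ) *
    (2 + ζ / 8) ^ (2 * gam n) + ηs at h1
  have hV' : ∫ x, P.m x * dens P.B.g x = V := hV.symm
  rw [hV']
  change per B (P.U d k) ψ + ((N + 1) * ηs + 2 * κ * V + CA * (N * τ) *
    (3 * (n - 2) * omega n * μ * s / 2 + ηs + 2 * κ * V + (2 * ηs * N / κ + Λ * ηs) / (2 * s)) +
    CA * τ * V / (2 * s)) ≤ _
  rw [Nτ, h5]
  linarith only [h1, h3, h4, s1, κ3, ηs3, hε₀]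

end Vale.Agent.P366Z.Y
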