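import Vale.Agent.P366Y.G.Int
import Vale.Agent.P366Z.LinkA
import Vale.Agent.P366Z.LinkB
import Vale.Agent.P366Z.Calc3

/-!
# P366Y, block G (after P366Z), LINK: the perimeter functional bounds the minimal enclosing area
-/

open MeasureTheory Metric Filter Topology Set
open scoped ContDiff ENNReal
open Vale.Agent.P366.Stmt Vale.Agent.P366Z.Lk

noncomputable section

namespace Vale.Agent.P366Z.Y

namespace Lk

variable {n : ℕ}

theorem cs {g : Field n} (hg : Met g) (x : E n) (ξ X : Fin n → ℝ)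
    (hX : ∑ i, ∑ j, g x i j * X i * X j ≤ 1) :
    -∑ i, ξ i * X i ≤ covNorm g (fun i _ => ξ i) x := by
  have h1 := hg.up_cs x ξ fun j => ∑ k, g x j k * X k
  have h3 : ∀ b : Fin n → ℝ, ∑ i, ∑ j, up g i j x * b i * ∑ k, g x j k * X k = ∑ i, b i * X i :=
    fun b => Finset.sum_congr rfl fun i _ => by
      rw [← hg.up_g_mul x i X, Finset.mul_sum]
      exact Finset.sum_congr rfl fun j _ => by ring
  have h4 : ∑ i, (∑ k, g x i k * X k) * X i = ∑ i, ∑ j, g x i j * X i * X j :=
    Finset.sum_congr rfl fun i _ => by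
      rw [Finset.sum_mul]
      exact Finset.sum_congr rfl fun j _ => by ring
  rw [h3, h3, h4] at h1
  exact (neg_le_abs _).trans (Real.abs_le_sqrt
    (h1.trans (mul_le_of_le_one_right (hg.up_nonneg x ξ) hX)))

theorem step (D : Exterior n) {B : Bg n} {η L ε : ℝ} {ψ : E n → ℝ} (hB : B.Ok) (hη : η < 1)
    (hF : ∀ x, D.F x ≤ 0 → B.F x ≤ 0) (hc : ∀ x, 0 ≤ D.F x → ∀ ξ : Fin n → ℝ,
      (1 - η) * (dens D.g x * covNorm D.g (fun i _ => ξ i) x) ≤
        B.U x ^ (2 * gam n) * covNorm B.g (fun i _ => ξ i) x * dens B.g x) (hψ : Cls B L ψ)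
    (h0 : 0 < ε) (h1 : ε < 1 / 2) :
    D.Amin ≤ ENNReal.ofReal ((per B B.U ψ + ε) / (1 - η) / (1 - ε - ε)) := by
  have hη' : 0 < 1 - η := sub_pos.2 hη
  have hs := hB.s0
  let Φ : E n × (Fin n → ℝ) → ℝ := fun q =>
    B.U q.1 ^ (2 * gam n) * covNorm B.g (fun i _ => q.2 i) q.1 * dens B.g q.1
  have hγ : 0 ≤ 2 * gam n := by linarith [one_lt_gam hB.dim]
  have hΦ : Continuous Φ := by
    refine (((hB.smU.cont.comp continuous_fst).rpow_const fun _ => Or.inr hγ).mul
      (Continuous.sqrt (continuous_finsetSum _ fun i _ => continuous_finsetSum _ fun j _ =>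
        (((hB.met.sm_up i j).cont.comp continuous_fst).mul ?_).mul ?_))).mul
      (hB.met.sm_dens.cont.comp continuous_fst) <;> fun_prop
  have hΦ0 : ∀ q, 0 ≤ Φ q := fun q => mul_nonneg (mul_nonneg
    (Real.rpow_nonneg (by linarith [(hB.Ub q.1).1]) _) (Real.sqrt_nonneg _)) (dens_nonneg _ _)
  have hK := isCompact_closedBall (0 : E n) (max L 0)
  obtain ⟨u, hu, u1, u2, u3⟩ := apx hψ.lip hΦ hK h0
  have u4 : ∫ x in closedBall (0 : E n) (max L 0), Φ (x, fun i => pd i ψ x) ≤ per B B.U ψ :=
    setIntegral_le_integral (hψ.int_per hB hB.smU.cont) (.of_forall fun x => hΦ0 (x, _))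
  let w : E n → ℝ := fun x => Φ (x, fun i => pd i u x) / (1 - η)
  have hw : Continuous w :=
    (hΦ.comp (continuous_id.prodMk (continuous_pi fun i => (hu.pd i).cont))).div_const _
  have hw0 : ∀ x, 0 ≤ w x := fun x => div_nonneg (hΦ0 _) hη'.le
  obtain ⟨t, ⟨t0, t1⟩, t2, t3⟩ := lev hu.cont hw (closedBall (0 : E n) (max L 0))
    (show ε < 1 - ε by linarith) u2
  have hfar : ∀ x, max L 0 < ‖x‖ → t < u x := fun x hx => by
    linarith [(abs_le.1 (u1 x)).1, hψ.one x ((le_max_left _ _).trans hx.le)]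
  obtain ⟨β, G, hβ, hG, b1, b2, b3, b4⟩ := comp (t := t) (C := 2) (Q := {x | B.F x ≤ B.s / 4})
    (by linarith [hB.dim]) hu (fun x hx => not_forall.1 fun k => t2 ⟨x, hx, k⟩) (le_max_right _ _)
    hfar (fun x => by linarith [(abs_le.1 (u1 x)).2, (hψ.mem x).2])
    (isClosed_le hB.smF.cont continuous_const)
    fun x hx => by linarith [(abs_le.1 (u1 x)).2, hψ.zero x hx]
  have hD : ∀ x, 0 < B.F x → 0 ≤ D.F x := fun x hx => (not_le.1 fun k => (hF x k).not_gt hx).le
  have hA : ∀ x, t ≤ u x → 0 < B.F x := fun x hx => not_le.1 fun k => by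
    linarith [(abs_le.1 (u1 x)).2, hψ.zero x (by linarith)]
  refine (show D.Amin ≤ D.area G from
    sInf_le ⟨G, hG, fun x hx => hD x (hA x (b3 x hx)), rfl⟩).trans (sSup_le ?_)
  rintro _ ⟨X, ⟨hX, ⟨R, hR⟩, hX1⟩, rfl⟩
  have hY : ∀ i x, 0 < B.F x → ContDiffAt ℝ ∞ (fun y => √(mat D.g y).det * X i y) x :=
    fun i x hx => ((contDiffAt_det fun a b => (D.smooth a b).1.contDiffAt).sqrt
      (D.pos x (hD x hx)).det_pos.ne').mul (hX i).contDiffAt
  have hZ : ∀ i, Smooth fun y => (1 - β y) * (√(mat D.g y).det * X i y) := fun i =>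
    contDiff_iff_contDiffAt.2 fun x => by
      by_cases hx : 0 < B.F x
      · exact (contDiffAt_const.sub hβ.contDiffAt).mul (hY i x hx)
      · refine (contDiffAt_const (c := 0)).congr_of_eventuallyEq ?_
        filter_upwards [hB.smF.cont.continuousAt.eventually
          (gt_mem_nhds (show B.F x < B.s / 4 by linarith [not_lt.1 hx]))] with y hy
        rw [b2 y hy.le, sub_self, zero_mul]
  have key := ibp_lev (w := w) (t := t) hu hK.measurableSet hZ (R := R + 1)
    (fun i x hx => by rw [hR x (show R < ‖x‖ by linarith) i, mul_zero, mul_zero])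
    (fun x _ => by
      by_cases hx : 0 < B.F x
      · have k1 := cs (g := fun _ => D.g x) ⟨fun _ _ => contDiff_const,
          fun _ i j => (D.symm x i j).1, fun _ => D.pos x (hD x hx)⟩ x (fun i => pd i u x)
          (fun i => X i x) (hX1 x (hD x hx))
        have k2 := hc x (hD x hx) fun i => pd i u x
        have k3 : -∑ i, pd i u x * ((1 - β x) * (√(mat D.g x).det * X i x)) =
            (1 - β x) * (dens D.g x * -∑ i, pd i u x * X i x) := by
          rw [mul_neg, mul_neg, Finset.mul_sum, Finset.mul_sum]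
          exact congrArg _ (Finset.sum_congr rfl fun i _ => by rw [dens]; ring)
        have k4 : 0 ≤ dens D.g x * covNorm D.g (fun i _ => pd i u x) x :=
          mul_nonneg (dens_nonneg _ _) (Real.sqrt_nonneg _)
        rw [k3]
        refine (mul_le_mul_of_nonneg_left (mul_le_mul_of_nonneg_left k1 (dens_nonneg _ _))
          (sub_nonneg.2 (b1 x).2)).trans ((mul_le_of_le_one_left k4 (by linarith [(b1 x).1])).trans
          ((le_div_iff₀' hη').2 k2))
      · simp only [b2 x (show B.F x ≤ B.s / 4 by linarith [not_lt.1 hx]), sub_self, zero_mul,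
          mul_zero, Finset.sum_const_zero, neg_zero, hw0])
    fun x hx => hfar x (not_le.1 fun k => hx (mem_closedBall_zero_iff.2 k))
  have e1 : ∫ x in {x | 0 ≤ G x}, ∑ i, pd i (fun y => √(mat D.g y).det * X i y) x ∂vol n =
      ∫ x in {x | t ≤ u x}, ∑ i, pd i (fun y => (1 - β y) * (√(mat D.g y).det * X i y)) x := by
    rw [vol_eq, ← integral_indicator (isClosed_le continuous_const hG.1.cont).measurableSet,
      ← integral_indicator (isClosed_le continuous_const hu.cont).measurableSet]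
    refine integral_congr_ae (.of_forall fun x => ?_)
    by_cases hx : t ≤ u x
    · have k : ∀ i, pd i (fun y => (1 - β y) * (√(mat D.g y).det * X i y)) x =
          (1 - β x) * pd i (fun y => √(mat D.g y).det * X i y) x := fun i => by
        rw [pd_mul ((hβ.diff x).const_sub 1) ((hY i x (hA x hx)).differentiableAt (by simp)),
          pd_const_sub, (b4 x hx).1, neg_zero, zero_mul, zero_add]
      rw [indicator_of_mem (show x ∈ {x | t ≤ u x} from hx)]
      simp only [k, (b4 x hx).2, indicator, mem_ofPred_eq]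
      split_ifs <;> simp
    · rw [indicator_of_notMem (show x ∉ {x | t ≤ u x} from hx),
        indicator_of_notMem (show x ∉ {x | 0 ≤ G x} from fun k => hx (b3 x k))]
  rw [e1, ENNReal.ofReal_div_of_pos (by linarith)]
  refine key.trans (t3.trans (ENNReal.div_le_div_right ?_ _))
  rw [← ofReal_integral_eq_lintegral_ofReal (hw.continuousOn.integrableOn_compact hK)
    (.of_forall hw0), integral_div]
  exact ENNReal.ofReal_le_ofReal (div_le_div_of_nonneg_right (by linarith) hη'.le)

end Lk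

theorem link : LINK := by
  intro n D B η L ψ hB hη hF hc hψ
  have h1 : ContinuousAt (fun ε : ℝ => (per B B.U ψ + ε) / (1 - η) / (1 - ε - ε)) 0 :=
    ContinuousAt.div (by fun_prop) (by fun_prop) (by norm_num)
  have h2 := ENNReal.tendsto_ofReal (h1.tendsto.mono_left (nhdsWithin_le_nhds (s := Ioi 0)))
  simp only [add_zero, sub_zero, div_one] at h2
  refine ge_of_tendsto h2 ?_
  filter_upwards [Ioo_mem_nhdsGT (show (0 : ℝ) < 1 / 2 by norm_num)] with ε hε
  exact Lk.step D hB hη hF hc hψ hε.1 hε.2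

end Vale.Agent.P366Z.Y
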