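import Vale.Agent.P366Y.G.Int
import Vale.Agent.P366Z.McC

/-!
# P366Y, block G, row MC: the shield as a pressure
-/

open MeasureTheory Metric Filter Topology Set
open scoped ContDiff ENNReal
open Vale.Agent.P366.Stmt Vale.Agent.P366Z.McX

noncomputable section

namespace Vale.Agent.P366Z.Y

namespace McX

variable {n : ℕ} {g : Field n} {U w χ P P' : E n → ℝ} {x : E n} {ε c : ℝ}

theorem cov_sub (hg : Met g) {W W' : Fin n → E n → ℝ} {u : E n → ℝ}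
    (h : ∀ j, W' j x = W j x - pd j u x) : covNorm g W' x ≤ covNorm g W x + gn g u x := by
  obtain ⟨A, hA⟩ : ∃ A, A = ∑ i, ∑ j, up g i j x * W i x * W j x := ⟨_, rfl⟩
  obtain ⟨C, hC⟩ : ∃ C, C = ∑ i, ∑ j, up g i j x * W i x * pd j u x := ⟨_, rfl⟩
  have A0 : 0 ≤ A := hA ▸ hg.up_nonneg x fun i => W i x
  have h1 : ∑ i, ∑ j, up g i j x * W' i x * W' j x = A - 2 * C + ip g u u x := by
    have h2 : C = ∑ i, ∑ j, up g i j x * pd i u x * W j x := by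
      rw [hC, Finset.sum_comm]
      exact Finset.sum_congr rfl fun i _ => Finset.sum_congr rfl fun j _ => by
        rw [hg.up_sy j i x]; ring
    rw [two_mul]
    nth_rewrite 1 [h2]
    rw [hA, hC]
    simp only [ip, ← Finset.sum_add_distrib, ← Finset.sum_sub_distrib, h]
    exact Finset.sum_congr rfl fun i _ => Finset.sum_congr rfl fun j _ => by ring
  have h3 := hg.up_cs x (fun i => W i x) fun i => pd i u x
  rw [← hA, ← hC] at h3
  change C ^ 2 ≤ A * ip g u u x at h3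
  have h4 : covNorm g W x = √A := by rw [hA, covNorm]
  have h5 := Real.sq_sqrt A0
  have h6 := hg.gn_sq u x
  have h7 : 0 ≤ √A * gn g u x := mul_nonneg (Real.sqrt_nonneg _) (gn_nonneg _ _ _)
  have h8 : -(√A * gn g u x) ≤ C := (abs_le_of_sq_le_sq' (by rw [mul_pow, h5, h6]; exact h3) h7).1
  rw [h4, covNorm, Real.sqrt_le_left (add_nonneg (Real.sqrt_nonneg _) (gn_nonneg _ _ _)), h1]
  nlinarith

theorem wq_add (hg : Met g) (hU : Smooth U) (h0 : ∀ x, 0 < U x) (hw : Smooth w) (hχ : Smooth χ)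
    (hP : Smooth P) (hP' : Smooth P') (hc : c ≠ 0) (v v' : E n → ℝ) (j : Fin n) :
    wq g (TT g ε c U w χ fun y => P y + P' y / c) v v' j x =
      wq g (TT g ε c U w χ P) v v' j x - pd j P' x := by
  have a1 := al_sm (ε := ε) (c := c) hg hU h0 hw hχ hP
  have a2 := al_sm (ε := ε) (c := c) hg hU h0 hw hχ (hP.add (hP'.div_const c))
  have e : (fun y => c * (χ y * en0 g ε U w y + (P y + P' y / c))) =
      fun y => c * (χ y * en0 g ε U w y + P y) + P' y := funext fun y => by field_simp; ring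
  rw [TT, TT, wq_tt hg a2 (be_sm hU h0 hχ) hw, wq_tt hg a1 (be_sm hU h0 hχ) hw, e,
    pd_add (a1.diff x) (hP'.diff x)]
  ring

theorem mq_add (hg : Met g) (hn : 3 ≤ n) (h0 : 0 < U x) {e ξ : ℝ} (hε : 0 ≤ ε) (hc : 0 < c)
    (hχ : 0 ≤ χ x) (hP : 0 ≤ P x) (hP' : 0 ≤ P' x)
    (he : e = ε * ip (cf U g) w w x / 2 + Wp (w x) / ε)
    (hξ : ξ = ε * ip (cf U g) w w x / 2 - Wp (w x) / ε) (he0 : 0 ≤ e) (h1 : χ x * ξ ≤ P x / 2) :
    c ^ 2 * (χ x * e + P x) * P x / 2 ≤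
      mq g (TT g ε c U w χ fun y => P y + P' y / c) x - P' x ^ 2 / 2 := by
  have a0 : 0 ≤ P' x / c := div_nonneg hP' hc.le
  have a1 := mq_TT (P := fun y => P y + P' y / c) hg hn h0 hε hc.le hχ (add_nonneg hP a0) he hξ he0
    (by linarith)
  obtain ⟨z, hz⟩ : ∃ z, z = P' x / c := ⟨_, rfl⟩
  have a2 : P' x = c * z := by rw [hz, mul_div_cancel₀ _ hc.ne']
  simp only [← hz] at a1 a0
  rw [a2]
  have a3 : 0 ≤ c ^ 2 * ((χ x * e + 2 * P x) * z) := by positivity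
  nlinarith

/-- the lower bound of the coefficient of a sheet, with the shield -/
theorem cq_low2 {b δ f f' σ σ' p G M C₀ Λ y : ℝ} (hb : 0 ≤ b) (hδ : 0 < δ) (f1 : δ ≤ f) (f2 : f ≤ 1)
    (f3 : δ ≤ f') (hM : 0 ≤ M - p ^ 2 / 2) (hC : 0 ≤ C₀) (hG : 0 ≤ G)
    (hσ : σ' ≤ σ + 2 * (δ ^ b) ^ 2 * p ^ 2 - 8 * G)
    (h : (0 ≤ σ' ∧ y ≤ 0) ∨ (-C₀ ≤ σ' ∧ y ≤ 8 * Λ ^ 2 ∧
      C₀ / (4 * δ ^ b) + 8 * Λ ^ 2 ≤ δ ^ b * (M - p ^ 2 / 2) / 2)) :
    δ ^ b * (M - p ^ 2 / 2) / 2 + max σ' 0 / 4 + 2 * G ≤ f ^ (-b) * σ / 4 - y + M * f' ^ b := by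
  have a0 := cq_low hb hδ f1 f2 f3 hM hC h
  have k0 : 0 < δ ^ b := Real.rpow_pos_of_pos hδ _
  have f0 : 0 < f := hδ.trans_le f1
  have a1 : δ ^ b ≤ f' ^ b := Real.rpow_le_rpow hδ.le f3 hb
  have a2 : 1 ≤ f ^ (-b) := Real.one_le_rpow_of_pos_of_le_one_of_nonpos f0 f2 (neg_nonpos.2 hb)
  have a3 : f ^ (-b) * δ ^ b ≤ 1 := by
    rw [Real.rpow_neg f0.le, inv_mul_le_iff₀ (Real.rpow_pos_of_pos f0 _), mul_one]
    exact Real.rpow_le_rpow hδ.le f1 hb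
  have a4 := mul_le_mul_of_nonneg_left hσ (zero_le_one.trans a2)
  have a5 := mul_le_mul_of_nonneg_right a3 (by positivity : 0 ≤ δ ^ b * p ^ 2)
  have a6 := mul_le_mul_of_nonneg_right a1 (sq_nonneg p)
  have a7 := mul_le_mul_of_nonneg_right a2 hG
  nlinarith

theorem sig_alg {S P G y y₀ A δ : ℝ} (y0 : 0 < y₀) (y1 : y₀ ≤ y) (y2 : y ≤ 4) (A0 : 0 < A)
    (hδ : 64 * A * δ ≤ 1) (G0 : 0 ≤ G) (h1 : 0 < S + P ^ 2) (h2 : G ≤ δ * (max S 0 + P ^ 2)) :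
    (S + P ^ 2) / 32 ≤ S / y ^ 2 + 8 / y₀ ^ 2 * P ^ 2 - 8 * (A * G / y) := by
  have y3 : 0 < y := y0.trans_le y1
  have a1 : 8 / y ^ 2 * P ^ 2 ≤ 8 / y₀ ^ 2 * P ^ 2 := by gcongr
  have a2 : 0 ≤ max S 0 + P ^ 2 := add_nonneg (le_max_right _ _) (sq_nonneg _)
  have a3 : 8 * A * G * y ≤ (max S 0 + P ^ 2) / 2 := by
    have b1 : 8 * A * G * y ≤ 8 * A * G * 4 := by gcongr
    have b2 := mul_le_mul_of_nonneg_left h2 (by positivity : 0 ≤ 32 * A)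
    have b3 := mul_le_mul_of_nonneg_right hδ a2
    nlinarith
  have a4 : (S + P ^ 2) / 2 ≤ S + 8 * P ^ 2 - 8 * A * G * y := by
    rcases le_total S 0 with h | h
    · rw [max_eq_right h] at a3
      nlinarith [sq_nonneg P]
    · rw [max_eq_left h] at a3
      nlinarith [sq_nonneg P]
  have a5 : (S + 8 * P ^ 2 - 8 * A * G * y) / y ^ 2 =
      S / y ^ 2 + 8 / y ^ 2 * P ^ 2 - 8 * (A * G / y) := by field_simp
  have a6 : (S + P ^ 2) / 2 / 16 ≤ (S + 8 * P ^ 2 - 8 * A * G * y) / y ^ 2 :=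
    div_le_div₀ (by linarith) a4 (by positivity) (by nlinarith)
  linarith

/-- bounds for the scalar curvature of the states, with the shield -/
theorem sig {B : Bg n} (hB : B.Ok) (L : ℝ) {a₀ δ₀ : ℝ} (ha : 0 < a₀) (hδ : 0 < δ₀)
    (hs : Sm B a₀ δ₀) : ∃ (P : E n → ℝ) (σ₀ C₀ : ℝ), Smooth P ∧ (∀ x, 0 ≤ P x) ∧
    (∀ x, B.ρ ≤ ‖x‖ → P x = 0) ∧ 0 < σ₀ ∧ 0 ≤ C₀ ∧
    ∀ U a β R s', St B U a β R s' → a₀ ≤ a → ∀ x, ∃ σ σ', cl B.g U x = σ * U x ^ (2 * bb n) * U x ∧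
      σ' ≤ σ + 2 * ((δ₀ / 2) ^ bb n) ^ 2 * P x ^ 2 - 8 * gn (cf U B.g) P x ∧
      (0 ≤ B.F x → 0 < σ') ∧ (0 ≤ B.F x → ‖x‖ ≤ L → σ₀ ≤ σ') ∧ -C₀ ≤ σ' := by
  have hb := bb_pos hB.dim
  have hγ : 0 < gam n := by linarith [one_lt_gam hB.dim]
  have U0 : ∀ x, 0 < B.U x := fun x => by linarith [(hB.Ub x).1]
  have cQ : Continuous B.Q := by
    have e : B.Q = fun x => lap B.g B.U x / B.U x :=
      funext fun x => by rw [hB.eqn, mul_div_cancel_right₀ _ (U0 x).ne']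
    rw [e]
    exact (hB.met.sm_lap hB.smU).cont.div hB.smU.cont fun x => (U0 x).ne'
  obtain ⟨P, smP, P0, Pz, hP⟩ := hB.slack
  obtain ⟨S, hS⟩ : ∃ S : E n → ℝ, S = fun x => scal B.g x - 4 * gam n * B.Q x := ⟨_, rfl⟩
  have cS : Continuous S := hS ▸ hB.met.sm_scal.cont.sub (continuous_const.mul cQ)
  have hP' : ∀ x, 0 ≤ B.F x → 0 < S x + P x ^ 2 ∧ gn B.g P x ≤ B.δ * (max (S x) 0 + P x ^ 2) :=
    fun x hx => by rw [hS]; exact hP x hx
  have cG : Continuous (gn B.g P) := (hB.met.sm_ip smP smP).cont.sqrt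
  obtain ⟨σ₁, p1, h1⟩ := ((isCompact_closedBall (0 : E n) L).inter_left
    (isClosed_le continuous_const hB.smF.cont : IsClosed {x | 0 ≤ B.F x})).exists_forall_le'
    (cS.add (smP.cont.pow 2)).continuousOn fun x hx => (hP' x hx.1).1
  obtain ⟨C₁, h2⟩ := (isCompact_closedBall (0 : E n) B.ρ).exists_bound_of_continuousOn
    cS.continuousOn
  obtain ⟨C₂, h3⟩ := (isCompact_closedBall (0 : E n) B.ρ).exists_bound_of_continuousOn
    cG.continuousOn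
  obtain ⟨k, hk⟩ : ∃ k, k = (δ₀ / 2) ^ bb n := ⟨_, rfl⟩
  obtain ⟨y₀, hy₀⟩ : ∃ y, y = (a₀ / 2) ^ bb n := ⟨_, rfl⟩
  have k0 : 0 < k := by rw [hk]; positivity
  have y0 : 0 < y₀ := by rw [hy₀]; positivity
  obtain ⟨A, hA⟩ : ∃ A, A = 2 / (k * y₀) := ⟨_, rfl⟩
  have A0 : 0 < A := by rw [hA]; positivity
  have Aδ : 64 * A * B.δ ≤ 1 := by
    rw [Sm, ← hk, ← hy₀] at hs
    refine (mul_le_mul_of_nonneg_left hs (by positivity)).trans (le_of_eq ?_)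
    rw [hA]
    field_simp
    norm_num
  refine ⟨fun x => A * P x, σ₁ / 32, |C₁| / y₀ ^ 2 + 8 * (A * |C₂| / y₀), contDiff_const.mul smP,
    fun x => mul_nonneg A0.le (P0 x), fun x hx => by simp [Pz x hx], by positivity,
    by positivity, fun U a β R s' hU haa x => ?_⟩
  have u0 := hU.pos hB x
  obtain ⟨y, hy⟩ : ∃ y, y = U x ^ bb n := ⟨_, rfl⟩
  have y1 : y₀ ≤ y := by
    rw [hy₀, hy]
    exact Real.rpow_le_rpow (by positivity) (by linarith [hU.half hB x]) hb.le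
  have y3 : 0 < y := y0.trans_le y1
  have y2 : y ≤ 4 := by
    rw [hy]
    refine (Real.rpow_le_rpow u0.le (hU.le_two hB x) hb.le).trans
      ((Real.rpow_le_rpow_of_exponent_le (by norm_num) (bb_le hB.dim)).trans (le_of_eq ?_))
    norm_num
  have e1 : U x ^ (2 * bb n) = y ^ 2 := by rw [mul_comm, Real.rpow_mul u0.le, ← hy, Real.rpow_two]
  have e2 : gn (cf U B.g) (fun x => A * P x) x = A * gn B.g P x / y := by
    rw [hB.met.gn_cf u0, gn_of_pd (u' := P) (s := A) fun i => pd_const_mul _ _,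
      Real.rpow_neg u0.le, ← hy, abs_of_pos A0]
    ring
  have e3 : 2 * k ^ 2 * (A * P x) ^ 2 = 8 / y₀ ^ 2 * P x ^ 2 := by
    rw [hA]
    field_simp
    ring
  have key : S x / y ^ 2 ≤ cl B.g U x / (y ^ 2 * U x) := by
    rw [le_div_iff₀ (by positivity), ← mul_assoc, div_mul_cancel₀ _ (by positivity), hS, cl]
    nlinarith [mul_le_mul_of_nonneg_left (hU.sup x) hγ.le]
  have G0 := gn_nonneg B.g P x
  have main : 0 ≤ B.F x → (S x + P x ^ 2) / 32 ≤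
      S x / y ^ 2 + 8 / y₀ ^ 2 * P x ^ 2 - 8 * (A * gn B.g P x / y) := fun hx =>
    sig_alg y0 y1 y2 A0 Aδ G0 (hP' x hx).1 (hP' x hx).2
  refine ⟨cl B.g U x / (y ^ 2 * U x),
    S x / y ^ 2 + 8 / y₀ ^ 2 * P x ^ 2 - 8 * (A * gn B.g P x / y), by rw [e1]; field_simp,
    by rw [← hk, e2, e3]; linarith, fun hx => by linarith [main hx, (hP' x hx).1],
    fun hx hL => ?_, ?_⟩
  · have h4 : σ₁ ≤ S x + P x ^ 2 := h1 x ⟨hx, mem_closedBall_zero_iff.2 hL⟩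
    linarith [main hx]
  · by_cases hx : 0 ≤ B.F x
    · have h4 : 0 ≤ |C₁| / y₀ ^ 2 + 8 * (A * |C₂| / y₀) := by positivity
      linarith [main hx, (hP' x hx).1]
    · have h4 : ‖x‖ ≤ B.ρ := le_of_not_ge fun h => hx (by linarith [hB.far x h, hB.s0])
      have h5 := h2 x (mem_closedBall_zero_iff.2 h4)
      have h6 := h3 x (mem_closedBall_zero_iff.2 h4)
      rw [Real.norm_eq_abs] at h5 h6
      have h7 : |C₁| / y ^ 2 ≤ |C₁| / y₀ ^ 2 := by gcongr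
      have h8 : -|C₁| / y ^ 2 ≤ S x / y ^ 2 :=
        div_le_div_of_nonneg_right (by linarith [neg_abs_le (S x), le_abs_self C₁]) (by positivity)
      have h9 : A * gn B.g P x / y ≤ A * |C₂| / y₀ := by
        gcongr
        linarith [le_abs_self (gn B.g P x), le_abs_self C₂]
      have h10 : 0 ≤ 8 / y₀ ^ 2 * P x ^ 2 := by positivity
      rw [neg_div] at h8
      linarith

end McX

end Vale.Agent.P366Z.Y
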