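import Vale.Agent.P366Y.G.Int
import Vale.Agent.P366Y.G.McC

/-!
# P366Y, block G (after P366Z), row MC: the choice of the tensor
-/

open MeasureTheory Metric Filter Topology Set
open scoped ContDiff ENNReal
open Vale.Agent.P366.Stmt Vale.Agent.P366Z.McX

noncomputable section

namespace Vale.Agent.P366Z.Y

namespace McX

/-- the relations between the constants -/
structure Ch (n : ℕ) (a₀ δ₀ D t C κ Λ ε σ₀ C₀ k r s β c δ Kθ K₀ K₁ : ℝ) : Prop where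
  e0 : 0 < ε
  d0 : 0 < δ₀
  d1 : δ₀ < 1
  a0 : 0 < a₀
  tD : t ≤ D
  s0 : 0 < s
  st : s ≤ t / 2
  σ0 : 0 < σ₀
  C0 : 0 ≤ C₀
  r0 : 0 < r
  c0 : 0 < c
  β0 : 0 < β
  δ0 : 0 < δ
  Λ0 : 0 < Λ
  κ0 : 0 ≤ κ
  hk : k = (δ₀ / 2) ^ bb n
  hκ : κ ≤ k * r / 24 * (a₀ / 2) ^ (n * bb n)
  hr : 2 * r * Kθ ≤ σ₀ / 16
  hcd : c * δ = r
  hc : 6 * β * K₀ ≤ k * c / 24
  hβ : C₀ / (4 * k) + 8 * Λ ^ 2 ≤ k * r ^ 2 * β / 4
  hs : 2 / δ₀ * C ^ 2 * (s + 1 / Λ) ≤ k * r / (48 * (n + 1))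
  he1 : 9 * ε ≤ s / 2
  he2 : 160 * c * K₁ / s ^ 2 * ε ≤ σ₀ / 16

variable {n : ℕ} {B : Bg n} {L a β' R s' : ℝ} {m p q U w h : E n → ℝ} {x : E n}
  {a₀ δ₀ D t C κ Λ ε σ₀ C₀ k r s β c δ Kθ K₀ K₁ : ℝ} {θ ph θ₁ : ℝ → ℝ}

theorem Ch.k0 (H : Ch n a₀ δ₀ D t C κ Λ ε σ₀ C₀ k r s β c δ Kθ K₀ K₁) : 0 < k :=
  H.hk ▸ Real.rpow_pos_of_pos (half_pos H.d0) _

theorem res_le (H : Ch n a₀ δ₀ D t C κ Λ ε σ₀ C₀ k r s β c δ Kθ K₀ K₁) (hB : B.Ok)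
    (hP : Pen B L m p q) (hS : St B U a β' R s') (haa : a₀ ≤ a) (hw : Mn B m p q U κ ε w)
    (hp : p x = 0) (hq : q x = 0) :
    |fi ε U x * wl B.g U w x / U x ^ 2 - -2 * w x * (1 - w x ^ 2) / ε| ≤
      k * r / 24 * (1 - w x ^ 2) := by
  have u0 := hS.pos hB x
  have hb := bb_pos hB.dim
  have hW : 0 ≤ 1 - w x ^ 2 := by nlinarith [abs_lt.1 (hw.lt x)]
  obtain ⟨y, hy⟩ : ∃ y, y = U x ^ (n * bb n) := ⟨_, rfl⟩
  have y0 : 0 < y := hy ▸ Real.rpow_pos_of_pos u0 _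
  have y1 : (a₀ / 2) ^ (n * bb n) ≤ y := hy ▸
    Real.rpow_le_rpow (half_pos H.a0).le (by linarith [hS.half hB x]) (by positivity)
  have e1 : U x ^ (-(2 * bb n)) = U x ^ 2 / y := by
    rw [hy, n_bb hB.dim, Real.rpow_add u0, Real.rpow_two, Real.rpow_neg u0.le]
    have := u0.ne'
    field_simp
  have e2 := hw.eqn x
  rw [hp, hq, ← hy] at e2
  have e3 : fi ε U x * wl B.g U w x / U x ^ 2 - -2 * w x * (1 - w x ^ 2) / ε =
      κ * m x * (1 - w x ^ 2) / y := by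
    have e4 : fi ε U x * wl B.g U w x / U x ^ 2 = ε * wl B.g U w x / y := by
      rw [fi, e1]
      have := u0.ne'
      field_simp
    rw [e4, e2]
    have := H.e0.ne'
    field_simp
    ring
  have m0 := (hP.m01 x).1
  have κ0 := H.κ0
  rw [e3, abs_of_nonneg (by positivity), div_le_iff₀ y0]
  have a1 : κ * m x ≤ k * r / 24 * y := (mul_le_of_le_one_right κ0 (hP.m01 x).2).trans
    (H.hκ.trans (mul_le_mul_of_nonneg_left y1 (by have := H.k0; have := H.r0; positivity)))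
  nlinarith [mul_le_mul_of_nonneg_right a1 hW]

theorem lam_le (H : Ch n a₀ δ₀ D t C κ Λ ε σ₀ C₀ k r s β c δ Kθ K₀ K₁) (hn : 3 ≤ n) {y d Y : ℝ}
    (y0 : 0 < y) (y1 : y ≤ 1) (hY : 0 ≤ Y) : (1 - δ₀) ^ 2 * y ^ 2 < 1 ∧
    0 ≤ bb n * (1 - δ₀) ^ 2 * y / (1 - (1 - δ₀) ^ 2 * y ^ 2) ∧
    (|d| ≤ s → y ≤ C * (max d 0 + 1 / Λ) → Y ≤ C →
      bb n * (1 - δ₀) ^ 2 * y / (1 - (1 - δ₀) ^ 2 * y ^ 2) * Y ≤ k * r / (48 * (n + 1))) := by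
  have d0 := H.d0
  have d1 := H.d1
  have hb := bb_pos hn
  have a0 : (1 - δ₀) ^ 2 ≤ 1 - δ₀ := by nlinarith
  have a1 : (1 - δ₀) ^ 2 * y ^ 2 ≤ 1 - δ₀ :=
    (mul_le_of_le_one_right (sq_nonneg _) (pow_le_one₀ y0.le y1)).trans a0
  have a2 : 0 < 1 - (1 - δ₀) ^ 2 * y ^ 2 := by linarith
  refine ⟨by linarith, by positivity, fun h1 h2 h3 => le_trans ?_ H.hs⟩
  have a3 : bb n * (1 - δ₀) ^ 2 * y / (1 - (1 - δ₀) ^ 2 * y ^ 2) ≤ 2 * y / δ₀ := by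
    refine div_le_div₀ (by positivity) (mul_le_mul_of_nonneg_right ?_ y0.le) d0 (by linarith)
    exact (mul_le_of_le_one_right hb.le (by linarith)).trans (bb_le hn)
  have a4 : max d 0 ≤ s := max_le ((le_abs_self d).trans h1) H.s0.le
  have a5 : y ≤ C * (s + 1 / Λ) :=
    h2.trans (mul_le_mul_of_nonneg_left (by linarith) (hY.trans h3))
  have a6 : y * Y ≤ C * (s + 1 / Λ) * C := mul_le_mul a5 h3 hY (y0.le.trans a5)
  calc _ ≤ 2 * y / δ₀ * Y := mul_le_mul_of_nonneg_right a3 hY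
    _ = 2 / δ₀ * (y * Y) := by ring
    _ ≤ 2 / δ₀ * (C * (s + 1 / Λ) * C) := mul_le_mul_of_nonneg_left a6 (by positivity)
    _ = _ := by ring

/-- the pressure -/
def pf (δ β ε : ℝ) (θ ph : ℝ → ℝ) (w : E n → ℝ) : E n → ℝ :=
  fun y => δ * θ (dd ε w y) * Real.exp (β * ph (w y))

/-- the cut-off of the layer -/
def cf0 (ε : ℝ) (θ₁ : ℝ → ℝ) (w : E n → ℝ) : E n → ℝ :=
  fun y => θ₁ (dd ε w y) * θ₁ (-dd ε w y)

theorem pf_sm (h1 : ContDiff ℝ ∞ θ) (h2 : ContDiff ℝ ∞ ph) (hw : Smooth w) (hl : ∀ x, |w x| < 1) :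
    Smooth (pf δ β ε θ ph w) :=
  (contDiff_const.mul (h1.comp (dd_sm hw hl))).mul (contDiff_const.mul (h2.comp hw)).exp

theorem cf0_sm (h1 : ContDiff ℝ ∞ θ₁) (hw : Smooth w) (hl : ∀ x, |w x| < 1) :
    Smooth (cf0 ε θ₁ w) :=
  (h1.comp (dd_sm hw hl)).mul (h1.comp (ContDiff.neg (dd_sm hw hl)))

theorem pd_pf {a₁ b₁ a₂ b₂ : ℝ} (h1 : Cut a₁ b₁ Kθ θ) (h2 : Cut a₂ b₂ K₀ ph) (hw : Smooth w)
    (hl : ∀ x, |w x| < 1) (j : Fin n) : pd j (pf δ β ε θ ph w) x =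
      (δ * deriv θ (dd ε w x) * Real.exp (β * ph (w x)) * (ε / (1 - w x ^ 2)) +
        pf δ β ε θ ph w x * β * deriv ph (w x)) * pd j w x := by
  have d1 : DifferentiableAt ℝ (fun y => θ (dd ε w y)) x :=
    Smooth.diff (h1.sm.comp (dd_sm hw hl)) x
  have d2 : DifferentiableAt ℝ (fun y => β * ph (w y)) x :=
    (Smooth.diff (h2.sm.comp hw) x).const_mul β
  unfold pf
  rw [pd_mul (d1.const_mul δ) d2.exp, pd_const_mul, pd_exp d2, pd_const_mul,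
    pd_comp (h1.has _) ((dd_sm hw hl).diff x), pd_comp (h2.has _) (hw.diff x), pd_dd hw (hl x)]
  ring

/-- the bound of the derivative of the pressure -/
theorem pw_le (H : Ch n a₀ δ₀ D t C κ Λ ε σ₀ C₀ k r s β c δ Kθ K₀ K₁) (h1 : Cut D (3 * D / 2) Kθ θ)
    (h2 : Cut (-(9 / 10)) 0 K₀ ph) {d W P χ e X ρ σ : ℝ} (hX : 0 ≤ X) (hρ : 0 ≤ ρ) (hP : 0 ≤ P)
    (hχ : 0 ≤ χ) (he : 0 ≤ e) (hσ : 0 ≤ σ) (e1 : (1 - W ^ 2) * X ≤ e)
    (a1 : D ≤ d → d ≤ 3 * D / 2 → 0 ≤ W ∧ ρ * X ≤ 2 ∧ σ₀ ≤ σ)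
    (a2 : -(9 / 10) ≤ W → W ≤ 0 → χ = 1) : ∃ t₅,
      |δ * deriv θ d * Real.exp (β * ph W) * ρ + P * β * deriv ph W| * X ≤
        k * c / 24 * (P * χ * e) + t₅ ∧ c * t₅ ≤ σ / 16 := by
  refine ⟨|δ * deriv θ d * Real.exp (β * ph W) * ρ| * X, ?_, ?_⟩
  · have b1 : |P * β * deriv ph W| * X ≤ k * c / 24 * (P * χ * e) := by
      by_cases hz : deriv ph W = 0
      · have := H.k0
        have := H.c0
        rw [hz, mul_zero, abs_zero, zero_mul]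
        positivity
      obtain ⟨w1, w2⟩ := h2.supp W hz
      have b0 : (19 / 100 : ℝ) ≤ 1 - W ^ 2 := by nlinarith only [w1, w2]
      have b2 : X ≤ 6 * e := by linarith only [mul_le_mul_of_nonneg_right b0 hX, e1, he]
      have β0 := H.β0
      rw [a2 w1 w2, abs_mul, abs_of_nonneg (by positivity : 0 ≤ P * β)]
      have b3 : |deriv ph W| * X ≤ K₀ * (6 * e) := mul_le_mul (h2.bd W) b2 hX h2.pos.le
      have b4 := mul_le_mul_of_nonneg_left b3 (by positivity : 0 ≤ P * β)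
      have b5 := mul_le_mul_of_nonneg_right H.hc (by positivity : 0 ≤ P * e)
      linarith
    have b6 := mul_le_mul_of_nonneg_right (abs_add_le (δ * deriv θ d * Real.exp (β * ph W) * ρ)
      (P * β * deriv ph W)) hX
    linarith
  · by_cases hz : deriv θ d = 0
    · rw [hz]
      simp only [mul_zero, zero_mul, abs_zero]
      positivity
    obtain ⟨w1, w2⟩ := h1.supp d hz
    obtain ⟨b1, b2, b3⟩ := a1 w1 w2
    rw [h2.zero W b1, mul_zero, Real.exp_zero, mul_one, abs_mul, abs_mul, abs_of_nonneg hρ,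
      abs_of_nonneg H.δ0.le]
    have b4 : |deriv θ d| * (ρ * X) ≤ Kθ * 2 := mul_le_mul (h1.bd d) b2 (by positivity) h1.pos.le
    have b5 := mul_le_mul_of_nonneg_left b4 H.r0.le
    have b6 := H.hr
    rw [← H.hcd] at b5 b6
    linarith only [b5, b6, b3]

/-- the coefficients of the two sheets -/
theorem cq_two (H : Ch n a₀ δ₀ D t C κ Λ ε σ₀ C₀ k r s β c δ Kθ K₀ K₁) (hB : B.Ok)
    (hS : St B U a β' R s') (hp : Pot B U Λ w h) (T : Field n) {σ₂ σ p₁ G : ℝ}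
    (hσ : cl B.g U x = σ₂ * U x ^ (2 * bb n) * U x) (hG : 0 ≤ G)
    (hσ' : σ ≤ σ₂ + 2 * ((δ₀ / 2) ^ bb n) ^ 2 * p₁ ^ 2 - 8 * G) (hC : -C₀ ≤ σ)
    (hM : 0 ≤ mq B.g T x - p₁ ^ 2 / 2)
    (h1 : w x ≤ -(9 / 10) → r ^ 2 * β / 2 ≤ mq B.g T x - p₁ ^ 2 / 2)
    (h2 : -(9 / 10) ≤ w x → 0 < σ) :
    0 < k * (mq B.g T x - p₁ ^ 2 / 2) / 2 + max σ 0 / 4 + 2 * G ∧
    U x ^ bb n * (k * (mq B.g T x - p₁ ^ 2 / 2) / 2 + max σ 0 / 4 + 2 * G) ≤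
      cq B.g T (fun x => U x * (1 + (1 - δ₀) * h x) / 2) (fun x => U x * (1 - (1 - δ₀) * h x) / 2) x ∧
    U x ^ bb n * (k * (mq B.g T x - p₁ ^ 2 / 2) / 2 + max σ 0 / 4 + 2 * G) ≤
      cq B.g T (fun x => U x * (1 - (1 - δ₀) * h x) / 2) (fun x => U x * (1 + (1 - δ₀) * h x) / 2) x := by
  have hn := hB.dim
  have u0 := hS.pos hB x
  have d0 := H.d0
  have d1 := H.d1
  have k0 := H.k0
  have hb := bb_pos hn
  have hγ : 0 < gam n := by linarith [one_lt_gam hn]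
  obtain ⟨h0, h1'⟩ := hp.h01 x
  have v0 : 0 ≤ cv (w x) := Real.smoothTransition.nonneg _
  have v1 : cv (w x) ≤ 1 := Real.smoothTransition.le_one _
  have e1 : (fun x => U x * (1 + (1 - δ₀) * h x) / 2) =
      fun x => U x * ((1 - δ₀) / 2 * h x + 1 / 2) := funext fun x => by ring
  have e2 : (fun x => U x * (1 - (1 - δ₀) * h x) / 2) =
      fun x => U x * (-((1 - δ₀) / 2) * h x + 1 / 2) := funext fun x => by ring
  have z0 : 0 < (1 - δ₀) * h x := mul_pos (by linarith) h0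
  have z1 : (1 - δ₀) * h x ≤ 1 - δ₀ := mul_le_of_le_one_right (by linarith) h1'
  obtain ⟨om, hom⟩ : ∃ om, om = (1 - δ₀) / 2 * h x * cv (w x) * Λ ^ 2 := ⟨_, rfl⟩
  have o0 : 0 ≤ om := by
    rw [hom]
    exact mul_nonneg (mul_nonneg (by linarith) v0) (sq_nonneg _)
  have o1 : om ≤ 1 / 2 * Λ ^ 2 := by
    rw [hom]
    exact mul_le_mul_of_nonneg_right ((mul_le_of_le_one_right (by linarith) v1).trans
      (by linarith)) (sq_nonneg _)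
  have q1 := cq_eq (f := fun x => (1 - δ₀) / 2 * h x + 1 / 2)
    (f' := fun x => -((1 - δ₀) / 2) * h x + 1 / 2) (om := om) hB.met hn hS.sm u0
    ((contDiff_const.mul hp.sm).add contDiff_const) (by linarith) (by linarith) hσ
    (by rw [wl_affine, hp.eqn, hom]; ring) T
  have q2 := cq_eq (f := fun x => -((1 - δ₀) / 2) * h x + 1 / 2)
    (f' := fun x => (1 - δ₀) / 2 * h x + 1 / 2) (om := -om) hB.met hn hS.sm u0
    ((contDiff_const.mul hp.sm).add contDiff_const) (by linarith) (by linarith) hσ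
    (by rw [wl_affine, hp.eqn, hom]; ring) T
  obtain ⟨f, hf⟩ : ∃ f, f = (1 - δ₀) / 2 * h x + 1 / 2 := ⟨_, rfl⟩
  obtain ⟨f', hf'⟩ : ∃ f, f = -((1 - δ₀) / 2) * h x + 1 / 2 := ⟨_, rfl⟩
  rw [← hf, ← hf'] at q1 q2
  have f1 : 1 / 2 ≤ f := by linarith
  have f2 : f ≤ 1 := by linarith
  have f3 : δ₀ / 2 ≤ f' := by linarith
  have f4 : f' ≤ 1 := by linarith
  have y1 : f ^ (-bb n - 1) ≤ 8 := by
    refine (Real.rpow_le_rpow_of_nonpos (by norm_num : (0 : ℝ) < 1 / 2) f1 (by linarith)).trans ?_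
    refine (Real.rpow_le_rpow_of_exponent_ge (z := -(3 : ℕ)) (by norm_num) (by norm_num)
      (by push_cast; linarith [bb_le hn])).trans (le_of_eq ?_)
    rw [Real.rpow_neg (by norm_num), Real.rpow_natCast]
    norm_num
  have y2 : gam n * (f ^ (-bb n - 1) * om) ≤ 8 * Λ ^ 2 := by
    have y3 : f ^ (-bb n - 1) * om ≤ 8 * (1 / 2 * Λ ^ 2) := mul_le_mul y1 o1 o0 (by norm_num)
    have y4 := mul_le_mul (gam_le hn) y3 (mul_nonneg (Real.rpow_nonneg (by linarith) _) o0)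
      (by norm_num)
    linarith
  have y5 : gam n * (f' ^ (-bb n - 1) * -om) ≤ 0 :=
    mul_nonpos_of_nonneg_of_nonpos hγ.le (mul_nonpos_of_nonneg_of_nonpos
      (Real.rpow_nonneg (by linarith) _) (neg_nonpos.2 o0))
  have hu := (Real.rpow_pos_of_pos u0 (bb n)).le
  rw [e1, e2, q1, q2, H.hk]
  rcases le_total (w x) (-(9 / 10)) with hx | hx
  · have m1 := mul_le_mul_of_nonneg_left (h1 hx) k0.le
    have m2 : C₀ / (4 * k) + 8 * Λ ^ 2 ≤ k * (mq B.g T x - p₁ ^ 2 / 2) / 2 := by linarith [H.hβ]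
    have m3 : 0 < k * (r ^ 2 * β / 2) := by have := H.r0; have := H.β0; positivity
    rw [H.hk] at m1 m2 m3
    exact ⟨by linarith [le_max_right σ 0], mul_le_mul_of_nonneg_left (cq_low2 hb.le (half_pos d0)
      (by linarith) f2 f3 hM H.C0 hG hσ' (Or.inr ⟨hC, y2, m2⟩)) hu, mul_le_mul_of_nonneg_left
      (cq_low2 hb.le (half_pos d0) f3 f4 (by linarith) hM H.C0 hG hσ'
        (Or.inr ⟨hC, y5.trans (by positivity), m2⟩)) hu⟩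
  · have m1 : om = 0 := by
      rw [hom, cv, Real.smoothTransition.zero_of_nonpos (by linarith)]
      ring
    have m2 := h2 hx
    have m3 := mul_nonneg k0.le hM
    rw [H.hk] at m3
    exact ⟨by linarith [le_max_left σ 0], mul_le_mul_of_nonneg_left (cq_low2 (Λ := Λ) hb.le
      (half_pos d0) (by linarith) f2 f3 hM H.C0 hG hσ' (Or.inl ⟨m2.le, by simp [m1]⟩)) hu,
      mul_le_mul_of_nonneg_left (cq_low2 (Λ := Λ) hb.le (half_pos d0) f3 f4 (by linarith) hM H.C0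
        hG hσ' (Or.inl ⟨m2.le, y5⟩)) hu⟩

theorem fin_ineq {u S cv c₁ c₂ Wn : ℝ} (hu : 0 < u) (hS : 0 < S) (h1 : u * S ≤ c₁) (h2 : u * S ≤ c₂)
    (h0 : 0 ≤ cv) (h3 : cv ≤ u * Wn) (h4 : 2 * Wn ≤ S) :
    0 < c₁ ∧ 0 < c₂ ∧ 4 * cv ^ 2 ≤ c₁ * c₂ := by
  have p := mul_pos hu hS
  have a1 : 2 * cv ≤ u * S := by nlinarith [mul_le_mul_of_nonneg_left h4 hu.le]
  have a2 := mul_le_mul h1 h2 p.le (p.le.trans h1)
  exact ⟨p.trans_le h1, p.trans_le h2, by nlinarith⟩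

theorem m_low {c δ r β χ e M : ℝ} (hcd : c * δ = r) (δ0 : 0 ≤ δ) (hχ : 0 ≤ χ) (he : 0 ≤ e)
    (β0 : 0 ≤ β) (h : c ^ 2 * (χ * e + δ * Real.exp β) * (δ * Real.exp β) / 2 ≤ M) :
    r ^ 2 * β / 2 ≤ M := by
  have a3 : β ≤ Real.exp β ^ 2 := by nlinarith [Real.add_one_le_exp β]
  have a4 := mul_le_mul_of_nonneg_left a3 (sq_nonneg r)
  have a5 : 0 ≤ c ^ 2 * (χ * e) * (δ * Real.exp β) := by positivity
  rw [← hcd] at a4 ⊢
  linarith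

theorem xi_le {χ ξ P δ : ℝ} (h0 : 0 ≤ χ) (h1 : χ ≤ 1) (P0 : 0 ≤ P) (δ0 : 0 ≤ δ)
    (h : χ ≠ 0 → ξ ≤ δ / 2 ∧ δ ≤ P) : χ * ξ ≤ P / 2 := by
  by_cases hz : χ = 0
  · rw [hz, zero_mul]
    linarith
  obtain ⟨a1, a2⟩ := h hz
  nlinarith [mul_le_mul_of_nonneg_left a1 h0, mul_le_mul_of_nonneg_right h1 δ0]

theorem t2_le (H : Ch n a₀ δ₀ D t C κ Λ ε σ₀ C₀ k r s β c δ Kθ K₀ K₁) {χd ρ X ξ e σ : ℝ}
    (K0 : 0 ≤ K₁) (ρ0 : 0 ≤ ρ) (X0 : 0 ≤ X) (hσ : 0 ≤ σ) (n2 : |ξ| ≤ e) (x2 : |χd| ≤ 2 * K₁)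
    (h : χd ≠ 0 → ρ * X ≤ 2 ∧ σ₀ ≤ σ ∧ e ≤ 40 / s ^ 2 * ε) :
    c * (|ξ| * (|χd * ρ| * X)) ≤ σ / 16 := by
  by_cases hz : χd = 0
  · simp only [hz, zero_mul, abs_zero, mul_zero]
    positivity
  obtain ⟨a3, a4, a5⟩ := h hz
  have a6 : |χd| * (ρ * X) ≤ 2 * K₁ * 2 := mul_le_mul x2 a3 (by positivity) (by positivity)
  have a7 : |ξ| * (|χd| * (ρ * X)) ≤ 40 / s ^ 2 * ε * (2 * K₁ * 2) :=
    mul_le_mul (n2.trans a5) a6 (by positivity) ((abs_nonneg _).trans (n2.trans a5))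
  rw [abs_mul, abs_of_nonneg ρ0, mul_assoc |χd|]
  refine (mul_le_mul_of_nonneg_left a7 H.c0.le).trans (le_trans (le_of_eq ?_)
    (H.he2.trans (by linarith only [a4])))
  ring

theorem core (H : Ch n a₀ δ₀ D t C κ Λ ε σ₀ C₀ k r s β c δ Kθ K₀ K₁) (hB : B.Ok)
    (hP : Pen B L m p q) (hS : St B U a β' R s') (haa : a₀ ≤ a) (h1 : Cut D (3 * D / 2) Kθ θ)
    (h2 : Cut (-(9 / 10)) 0 K₀ ph) (h3 : Cut (s / 2) s K₁ θ₁) (hw : Mn B m p q U κ ε w)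
    (hL : Lay B L t ε w) (hf : L ≤ ‖x‖ → 2 * D ≤ dd ε w x) (hp : Pot B U Λ w h)
    (hH : Hb B U C Λ t ε w h)
    (b1 : -(B.s / 4) ≤ B.F x → ‖x‖ ≤ L + 1 / 2 → ip (cf U B.g) (dd ε w) (dd ε w) x ≤ 4)
    (b2 : |dd ε w x| ≤ t → ε * ip (cf U B.g) w w x / 2 - Wp (w x) / ε ≤ δ / 2) {σ₂ σ : ℝ}
    {P' : E n → ℝ} (smP : Smooth P') (P0' : 0 ≤ P' x)
    (hσ : cl B.g U x = σ₂ * U x ^ (2 * bb n) * U x)
    (hσ' : σ ≤ σ₂ + 2 * ((δ₀ / 2) ^ bb n) ^ 2 * P' x ^ 2 - 8 * gn (cf U B.g) P' x) (σ1 : 0 ≤ B.F x → 0 < σ)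
    (σ2 : 0 ≤ B.F x → ‖x‖ ≤ L → σ₀ ≤ σ) (σ3 : -C₀ ≤ σ) {T : Field n}
    (hT : T = TT B.g ε c U w (cf0 ε θ₁ w) fun y => pf δ β ε θ ph w y + P' y / c) {v v' : E n → ℝ}
    (hv : v = fun x => U x * (1 + (1 - δ₀) * h x) / 2)
    (hv' : v' = fun x => U x * (1 - (1 - δ₀) * h x) / 2) :
    0 < cq B.g T v v' x ∧ 0 < cq B.g T v' v x ∧
      4 * covNorm B.g (wq B.g T v v') x ^ 2 ≤ cq B.g T v v' x * cq B.g T v' v x := by
  have hn := hB.dim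
  have U0 := hS.pos hB
  have hG := hB.met.cf hS.sm U0
  have ε0 := H.e0
  have s0 := H.s0
  have st := H.st
  have tD := H.tD
  have he1 := H.he1
  have Bs := hB.s0
  have δ0 := H.δ0
  have β0 := H.β0
  have c0 := H.c0
  have wl1 := hw.lt x
  have hW : 0 < 1 - w x ^ 2 := by nlinarith [abs_lt.1 wl1]
  obtain ⟨χd, x1, x2, x3, x4, x5, x6, x7⟩ := chi h3 s0 (dd ε w x)
  obtain ⟨X, hX⟩ : ∃ X, X = gn (cf U B.g) w x := ⟨_, rfl⟩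
  obtain ⟨Y, hY⟩ : ∃ Y, Y = gn (cf U B.g) h x := ⟨_, rfl⟩
  obtain ⟨ρ, hρ⟩ : ∃ ρ, ρ = ε / (1 - w x ^ 2) := ⟨_, rfl⟩
  obtain ⟨e, he⟩ : ∃ e, e = ε * ip (cf U B.g) w w x / 2 + Wp (w x) / ε := ⟨_, rfl⟩
  obtain ⟨ξ, hξ⟩ : ∃ ξ, ξ = ε * ip (cf U B.g) w w x / 2 - Wp (w x) / ε := ⟨_, rfl⟩
  have X0 : 0 ≤ X := hX ▸ gn_nonneg _ _ _
  have Y0 : 0 ≤ Y := hY ▸ gn_nonneg _ _ _
  have ρ0 : 0 ≤ ρ := hρ ▸ (div_pos ε0 hW).le
  have X2 : ip (cf U B.g) w w x = X ^ 2 := by rw [hX, hG.gn_sq]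
  obtain ⟨n1, n2, n3, n4⟩ := en_facts ε0 (X2 ▸ he) (X2 ▸ hξ)
  have F0 : -t ≤ dd ε w x → B.s / 4 < B.F x := fun hd => not_le.1 fun hx => by
    linarith only [hL.inn x hx, hd]
  have reg : -t ≤ dd ε w x → dd ε w x < 2 * D → ρ * X ≤ 2 ∧ σ₀ ≤ max σ 0 ∧ p x = 0 ∧ q x = 0 := by
    intro a1 a2
    have a3 := F0 a1
    have a4 : ‖x‖ ≤ L := le_of_not_ge fun hx => by linarith only [hf hx, a2]
    have a5 := b1 (by linarith only [a3, Bs]) (by linarith only [a4])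
    rw [← hG.gn_sq, gn_of_pd (pd_dd hw.sm wl1), ← hρ, ← hX, abs_of_nonneg ρ0] at a5
    exact ⟨le_of_sq_le_sq (by linarith only [a5]) (by norm_num),
      (σ2 (by linarith only [a3, Bs]) a4).trans (le_max_left _ _),
      hP.p0 x (by linarith only [a3, Bs]), hP.q0 x (by linarith only [a4])⟩
  have reg' : |dd ε w x| ≤ s → ρ * X ≤ 2 ∧ σ₀ ≤ max σ 0 ∧ p x = 0 ∧ q x = 0 := fun a =>
    reg (by linarith only [(abs_le.1 a).1, st, s0])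
      (by linarith only [(abs_le.1 a).2, st, s0, tD])
  have E1 : 1 ≤ Real.exp (β * ph (w x)) := Real.one_le_exp (mul_nonneg β0.le (h2.mem _).1)
  have P0 : 0 ≤ pf δ β ε θ ph w x :=
    mul_nonneg (mul_nonneg δ0.le (h1.mem _).1) (Real.exp_pos _).le
  have P1 : |dd ε w x| ≤ s → δ ≤ pf δ β ε θ ph w x := fun a => by
    rw [pf, h1.one _ (by linarith only [(abs_le.1 a).2, st, s0, tD]), mul_one]
    exact le_mul_of_one_le_right δ0.le E1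
  change 0 ≤ cf0 ε θ₁ w x at x4
  change cf0 ε θ₁ w x ≤ 1 at x5
  change cf0 ε θ₁ w x ≠ 0 → _ at x6
  change _ → cf0 ε θ₁ w x = 1 at x7
  have M1 := mq_add (χ := cf0 ε θ₁ w) (P := pf δ β ε θ ph w) (c := c) hB.met hn (U0 x) ε0.le c0
    x4 P0 P0' he hξ n1 (xi_le x4 x5 P0 δ0.le fun hz =>
      ⟨hξ ▸ b2 ((x6 hz).trans (by linarith only [st, s0])), P1 (x6 hz)⟩)
  rw [← hT] at M1
  obtain ⟨l1, l2, l3⟩ := lam_le (d := dd ε w x) H hn (hp.h01 x).1 (hp.h01 x).2 Y0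
  have W1 := cov_TT (c := c) (v := v) (v' := v') (χw := χd * ρ) hB.met hn hS.sm U0 hw.sm
    (cf0_sm (ε := ε) h3.sm hw.sm hw.lt)
    (pf_sm (δ := δ) (β := β) (ε := ε) h1.sm h2.sm hw.sm hw.lt)
    (fun j => by
      rw [hρ, mul_assoc, ← pd_dd hw.sm wl1]
      exact pd_comp x1 ((dd_sm hw.sm hw.lt).diff x) j)
    (pd_pf h1 h2 hw.sm hw.lt) (fun j => by
      rw [hv, hv']
      exact pd_l hS.sm hp.sm (U0 x) l1 j) ε0.le c0.le x4 l2 rfl hξ hX hY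
  rw [← hρ] at W1
  have W2 := cov_sub (x := x) hB.met (wq_add (ε := ε) (x := x) hB.met hS.sm U0 hw.sm
    (cf0_sm (ε := ε) h3.sm hw.sm hw.lt)
    (pf_sm (δ := δ) (β := β) (ε := ε) h1.sm h2.sm hw.sm hw.lt) smP c0.ne' v v')
  rw [← hT, gn_up hB.met (U0 x) P'] at W2
  have W3 := W2.trans (add_le_add W1 le_rfl)
  rw [← mul_add] at W3
  obtain ⟨t₅, g1, g2⟩ := pw_le (d := dd ε w x) H h1 h2 X0 ρ0 P0 x4 n1 (le_max_right σ 0) n3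
    (fun a1 a2 => by
      obtain ⟨a3, a4, -⟩ := reg (by linarith only [a1, st, s0, tD]) (by linarith only [a1, a2, st, s0, tD])
      exact ⟨le_of_not_ge fun a5 => by linarith only [dd_neg ε0 wl1 a5, a1, st, s0, tD], a3, a4⟩)
    fun a1 a2 => x7 (abs_le.2 ⟨by linarith only [dd_low ε0 wl1 a1, he1],
      by linarith only [dd_neg ε0 wl1 a2, s0]⟩)
  have M0 : 0 ≤ mq B.g T x - P' x ^ 2 / 2 := le_trans (by positivity) M1
  obtain ⟨q0, q1, q2⟩ := cq_two H hB hS hp T hσ (gn_nonneg _ _ _) hσ' σ3 M0 (fun a1 => by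
      have a2 : pf δ β ε θ ph w x = δ * Real.exp β := by
        rw [pf, h1.one _ (by linarith only [dd_neg ε0 wl1 (by linarith only [a1]), st, s0, tD]),
          h2.one _ a1, mul_one, mul_one]
      rw [a2] at M1
      exact m_low H.hcd δ0.le x4 n1 β0.le M1)
    fun a1 => σ1 (by linarith only [F0 (by linarith only [dd_low ε0 wl1 a1, he1, st, s0]), Bs])
  rw [← hv, ← hv'] at q1 q2
  refine fin_ineq (Real.rpow_pos_of_pos (U0 x) _) q0 q1 q2 (Real.sqrt_nonneg _) W3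
    ((mul_add _ _ _).trans_le (add_le_add
      (w_up (r := r) H.k0.le c0.le x4 n1 P0 (by positivity) M1 (fun hz => ?_) (fun hz => ?_)
      (t2_le H h3.pos.le ρ0 X0 (le_max_right σ 0) n2 x2 fun hz => ?_) g1 g2
      n4 (mul_nonneg l2 Y0) fun hz => ?_) le_rfl))
  · rw [← H.hcd]
    exact mul_le_mul_of_nonneg_left (P1 (x6 hz)) c0.le
  · obtain ⟨-, -, a1, a2⟩ := reg' (x6 hz)
    refine (mul_le_mul_of_nonneg_right (res_le H hB hP hS haa hw a1 a2) X0).trans ?_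
    rw [mul_assoc]
    exact mul_le_mul_of_nonneg_left n3 (by have := H.k0; have := H.r0; positivity)
  · obtain ⟨a1, a2⟩ := x3 hz
    obtain ⟨a3, a4, -, -⟩ := reg' a2
    exact ⟨a3, a4, en_small ε0 s0 (X2 ▸ he) X0 hW (hρ ▸ a3)
      ((mul_le_mul_of_nonneg_left a1 hW.le).trans (dd_abs ε0 wl1))⟩
  · have a1 := x6 hz
    exact l3 a1 ((hH x).1 (by linarith only [(abs_le.1 a1).2, st, s0]))
      (hY ▸ (hH x).2 (a1.trans st))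

end McX

open McX in
theorem mc_of (h1 : B1) (h2 : B2) (_ : EXP) : MC := by
  intro n B L a₀ δ₀ D hB ha₀ hδ hD hSm
  obtain ⟨P', σ₀, C₀, smP, P0, Pz, σ0, C0, hσ⟩ := sig hB L ha₀ hδ.1 hSm
  obtain ⟨Kθ, θ, hθ⟩ := cutoff (show D < 3 * D / 2 by linarith)
  obtain ⟨K₀, ph, hph⟩ := cutoff (show -(9 / 10 : ℝ) < 0 by norm_num)
  obtain ⟨k, hk⟩ : ∃ k, k = (δ₀ / 2) ^ bb n := ⟨_, rfl⟩
  have d0 := hδ.1
  have k0 : 0 < k := hk ▸ Real.rpow_pos_of_pos (half_pos d0) _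
  have K0 := hθ.pos
  have K1 := hph.pos
  obtain ⟨r, hr⟩ : ∃ r, r = σ₀ / (32 * Kθ) := ⟨_, rfl⟩
  have r0 : 0 < r := by rw [hr]; positivity
  refine ⟨min 1 (k * r / 24 * (a₀ / 2) ^ (n * bb n)), by positivity,
    fun m p q U a β' R s' hP hS haa κ hκ t ht C => ?_⟩
  have κ1 : κ ∈ Icc (0 : ℝ) 1 := ⟨hκ.1, hκ.2.trans (min_le_left _ _)⟩
  obtain ⟨C₁, h1⟩ := h1 n B L m p q U a β' R s' hB hP hS κ κ1
  obtain ⟨C₂, h2⟩ := h2 n B L m p q U a β' R s' hB hP hS κ κ1 t ht.1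
  obtain ⟨η, hη⟩ : ∃ η, η = δ₀ * (k * r / (48 * (n + 1))) / (4 * (C ^ 2 + 1)) := ⟨_, rfl⟩
  have η0 : 0 < η := by rw [hη]; positivity
  obtain ⟨s, hs⟩ : ∃ s, s = min (t / 2) η := ⟨_, rfl⟩
  have s0 : 0 < s := hs ▸ lt_min (half_pos ht.1) η0
  obtain ⟨K₁, θ₁, hθ₁⟩ := cutoff (half_lt_self s0)
  filter_upwards [eventually_ge_atTop (1 / η)] with Λ hΛ
  have Λ0 : 0 < Λ := (one_div_pos.2 η0).trans_le hΛ
  obtain ⟨β, hβ⟩ : ∃ β, β = 4 * (C₀ / (4 * k) + 8 * Λ ^ 2) / (k * r ^ 2) := ⟨_, rfl⟩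
  have β0 : 0 < β := by rw [hβ]; positivity
  obtain ⟨c, hc⟩ : ∃ c, c = 144 * β * K₀ / k := ⟨_, rfl⟩
  have c0 : 0 < c := by rw [hc]; positivity
  have δ0 : 0 < r / c := div_pos r0 c0
  filter_upwards [h1, h2, self_mem_nhdsWithin, ev_small C₁ (show (0 : ℝ) < 3 by norm_num),
    ev_small C₂ (half_pos δ0), ev_small 9 (half_pos s0),
    ev_small (160 * c * K₁ / s ^ 2) (show 0 < σ₀ / 16 by positivity)] with ε h1 h2 ε0 e1 e2 e3 e4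
  intro w h hw hL hf hp hH
  have H : Ch n a₀ δ₀ D t C κ Λ ε σ₀ C₀ k r s β c (r / c) Kθ K₀ K₁ := by
    refine ⟨ε0, d0, hδ.2, ha₀, ht.2, s0, hs ▸ min_le_left _ _, σ0, C0, r0, c0, β0, δ0, Λ0, hκ.1, hk,
      hκ.2.trans (min_le_right _ _), le_of_eq ?_, mul_div_cancel₀ _ c0.ne', le_of_eq ?_,
      le_of_eq ?_, ?_, e3, e4⟩
    · rw [hr]
      field_simp
      norm_num
    · rw [hc]
      field_simp
      norm_num
    · rw [hβ]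
      field_simp
    · have a1 : s + 1 / Λ ≤ 2 * η := by
        have a2 : s ≤ η := hs ▸ min_le_right _ _
        linarith [(one_div_le η0 Λ0).1 hΛ]
      have a3 : 2 / δ₀ * C ^ 2 * (s + 1 / Λ) ≤ 2 / δ₀ * (C ^ 2 + 1) * (2 * η) := by gcongr; linarith
      refine a3.trans (le_of_eq ?_)
      rw [hη]
      field_simp
      norm_num
  have U0 := hS.pos hB
  have m1 := cf0_sm (ε := ε) hθ₁.sm hw.sm hw.lt
  have m2 := pf_sm (δ := r / c) (β := β) (ε := ε) hθ.sm hph.sm hw.sm hw.lt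
  refine ⟨TT B.g ε c U w (cf0 ε θ₁ w) fun y => pf (r / c) β ε θ ph w y + P' y / c,
    tt_sm hB.met (al_sm hB.met hS.sm U0 hw.sm m1 (m2.add (smP.div_const c))) (be_sm hS.sm U0 m1)
      hw.sm, tt_sy hB.met, fun x hx hx' => ?_, fun x => ?_⟩
  · funext i j
    have a1 := hθ₁.zero (dd ε w x) (by linarith [H.st, ht.2])
    have a2 := hθ.zero (dd ε w x) (by linarith)
    simp [TT, tt, cf0, pf, a1, a2, Pz x hx']
  · obtain ⟨σ₂, σ, a1, a0, a2, a3, a4⟩ := hσ U a β' R s' hS haa x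
    exact core H hB hP hS haa hθ hph hθ₁ hw hL (hf x) hp hH
      (fun b1 b2 => (h1 w hw x b1 b2).trans (by linarith))
      (fun b1 => (h2 w hw hL x b1).trans e2) smP (P0 x) a1 a0 a2 a3 a4 rfl rfl rfl

end Vale.Agent.P366Z.Y
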