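import Vale.Agent.P366Y.G.Int
import Vale.Agent.P366Y.G.One0

/-!
# P366Y, block G (after P366Z): one step of the flow
-/

open MeasureTheory Metric Filter Topology Set
open scoped ContDiff ENNReal
open Vale.Agent.P366.Stmt

noncomputable section

namespace Vale.Agent.P366Z.Y

variable {n : ℕ}

/-- the use of the spinors -/
theorem spin_use (hAS : ASY) {B : Bg n} {U h : E n → ℝ} {a β R s' βh δ₀ R₁ C : ℝ} {T : Field n}
    (hB : B.Ok) (hS : St B U a β R s') (hδ : δ₀ ∈ Ioo (0 : ℝ) 1) (hC : 0 < C)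
    (hSP : ∀ (g T : Field n) (v v' : E n → ℝ) (R a β : ℝ), Met g → Flat g R →
      (∀ i j, Smooth fun x => T x i j) → (∀ x i j, T x i j = T x j i) →
      (∀ x, R ≤ ‖x‖ → T x = 0) → Smooth v → Smooth v' →
      (∃ c > (0 : ℝ), ∃ c', ∀ x, c ≤ v x ∧ v x ≤ c' ∧ c ≤ v' x ∧ v' x ≤ c' ∧
        ‖fderiv ℝ v' x‖ ≤ c') → Asy v a β → (∀ x, 0 < cq g T v v' x ∧ 0 < cq g T v' v x ∧
        4 * covNorm g (wq g T v v') x ^ 2 ≤ cq g T v v' x * cq g T v' v x) →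
      0 ≤ β ∧ ∀ e > 0, Par v R (C * β * a ^ (-bb n - 1) + e))
    (hs : Smooth h) (h01 : ∀ x, 0 < h x ∧ h x ≤ 1) (hA : Asy (fun x => h x * U x) a βh)
    (hR : B.ρ ≤ R₁) (hT1 : ∀ i j, Smooth fun x => T x i j) (hT2 : ∀ x i j, T x i j = T x j i)
    (hT3 : ∀ x, R₁ ≤ ‖x‖ → T x = 0)
    (hT4 : let v := fun x => U x * (1 + (1 - δ₀) * h x) / 2
      let v' := fun x => U x * (1 - (1 - δ₀) * h x) / 2
      ∀ x, 0 < cq B.g T v v' x ∧ 0 < cq B.g T v' v x ∧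
        4 * covNorm B.g (wq B.g T v v') x ^ 2 ≤ cq B.g T v v' x * cq B.g T v' v x) :
    0 ≤ β + (1 - δ₀) * βh ∧ ∀ e > 0, Par (fun x => U x * (1 + (1 - δ₀) * h x) / 2) R₁
      (4 * C * (β + (1 - δ₀) * βh) * a ^ (-bb n - 1) + e) := by
  have hn := hB.dim
  have ha := hS.a0
  obtain ⟨d0, d1⟩ := hδ
  have hU := hS.sm
  have hhU : Smooth fun x => h x * U x := ContDiff.mul hs hU
  have s1 : Smooth fun x => U x * (1 + (1 - δ₀) * h x) / 2 :=
    ContDiff.div_const (ContDiff.mul hU (contDiff_const.add (contDiff_const.mul hs))) 2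
  have s2 : Smooth fun x => U x * (1 - (1 - δ₀) * h x) / 2 :=
    ContDiff.div_const (ContDiff.mul hU (contDiff_const.sub (contDiff_const.mul hs))) 2
  have A1 := (hAS n U _ a a β βh hn hU hhU hS.asy).2.2.1 (1 / 2) ((1 - δ₀) / 2) hA
  have A2 := (hAS n U _ a a β βh hn hU hhU hS.asy).2.2.1 (1 / 2) (-(1 - δ₀) / 2) hA
  have e1 : (fun x => 1 / 2 * U x + (1 - δ₀) / 2 * (h x * U x)) =
      fun x => U x * (1 + (1 - δ₀) * h x) / 2 := funext fun x => by ring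
  have e2 : (fun x => 1 / 2 * U x + -(1 - δ₀) / 2 * (h x * U x)) =
      fun x => U x * (1 - (1 - δ₀) * h x) / 2 := funext fun x => by ring
  rw [e1] at A1
  rw [e2] at A2
  obtain ⟨K, hK⟩ := (hAS n _ _ _ 0 _ 0 hn s2 s2 A2).1.2
  obtain ⟨k1, k2⟩ := hSP B.g T _ _ R₁ _ _ hB.met (hB.flat.mono hR) hT1 hT2 hT3 s1 s2
    ⟨a / 2 * δ₀ / 2, by positivity, max 2 K, fun x => by
      obtain ⟨q0, q1⟩ := h01 x
      have u1 := hS.half hB x
      have u2 := hS.le_two hB x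
      have q2 : 0 ≤ (1 - δ₀) * h x := mul_nonneg (by linarith) q0.le
      have q3 : (1 - δ₀) * h x ≤ 1 - δ₀ := by nlinarith
      refine ⟨?_, le_max_of_le_left ?_, ?_, le_max_of_le_left ?_, le_max_of_le_right (hK x)⟩
      · have := mul_le_mul u1 (show δ₀ ≤ 1 + (1 - δ₀) * h x by linarith) d0.le (by linarith)
        linarith
      · nlinarith
      · have := mul_le_mul u1 (show δ₀ ≤ 1 - (1 - δ₀) * h x by linarith) d0.le (by linarith)
        linarith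
      · nlinarith⟩ A1 hT4
  have k3 : 0 ≤ β + (1 - δ₀) * βh := by linarith
  refine ⟨k3, fun e he => (k2 e he).mono ?_⟩
  have hb := bb_pos hn
  have b1 : (1 / 2 * a + (1 - δ₀) / 2 * a) ^ (-bb n - 1) ≤ (a / 2) ^ (-bb n - 1) :=
    Real.rpow_le_rpow_of_nonpos (by positivity) (by nlinarith) (by linarith)
  have b2 : (a / 2) ^ (-bb n - 1) ≤ 8 * a ^ (-bb n - 1) := by
    rw [Real.div_rpow ha.le two_pos.le, div_le_iff₀ (by positivity), mul_right_comm]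
    refine le_mul_of_one_le_left (by positivity) ?_
    have : (2 : ℝ) ^ (-3 : ℝ) ≤ 2 ^ (-bb n - 1) :=
      Real.rpow_le_rpow_of_exponent_le one_le_two (by linarith [bb_le hn])
    have h8 : (2 : ℝ) ^ (-3 : ℝ) = 1 / 8 := by
      rw [Real.rpow_neg two_pos.le]; norm_num
    rw [h8] at this
    linarith only [this]
  have b3 := mul_le_mul_of_nonneg_left (b1.trans b2) (mul_nonneg hC.le k1)
  linarith

theorem pos_of_mul_pos_of_pos {c' r : ℝ} (h1 : 0 < c') (h2 : 0 < c' * r) : 0 < r :=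
  (mul_pos_iff_of_pos_left h1).1 h2

theorem gap_use {ι P η : ℝ} (h0 : 0 < ι) (h1 : ι ≤ 1 / 10) (hP : 0 ≤ P) (hη : 0 < η)
    (h2 : ι * P ≤ η / 8) : 4 / 3 * P + η / 4 ≤ (Ph (1 - ι) - Ph (-1 + ι)) * (P + η / 2) := by
  have h4 : 4 / 3 - ι ≤ Ph (1 - ι) - Ph (-1 + ι) := by
    rw [Ph_gap]; nlinarith [pow_pos h0 3]
  have h5 := mul_le_mul_of_nonneg_right h4 (show 0 ≤ P + η / 2 by positivity)
  nlinarith

set_option maxHeartbeats 2000000 in
theorem one_of (hEX : EX) (hUP : UP) (hLOW : LOW) (hEXP : EXP) (hDE : DENS) (hCOL : COL)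
    (hCF : CONF) (hSCH : SCH) (hHB : HB) (hMC : MC) (hSP : SPINEX) (hAS : ASY) : ONE := by
  intro n C'
  obtain ⟨c', c'0, c'8, hCF⟩ := hCF n C'
  refine ⟨c', c'0, c'8, ?_⟩
  by_cases hn : 3 ≤ n
  swap
  · exact ⟨1, one_pos, fun _ => ⟨1, one_pos, 1, one_pos, fun B _ _ _ _ _ _ _ hB =>
      absurd hB.dim hn⟩⟩
  obtain ⟨CS, CS0, hSP⟩ := hSP n hn
  refine ⟨4 * CS, by positivity, fun C₀ => ?_⟩
  obtain ⟨cE, cE0, hEXP⟩ := hEXP n ((2 * C₀) ^ (2 * bb n))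
  obtain ⟨cD, cD0, hDE⟩ := hDE n ((2 * C₀) ^ (2 * bb n))
  have hb := bb_pos hn
  refine ⟨cD / 2, by positivity, 16 * 2 ^ bb n / cE, by positivity,
    fun B L a₀ δ₀ D m p q hB hP ha₀ hδ hD hSm => ?_⟩
  obtain ⟨κM, κM0, hMC⟩ := hMC n B L a₀ δ₀ D hB ha₀ hδ hD hSm
  have hρ := hB.one
  have hL : 0 < L := by linarith [hP.big]
  refine ⟨min (min 1 κM) (cD * ((a₀ / 2) ^ bb n) ^ (n - 1 : ℝ) / L), by positivity,
    fun U a β R s' hS haa κ hκ r hCf hDr η' hη' ρ' hρ' η hη => ?_⟩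
  have ha := hS.a0
  have hκ1 : κ ∈ Icc (0 : ℝ) 1 := ⟨hκ.1, hκ.2.trans ((min_le_left _ _).trans (min_le_left _ _))⟩
  have hκM : κ ∈ Icc 0 κM := ⟨hκ.1, hκ.2.trans ((min_le_left _ _).trans (min_le_right _ _))⟩
  have hκD : κ * L ≤ cD * ((a / 2) ^ bb n) ^ (n - 1 : ℝ) := by
    have h1 := (le_div_iff₀ hL).1 (hκ.2.trans (min_le_right _ _))
    have h2 : (0 : ℝ) ≤ n - 1 := by linarith [nm2_pos hn]
    exact h1.trans (by gcongr)
  have hUp := hS.pos hB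
  have hr0 : 0 < r := pos_of_mul_pos_of_pos (c' := c') c'0 (by linarith [hCf.ρr])
  have hρr : B.ρ ≤ r := hCf.ρr.trans (by nlinarith)
  -- the near minimiser of the perimeter
  obtain ⟨ψ₁, hψ₁, -⟩ := hCf.per
  obtain ⟨ψ₀, hψ₀, hmin⟩ := exists_near hP hψ₁ (fun x => (hUp x).le) hκ.1 (half_pos hη)
  set P₀ := pp B m U κ ψ₀ with hP₀
  have P0 : 0 ≤ P₀ := pp_nonneg hP hψ₀ (fun x => (hUp x).le) hκ.1
  set e := 4 / 3 * P₀ + η / 4 with he
  have e0 : 0 < e := by positivity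
  set ι := min (1 / 20) (η / (8 * (P₀ + 1))) with hι
  have ι0 : 0 < ι := by positivity
  have ι1 : ι ≤ 1 / 20 := min_le_left _ _
  have ι2 : ι * P₀ ≤ η / 8 := by
    have : ι * (8 * (P₀ + 1)) ≤ η := (le_div_iff₀ (by positivity)).1 (min_le_right _ _)
    nlinarith
  obtain ⟨CL, hLOW⟩ := hLOW n B L m p q U a β R s' hB hP hS ι ⟨ι0, by linarith⟩
  obtain ⟨tc, tc0, hCOL⟩ := hCOL n B L m p q U a β R s' hB hP hS κ hκ1 ρ' hρ' (2 * D)
    (by positivity)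
  set t := min tc D with ht
  have t0 : 0 < t := lt_min tc0 hD
  obtain ⟨CH, hHB⟩ := hHB n B L m p q U a β R s' hB hP hS κ hκ1 t t0 e
  obtain ⟨Λ, ⟨hHB, hMC⟩, hΛ⟩ := ((hHB.and (hMC m p q U a β R s' hP hS haa κ hκM t
    ⟨t0, min_le_right _ _⟩ CH)).and (eventually_ge_atTop (2 * (|CH| + 1) / η'))).exists
  have Λ0 : 0 < Λ := lt_of_lt_of_le (by positivity) hΛ
  set lam := (a / 2) ^ bb n with hlam
  have lam0 : 0 < lam := by positivity
  set t₁ := 2 * D / (cE * lam) with ht₁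
  have t₁0 : 0 < t₁ := by positivity
  set τ := min t (η' / (2 * (|CH| + 1))) with hτ
  have τ0 : 0 < τ := by positivity
  obtain ⟨ε, ⟨⟨⟨⟨⟨⟨⟨⟨⟨hUP, hCF⟩, hCOL⟩, hHB⟩, hMC⟩, hEXP⟩, hDE⟩, s1⟩, s2⟩, s3⟩, ε0⟩ :=
    (((((((((((hUP n B L m p q U a β R s' hB hP hS κ hκ1 ψ₀ hψ₀ (η / 4) (by positivity)).and
    (hCF B L m p q U a β R s' hB hP hS κ hκ1 r hCf)).and hCOL).and hHB).and hMC).and
    (hEXP B L m p q U a β R s' hB hP hS κ hκ1 t₁ t₁0)).and
    (hDE B L m p q U a β R s' hB hP hS κ hκ1 η hη)).and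
    (ev_small (Real.log (2 / ι) / 2) τ0)).and (ev_small (|CL| * e) hη)).and
    (ev_small (|CL| * e) (show 0 < cD / 2 * η ^ n by positivity))).and
    self_mem_nhdsWithin).exists
  replace ε0 : 0 < ε := ε0
  replace s1 : ε / 2 * Real.log (2 / ι) < τ := by linarith
  have τt : τ ≤ t := min_le_left _ _
  have tD : t ≤ D := min_le_right _ _
  obtain ⟨w, hw⟩ := hEX n B L m p q U a β R s' hB hP hS κ ε hκ.1 ε0
  replace hUP := hUP w hw
  have far : ∀ x, r ≤ ‖x‖ → 2 * D ≤ dd ε w x := fun x hx => hDr.trans (hCF w hw x hx)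
  have farL : ∀ x, L ≤ ‖x‖ → 2 * D ≤ dd ε w x := fun x hx => far x (hCf.rL.trans hx)
  replace hCOL := hCOL w hw farL
  have col : ∀ x, B.F x ≤ s' - ρ' → dd ε w x < -t := fun x hx =>
    (hCOL x hx).trans_le (neg_le_neg (min_le_left _ _))
  have hLay : Lay B L t ε w :=
    ⟨fun x hx => col x (by linarith [hS.s1, hρ'.2, hB.s0]), fun x hx => by linarith [farL x hx]⟩
  have hi : ∀ x, t ≤ dd ε w x → 1 - ι ≤ w x := fun x hx => by
    by_contra h1
    linarith [dd_le_of ε0 ι0 (hw.lt x) (not_le.1 h1).le]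
  have lo : ∀ x, dd ε w x ≤ -t → w x ≤ -1 + ι := fun x hx => by
    by_contra h1
    linarith [le_dd_of ε0 ι0 (hw.lt x) (not_le.1 h1).le]
  obtain ⟨l1, l2, l3⟩ := hLOW κ ε w hκ.1 ε0 hw ⟨L, fun x hx => hi x (hLay.out x hx).le⟩
  have ι3 : ι ≤ 1 / 10 := by linarith
  have hcl : Cls B L (tru ι w) := ⟨l1, tru_mem ι w,
    fun x hx => tru_zero ι0 ι3 (hw.lt x) (lo x (hLay.inn x hx).le),
    fun x hx => tru_one ι0 ι3 (hw.lt x) (hi x (hLay.out x hx).le)⟩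
  have thin : volume {x | |w x| < 1 - ι} ≤ ENNReal.ofReal (ε * (|CL| * e)) := by
    refine l3.trans ?_
    rw [show ε * (|CL| * e) = |CL| * ε * e by ring,
      ENNReal.ofReal_mul (p := |CL| * ε) (by positivity)]
    exact mul_le_mul' (ENNReal.ofReal_le_ofReal (by gcongr; exact le_abs_self _)) hUP
  have hnear : Near B L m U κ η (tru ι w) := ⟨hcl, fun ψ' hψ' => by
    have h1 := (ENNReal.ofReal_le_ofReal_iff e0.le).1 (l2.trans hUP)
    have h2 := Ph_gap_pos ι0 ι3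
    have h3 : e ≤ (Ph (1 - ι) - Ph (-1 + ι)) * (P₀ + η / 2) := gap_use ι0 ι3 P0 hη ι2
    have h5 := le_of_mul_le_mul_left (h1.trans h3) (by linarith)
    linarith [hmin ψ' hψ']⟩
  -- the potential
  obtain ⟨h, βh, hs, h01, heq, hA, hle, -, hen⟩ := hSCH n B U a β R s'
    (fun x => Λ ^ 2 * U x ^ (n * bb n) * cv (w x)) hB hS
    (ContDiff.mul (ContDiff.mul contDiff_const (hS.sm.rpow hUp _)) (sm_cv.comp hw.sm))
    (fun x => mul_nonneg (mul_nonneg (sq_nonneg _) (Real.rpow_nonneg (hUp x).le _)) (cv_mem _).1)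
    ⟨L, fun x hx => by rw [cv_zero (by linarith [hi x (hLay.out x hx).le]), mul_zero]⟩
  have hPot : Pot B U Λ w h := ⟨hs, h01, heq⟩
  replace hHB := hHB w h hw hUP hLay hPot
  obtain ⟨T, T1, T2, T3, T4⟩ := hMC w h hw hLay farL hPot hHB
  obtain ⟨z, hz⟩ := hB.deep
  obtain ⟨Rs, Rr, R1, R2, R3⟩ := exists_rad (t := 2 * D) (by omega) (sm_dd hw.sm hw.lt ε).cont
    ⟨z, by linarith [hLay.inn z (by linarith [hB.s0])]⟩ far
  have out : ∀ x, max B.ρ Rs ≤ ‖x‖ → 2 * D ≤ dd ε w x := fun x hx =>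
    R1 x ((le_max_right _ _).trans hx)
  obtain ⟨m1, m2⟩ := spin_use hAS hB hS hδ CS0 hSP hs h01 hA (le_max_left B.ρ Rs) T1 T2
    (fun x hx => T3 x (out x hx) ((le_max_left _ _).trans hx)) T4
  refine ⟨tru ι w, h, βh, max B.ρ Rs, ⟨hnear, ?_, hs, h01, fun x => ?_, fun x hx => ?_, hA,
    fun x hx => ?_, le_max_left _ _, m1, hle, hen, m2⟩, max_le hρr Rr, ?_⟩
  · refine (measure_mono fun x hx => ?_).trans (thin.trans (ENNReal.ofReal_le_ofReal s2.le))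
    show |w x| < 1 - ι
    refine abs_lt.2 ⟨?_, ?_⟩
    · by_contra h1
      exact hx.1.ne' (tru_zero ι0 ι3 (hw.lt x) (by linarith))
    · by_contra h1
      exact hx.2.ne (tru_one ι0 ι3 (hw.lt x) (by linarith))
  · rw [heq]
    exact mul_nonneg (mul_nonneg (mul_nonneg (sq_nonneg _) (Real.rpow_nonneg (hUp x).le _))
      (cv_mem _).1) (h01 x).1.le
  · rw [heq, cv_zero (by linarith [hi x (by linarith [out x hx])]), mul_zero, zero_mul]
  · have h1 : dd ε w x ≤ τ := by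
      rcases hx with hx | hx
      · refine (dd_le_of ε0 ι0 (hw.lt x) ?_).trans s1.le
        by_contra h1
        exact hx.ne (tru_one ι0 ι3 (hw.lt x) (not_le.1 h1).le)
      · linarith [col x hx]
    have h2 := (hHB x).1 (h1.trans τt)
    have h3 : max (dd ε w x) 0 ≤ η' / (2 * (|CH| + 1)) :=
      max_le (h1.trans (min_le_right _ _)) (by positivity)
    have h4 : 1 / Λ ≤ η' / (2 * (|CH| + 1)) := by
      rw [div_le_div_iff₀ Λ0 (by positivity)]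
      have := (div_le_iff₀ hη').1 hΛ
      linarith
    have h5 : CH * (max (dd ε w x) 0 + 1 / Λ) ≤
        (|CH| + 1) * (η' / (2 * (|CH| + 1)) + η' / (2 * (|CH| + 1))) :=
      mul_le_mul (by linarith [le_abs_self CH]) (add_le_add h3 h4) (by positivity) (by positivity)
    have h6 : (|CH| + 1) * (η' / (2 * (|CH| + 1)) + η' / (2 * (|CH| + 1))) = η' := by
      field_simp; ring
    linarith
  · intro r₀ q1 q2 q3 q4
    have hR : max B.ρ Rs = Rs := by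
      rcases le_total B.ρ Rs with h1 | h1
      · exact max_eq_right h1
      · rw [max_eq_left h1] at q2; linarith
    rw [hR] at q2 ⊢
    have ab : 0 < a ^ bb n := by positivity
    have e1 : 16 * 2 ^ bb n / cE * D * a ^ (-bb n) / 4 = 2 * t₁ := by
      rw [ht₁, hlam, Real.div_rpow ha.le two_pos.le, Real.rpow_neg ha.le]; field_simp; ring
    have e2 : 8 * t₁ ≤ r₀ := by
      have h1 : 16 * 2 ^ bb n / cE * D * a ^ (-bb n) ≤ r₀ := by
        rw [Real.rpow_neg ha.le, ← div_eq_mul_inv, div_le_iff₀ ab]; linarith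
      linarith
    rw [e1]
    have rat : ∀ s : Set (E n), (∀ y ∈ s, r₀ / 2 ≤ ‖y‖) →
        Rat B.g U ((2 * C₀) ^ (2 * bb n)) lam s := fun s hs =>
      rat_flat hn hB.flat (half_pos ha) fun y hy =>
        ⟨by linarith [hs y hy], hS.half hB y, by linarith [q4 y (hs y hy)]⟩
    have p0 : ∀ y : E n, r₀ / 2 ≤ ‖y‖ → p y = 0 := fun y hy =>
      hP.p0 y (by linarith [hB.far y (by linarith), hB.s0])
    have nb : ∀ (c y : E n) (s : ℝ), y ∈ ball c s → ‖c‖ - s ≤ ‖y‖ := fun c y s hy => by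
      have h1 := mem_ball_iff_norm.1 hy
      have h2 := norm_sub_norm_le c y
      rw [norm_sub_rev] at h2
      linarith
    obtain ⟨x₁, x1, x2⟩ := R3 t₁ t₁0
    have : ∃ x₀ ∈ ball x₁ t₁, w x₀ < 9 / 10 := by
      by_contra h1
      push Not at h1
      have h2 : ∀ y ∈ ball x₁ t₁, r₀ / 2 ≤ ‖y‖ := fun y hy => by linarith [nb x₁ y t₁ hy]
      have h3 := hEXP w hw 1 lam t₁ x₁ (Or.inl rfl) lam0 le_rfl (rat _ h2) fun y hy => by
        rw [if_pos rfl]; exact ⟨p0 y (h2 y hy), Or.inl (h1 y hy)⟩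
      have h4 : cE * lam * t₁ = 2 * D := by rw [ht₁]; field_simp
      linarith
    obtain ⟨x₀, y1, y2⟩ := this
    have y3 := nb x₁ x₀ t₁ y1
    have y4 : ‖x₀‖ ≤ Rs := R2 x₀ (by
      linarith [dd_le_of ε0 ι0 (hw.lt x₀) (show w x₀ ≤ 1 - ι by linarith)])
    refine ⟨x₀, by linarith, y4, fun s hs1 hs2 => ?_⟩
    have h2 : ∀ y ∈ ball x₀ s, r₀ / 2 ≤ ‖y‖ := fun y hy => by linarith [nb x₀ y s hy]
    have h3 := hDE w hw 1 lam s x₀ (Or.inl rfl) lam0 hs1 (rat _ h2) (fun y hy => by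
      rw [if_pos rfl]
      refine ⟨p0 y (h2 y hy), ?_⟩
      rw [hB.flat.dens_eq (by linarith [h2 y hy]), mul_one]
      refine le_trans (mul_le_mul_of_nonneg_left ?_ hκ.1) hκD
      linarith [hCf.rL, norm_nonneg x₀]) (by linarith)
    have h4 : ball x₀ s ∩ {y | 1 * w y ≤ 9 / 10} ⊆
        (ball x₀ s ∩ {x | tru ι w x = 0}) ∪ {x | |w x| < 1 - ι} := by
      rintro y ⟨z1, z2⟩
      by_cases z3 : w y ≤ -1 + ι
      · exact Or.inl ⟨z1, tru_zero ι0 ι3 (hw.lt y) z3⟩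
      · have z4 : 1 * w y ≤ 9 / 10 := z2
        have z5 : |w y| < 1 - ι :=
          abs_lt.2 ⟨by linarith only [not_le.1 z3], by linarith only [z4, ι1]⟩
        exact Or.inr z5
    have h5 : ε * (|CL| * e) ≤ cD / 2 * s ^ n :=
      s3.le.trans (by gcongr)
    have h6 := h3.trans ((measure_mono h4).trans ((measure_union_le _ _).trans
      (add_le_add le_rfl (thin.trans (ENNReal.ofReal_le_ofReal h5)))))
    have s0 : 0 ≤ cD / 2 * s ^ n := by have : 0 < s := hη.trans_le hs1; positivity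
    rw [show cD * s ^ n = cD / 2 * s ^ n + cD / 2 * s ^ n by ring, ENNReal.ofReal_add s0 s0] at h6
    exact (ENNReal.add_le_add_iff_right ENNReal.ofReal_ne_top).1 h6

end Vale.Agent.P366Z.Y
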