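import Vale.Agent.P366Y.G.Int
import Vale.Agent.P366Z.UpA

/-!
# P366Y, block G (after P366Z): the upper bound of the energy
-/

open MeasureTheory Metric Filter Topology Set
open scoped ContDiff ENNReal NNReal
open Vale.Agent.P366.Stmt Vale.Agent.P366Z.Upp

noncomputable section

namespace Vale.Agent.P366Z.Y

namespace Upp

open Real (tanh artanh)

variable {n : ℕ} {B : Bg n} {L : ℝ} {m p q U ψ k : E n → ℝ} {θ ε κ t r K D : ℝ}

theorem lip_cmp (hψ : Cls B L ψ) (hk : Lip fun x => (k x)⁻¹) (hr : 0 < r) (hb : ∀ x, r ≤ k x)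
    (θ ε t : ℝ) : Lip fun x => th θ ((ψ x - t) / (ε * k x)) := by
  have h1 : Lip fun x => (ψ x - t) * (k x)⁻¹ / ε :=
    ((hψ.lip.sub (lip_const t)).mul hk (A := 1 + |t|) (B := r⁻¹) (fun x =>
      (abs_sub _ _).trans (by rw [abs_of_nonneg (hψ.mem x).1]; linarith [(hψ.mem x).2])) fun x => by
        rw [abs_of_pos (inv_pos.2 (hr.trans_le (hb x)))]
        exact inv_anti₀ hr (hb x)).div_const ε
  have h2 : (fun x => (ψ x - t) / (ε * k x)) = fun x => (ψ x - t) * (k x)⁻¹ / ε :=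
    funext fun x => by ring
  rw [← h2] at h1
  exact (lip_const _).max ((lip_const _).min ((h1.comp lip_tanh).div_const θ))

/-- the weight of the profile -/
def wH (B : Bg n) (L : ℝ) (U ψ k : E n → ℝ) (θ ε D : ℝ) : E n → ℝ :=
  (closedBall 0 L).indicator fun x => (U x ^ 2 * (gn B.g ψ x + ε * D) ^ 2 /
    (θ ^ 2 * ε * k x ^ 2) + U x ^ (n * bb n) / ε) / 2 * dens B.g x

theorem wH_nonneg (hU : ∀ x, 0 < U x) (hε : 0 < ε) (x : E n) : 0 ≤ wH B L U ψ k θ ε D x :=
  indicator_nonneg (fun y _ => by have := hU y; have := dens_nonneg B.g y; positivity) x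

/-- the energy of one competitor -/
theorem one (hB : B.Ok) (hP : Pen B L m p q) (hU : ∀ x, 0 < U x) (hψ : Cls B L ψ)
    (hθ : θ ∈ Ioo (0 : ℝ) 1) (hk : Smooth k) (hk' : Lip fun x => (k x)⁻¹) (hr : 0 < r)
    (hb : ∀ x, r ≤ k x ∧ k x ≤ K) (hD : ∀ x, artanh θ * gn B.g k x ≤ D) (hε : 0 < ε)
    (ht : t ∈ Icc (artanh θ * (ε * K)) (1 - artanh θ * (ε * K))) :
    en B m p q U κ ε (fun x => th θ ((ψ x - t) / (ε * k x))) ≤
      ∫⁻ x, ENNReal.ofReal ((1 - tanh ((ψ x - t) / (ε * k x)) ^ 2) ^ 2 * wH B L U ψ k θ ε D x +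
        κ * m x * dens B.g x * Ph (th θ ((ψ x - t) / (ε * k x)))) := by
  have hw := lip_cmp hψ hk' hr (fun x => (hb x).1) θ ε t
  have hA := Real.artanh_pos hθ
  refine lintegral_mono_ae ?_
  filter_upwards [hψ.lip.ae_diff, hw.ae_gn_zero B.g 1, hw.ae_gn_zero B.g (-1)] with x h1 h2 h3
  refine ENNReal.ofReal_le_ofReal ?_
  have k0 : 0 < k x := hr.trans_le (hb x).1
  have c0 : 0 < ε * k x := mul_pos hε k0
  have c1 : artanh θ * (ε * k x) ≤ artanh θ * (ε * K) := by gcongr; exact (hb x).2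
  have z0 : ψ x = 0 → (ψ x - t) / (ε * k x) ≤ -artanh θ := fun e => by
    rw [div_le_iff₀ c0, e]; linarith [ht.1]
  have z1 : ψ x = 1 → artanh θ ≤ (ψ x - t) / (ε * k x) := fun e => by
    rw [le_div_iff₀ c0, e]; linarith [ht.2]
  have p0 : p x * (1 + th θ ((ψ x - t) / (ε * k x))) ^ 2 = 0 := by
    by_cases e : -(B.s / 2) ≤ B.F x
    · rw [hP.p0 x e, zero_mul]
    · rw [th_neg hθ (z0 (hψ.zero x (by linarith [hB.s0])))]; ring
  have q0 : q x * (1 - th θ ((ψ x - t) / (ε * k x))) ^ 2 = 0 := by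
    by_cases e : ‖x‖ ≤ L + 1
    · rw [hP.q0 x e, zero_mul]
    · rw [th_one hθ (z1 (hψ.one x (by linarith)))]; ring
  rw [p0, q0, add_zero, add_zero, ← hB.met.gn_sq, add_mul,
    mul_right_comm (κ * m x) (Ph _) (dens B.g x)]
  refine add_le_add_left ?_ _
  have H0 := mul_nonneg (sq_nonneg (1 - tanh ((ψ x - t) / (ε * k x)) ^ 2))
    (wH_nonneg (B := B) (L := L) (ψ := ψ) (k := k) (θ := θ) (D := D) hU hε x)
  by_cases e : |(ψ x - t) / (ε * k x)| < artanh θ
  · have hx : x ∈ closedBall (0 : E n) L := by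
      by_contra e'
      rw [mem_closedBall_zero_iff, not_le] at e'
      linarith [z1 (hψ.one x e'.le), (abs_lt.1 e).2]
    have d1 : DifferentiableAt ℝ (fun y => ψ y - t) x := h1.sub_const t
    have d2 : DifferentiableAt ℝ (fun y => ε * k y) x := (hk.diff x).const_mul ε
    have g1 : gn B.g (fun y => (ψ y - t) / (ε * k y)) x ≤ (gn B.g ψ x + ε * D) / (ε * k x) := by
      refine (hB.met.gn_add_le (u₁ := fun y => (ε * k x)⁻¹ * ψ y)
        (u₂ := fun y => -((ψ x - t) / (ε * k x) / k x) * k y) fun i => ?_).trans ?_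
      · rw [pd_div d1 d2 c0.ne', pd_sub_const, pd_const_mul, pd_const_mul, pd_const_mul]
        field_simp
        ring
      · rw [gn_of_pd (pd_const_mul _), gn_of_pd (pd_const_mul _), abs_neg, abs_div _ (k x),
          abs_of_pos k0, abs_of_pos (inv_pos.2 c0), add_div, inv_mul_eq_div,
          mul_div_mul_left _ _ hε.ne', div_mul_eq_mul_div]
        gcongr
        exact (mul_le_mul_of_nonneg_right e.le (gn_nonneg _ _ _)).trans (hD x)
    have g2 : gn B.g (fun y => th θ ((ψ y - t) / (ε * k y))) x ^ 2 ≤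
        ((1 - tanh ((ψ x - t) / (ε * k x)) ^ 2) / θ) ^ 2 *
          ((gn B.g ψ x + ε * D) / (ε * k x)) ^ 2 := by
      rw [gn_comp (u := fun y => (ψ y - t) / (ε * k y)) (hd_th hθ e) (d1.fun_mul (d2.fun_inv c0.ne')),
        mul_pow, sq_abs]
      have := gn_nonneg B.g (fun y => (ψ y - t) / (ε * k y)) x
      gcongr
    have g3 := wp_th hθ e
    have := hU x
    have := hθ.1
    rw [wH, indicator_of_mem hx, ← mul_assoc]
    refine mul_le_mul_of_nonneg_right ?_ (dens_nonneg _ _)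
    calc _ ≤ ε * U x ^ 2 * (((1 - tanh ((ψ x - t) / (ε * k x)) ^ 2) / θ) ^ 2 *
          ((gn B.g ψ x + ε * D) / (ε * k x)) ^ 2) / 2 +
          U x ^ (n * bb n) * ((1 - tanh ((ψ x - t) / (ε * k x)) ^ 2) ^ 2 / 2) / ε := by gcongr
      _ = _ := by field_simp
  · rcases le_abs'.1 (not_lt.1 e) with e | e
    · rw [h3 (th_neg hθ e), th_neg hθ e]
      simpa [Wp] using H0
    · rw [h2 (th_one hθ e), th_one hθ e]
      simpa [Wp] using H0

/-- the pointwise bound of the averaged density -/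
theorem pt {u c d G f k θ ε D M r C : ℝ} (hθ : θ ∈ Ioo (0 : ℝ) 1) (hε : ε ∈ Ioc (0 : ℝ) 1)
    (hr : 0 < r) (hk : r ≤ k) (hD : 0 ≤ D) (hG : G ∈ Icc 0 M) (hd : 0 ≤ d) (hc : 0 ≤ c)
    (e : u ^ 2 * G ^ 2 = c * f ^ 2) (h1 : c * d ≤ C) (h2 : u ^ 2 * d ≤ C) :
    4 / 3 * (ε * k) * ((u ^ 2 * (G + ε * D) ^ 2 / (θ ^ 2 * ε * k ^ 2) + c / ε) / 2 * d) ≤
      (θ ^ 2)⁻¹ * (4 / 3 * (c * f * d)) + ((θ ^ 2)⁻¹ * C * (f ^ 2 / k + k - 2 * f) +
        ε * ((θ ^ 2)⁻¹ * C * ((2 * M * D + D ^ 2) / r))) := by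
  have k0 : 0 < k := hr.trans_le hk
  have t0 := hθ.1
  have e0 := hε.1
  have t1 : 1 ≤ (θ ^ 2)⁻¹ := (one_le_inv₀ (by positivity)).2 (by nlinarith [hθ.2])
  have g0 := hG.1
  have m0 := hG.1.trans hG.2
  have a1 : 0 ≤ f ^ 2 / k + k - 2 * f := by
    rw [show f ^ 2 / k + k - 2 * f = (f - k) ^ 2 / k by field_simp; ring]; positivity
  have a2 : (2 * G * D + ε * D ^ 2) / k ≤ (2 * M * D + D ^ 2) / r := by
    gcongr
    · exact hG.2
    · exact mul_le_of_le_one_left (sq_nonneg _) hε.2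
  have a3 : 0 ≤ (2 * G * D + ε * D ^ 2) / k := by positivity
  have a4 := mul_le_mul_of_nonneg_right h1 a1
  have a5 := mul_le_mul h2 a2 a3 ((mul_nonneg (sq_nonneg u) hd).trans h2)
  have a6 := mul_nonneg (mul_nonneg hc hd) a1
  have a7 := mul_nonneg (mul_nonneg (sq_nonneg u) hd) a3
  have a8 : c * k * d ≤ (θ ^ 2)⁻¹ * (c * k * d) := le_mul_of_one_le_left (by positivity) t1
  have e1 : 4 / 3 * (ε * k) * ((u ^ 2 * (G + ε * D) ^ 2 / (θ ^ 2 * ε * k ^ 2) + c / ε) / 2 * d) =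
      2 / 3 * ((θ ^ 2)⁻¹ * (u ^ 2 * G ^ 2 / k * d +
        ε * (u ^ 2 * d * ((2 * G * D + ε * D ^ 2) / k))) + c * k * d) := by
    field_simp
    ring
  rw [e1, e]
  have a9 : 2 / 3 * (c * f ^ 2 / k * d + ε * (u ^ 2 * d * ((2 * G * D + ε * D ^ 2) / k)) +
      c * k * d) ≤ 4 / 3 * (c * f * d) + (C * (f ^ 2 / k + k - 2 * f) +
        ε * (C * ((2 * M * D + D ^ 2) / r))) := by
    have := mul_le_mul_of_nonneg_left a5 e0.le
    have := mul_nonneg e0.le a7
    have : c * d * (f ^ 2 / k + k - 2 * f) = c * f ^ 2 / k * d + c * k * d - 2 * (c * f * d) := by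
      ring
    linarith
  have := mul_le_mul_of_nonneg_left a9 (zero_le_one.trans t1)
  nlinarith

end Upp

open Upp

theorem up : UP := by
  intro n B L m p q U a β R s' hB hP hS κ hκ ψ hψ η hη
  have hU := hS.pos hB
  have hb := bb_pos hB.dim
  obtain ⟨Λ, hΛ⟩ := hB.met.ell hB.flat
  obtain ⟨M, hM, hM'⟩ := hψ.lip.gn_bd hB.met hB.flat
  have i1 := hψ.int_per hB hS.sm.cont
  have i2 := Cls.int_vol hB hP hψ.lip.cont
  have n1 : ∀ x, 0 ≤ U x ^ (2 * gam n) * gn B.g ψ x * dens B.g x := fun x =>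
    mul_nonneg (mul_nonneg (Real.rpow_nonneg (hU x).le _) (gn_nonneg _ _ _)) (dens_nonneg _ _)
  have n2 : ∀ x, 0 ≤ m x * ψ x * dens B.g x := fun x =>
    mul_nonneg (mul_nonneg (hP.m01 x).1 (hψ.mem x).1) (dens_nonneg _ _)
  have P0 : 0 ≤ 4 / 3 * pp B m U κ ψ := mul_nonneg (by norm_num)
    (add_nonneg (integral_nonneg n1) (mul_nonneg hκ.1 (integral_nonneg n2)))
  obtain ⟨C, C0, hC⟩ : ∃ C, 0 < C ∧ ∀ x, U x ^ (n * bb n) * dens B.g x ≤ C ∧
      U x ^ 2 * dens B.g x ≤ C := by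
    have := hΛ.one
    refine ⟨(2 ^ (n * bb n) + 2 ^ 2) * Λ, by positivity, fun x => ?_⟩
    have h1 : U x ^ (n * bb n) ≤ 2 ^ (n * bb n) :=
      Real.rpow_le_rpow (hU x).le (hS.le_two hB x) (by positivity)
    have h2 : U x ^ 2 ≤ 2 ^ 2 := pow_le_pow_left₀ (hU x).le (hS.le_two hB x) 2
    have h3 : (0 : ℝ) ≤ 2 ^ (n * bb n) := by positivity
    exact ⟨mul_le_mul (by linarith) (hΛ.dens_hi x) (dens_nonneg _ _) (by positivity),
      mul_le_mul (by linarith) (hΛ.dens_hi x) (dens_nonneg _ _) (by positivity)⟩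
  obtain ⟨θ, hθ, hθ'⟩ : ∃ θ ∈ Ioo (0 : ℝ) 1,
      (θ ^ 2)⁻¹ * (4 / 3 * pp B m U κ ψ + η / 2) < 4 / 3 * pp B m U κ ψ + η := by
    have h1 : ContinuousAt (fun θ : ℝ => (θ ^ 2)⁻¹ * (4 / 3 * pp B m U κ ψ + η / 2)) 1 :=
      ((continuousAt_id.pow 2).inv₀ (by simp)).mul continuousAt_const
    have h2 := (h1.eventually_lt continuousAt_const
      (g := fun _ => 4 / 3 * pp B m U κ ψ + η) (by simp [hη])).filter_mono
        (nhdsWithin_le_nhds (s := Iio 1))
    exact (Eventually.and (p := fun θ => θ ∈ Ioo 0 1) (Ioo_mem_nhdsLT zero_lt_one) h2).exists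
  have t0 := hθ.1
  have hA := Real.artanh_pos hθ
  have hV : volume (closedBall (0 : E n) L) ≠ ⊤ := measure_closedBall_lt_top.ne
  have a0 := hS.a0
  obtain ⟨k, r, K, hr, hk, hk1, hk2, hk3, hk4⟩ := approx
    (f := fun x => U x ^ (-bb n) * gn B.g ψ x) (M := (a / 2) ^ (-bb n) * M)
    (hψ.lip.integrable_gn hB.met hB.flat hψ.one (hS.sm.rpow hU _).cont)
    (fun x => mul_nonneg (Real.rpow_nonneg (hU x).le _) (gn_nonneg _ _ _))
    (fun x => mul_le_mul (Real.rpow_le_rpow_of_nonpos (by positivity) (hS.half hB x) (by linarith))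
      (hM' x) (gn_nonneg _ _ _) (by positivity)) hV (δ := η / 2 / C) (by positivity)
  obtain ⟨K', hK', hK''⟩ := hk1.gn_bd hB.met hB.flat
  have D0 : 0 < Real.artanh θ * K' := by positivity
  generalize hD : Real.artanh θ * K' = D at D0
  generalize hC' : (θ ^ 2)⁻¹ * C * ((2 * M * D + D ^ 2) / r) = C'
  have C1 : 0 < C' := by rw [← hC']; positivity
  have lim : ∀ᶠ ε in 𝓝 (0 : ℝ), (θ ^ 2)⁻¹ * (4 / 3 * pp B m U κ ψ + η / 2) +
      ε * C' * (volume (closedBall (0 : E n) L)).toReal < (4 / 3 * pp B m U κ ψ + η) *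
        (1 - Real.artanh θ * (ε * K) - Real.artanh θ * (ε * K)) :=
    ContinuousAt.eventually_lt (by fun_prop) (by fun_prop) (by simpa using hθ')
  filter_upwards [lim.filter_mono nhdsWithin_le_nhds, Ioc_mem_nhdsGT zero_lt_one] with ε h1 hε w hw
  have e0 := hε.1
  have k0 : ∀ x, 0 < k x := fun x => hr.trans_le (hk3 x).1
  have mU := hS.sm.cont.measurable
  have mk := hk.cont.measurable
  have mg := hB.met.measurable_gn hψ.lip.cont
  have md := hB.met.sm_dens.cont.measurable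
  have mm := hP.smm.cont.measurable
  have key := avg volume hθ hψ.lip.cont.measurable (c := fun x => ε * k x)
    (H := wH B L U ψ k θ ε D) (v := fun x => κ * m x * dens B.g x) (by fun_prop)
    (Measurable.indicator (by fun_prop) measurableSet_closedBall) (by fun_prop)
    (fun x => mul_pos e0 (k0 x)) (wH_nonneg hU e0)
    (fun x => mul_nonneg (mul_nonneg hκ.1 (hP.m01 x).1) (dens_nonneg _ _))
    (fun x => (hψ.mem x).1) (a := Real.artanh θ * (ε * K)) (b := 1 - Real.artanh θ * (ε * K))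
    (fun x => by gcongr; exact (hk3 x).2) fun t ht =>
      (hw.min _ (lip_cmp hψ hk2 hr (fun x => (hk3 x).1) θ ε t) fun x => abs_th _ _).trans
        (one hB hP hU hψ hθ hk hk2 hr hk3
          (fun x => hD ▸ mul_le_mul_of_nonneg_left (hK'' x) hA.le) e0 ht)
  have t1 : 1 ≤ (θ ^ 2)⁻¹ := (one_le_inv₀ (by positivity)).2 (by nlinarith [hθ.2])
  have bd : ∫⁻ x, ENNReal.ofReal (4 / 3 * (ε * k x) * wH B L U ψ k θ ε D x +
      4 / 3 * (κ * m x * dens B.g x) * ψ x) ≤
      ENNReal.ofReal ((θ ^ 2)⁻¹ * (4 / 3 * pp B m U κ ψ + η / 2) +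
        ε * C' * (volume (closedBall (0 : E n) L)).toReal) := by
    have i3 : Integrable fun x => (θ ^ 2)⁻¹ * (4 / 3 * (U x ^ (2 * gam n) * gn B.g ψ x *
        dens B.g x + κ * (m x * ψ x * dens B.g x))) :=
      ((i1.add (i2.const_mul κ)).const_mul (4 / 3)).const_mul (θ ^ 2)⁻¹
    have n3 : ∀ x, 0 ≤ (θ ^ 2)⁻¹ * (4 / 3 * (U x ^ (2 * gam n) * gn B.g ψ x * dens B.g x +
        κ * (m x * ψ x * dens B.g x))) := fun x => by
      have := n1 x; have := n2 x; have := hκ.1; positivity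
    refine (lintegral_mono (g := fun x => ENNReal.ofReal ((θ ^ 2)⁻¹ * (4 / 3 *
      (U x ^ (2 * gam n) * gn B.g ψ x * dens B.g x + κ * (m x * ψ x * dens B.g x)))) +
      (closedBall 0 L).indicator (fun x => ENNReal.ofReal (ε * C') + ENNReal.ofReal ((θ ^ 2)⁻¹ * C) *
        ENNReal.ofReal ((U x ^ (-bb n) * gn B.g ψ x) ^ 2 / k x + k x -
          2 * (U x ^ (-bb n) * gn B.g ψ x))) x) fun x => ?_).trans ?_
    · have v1 : 4 / 3 * (κ * m x * dens B.g x) * ψ x ≤
          (θ ^ 2)⁻¹ * (4 / 3 * (κ * (m x * ψ x * dens B.g x))) := by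
        refine le_trans (le_of_eq (by ring)) (le_mul_of_one_le_left ?_ t1)
        have := n2 x; have := hκ.1; positivity
      by_cases hx : x ∈ closedBall (0 : E n) L
      · have u0 := hU x
        have e1 : U x ^ (n * bb n) * U x ^ (-bb n) = U x ^ (2 * gam n) := by
          rw [← Real.rpow_add u0, n_bb hB.dim, gam_eq hB.dim]; congr 1; ring
        have e2 : U x ^ (n * bb n) * (U x ^ (-bb n)) ^ 2 = U x ^ 2 := by
          rw [← Real.rpow_natCast, ← Real.rpow_natCast, ← Real.rpow_mul u0.le, ← Real.rpow_add u0,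
            n_bb hB.dim]
          congr 1; push_cast; ring
        have h2 := pt (f := U x ^ (-bb n) * gn B.g ψ x) hθ hε hr (hk3 x).1 D0.le
          ⟨gn_nonneg B.g ψ x, hM' x⟩ (dens_nonneg B.g x) (Real.rpow_nonneg u0.le _)
          (by rw [mul_pow, ← mul_assoc, e2]) (hC x).1 (hC x).2
        rw [← mul_assoc (U x ^ (n * bb n)), e1, hC'] at h2
        simp only [wH, indicator_of_mem hx]
        rw [← ENNReal.ofReal_mul (by positivity)]
        refine le_trans (ENNReal.ofReal_le_ofReal ?_)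
          (ENNReal.ofReal_add_le.trans (add_le_add_right ENNReal.ofReal_add_le _))
        linarith
      · simp only [wH, indicator_of_notMem hx, mul_zero, zero_add, add_zero]
        refine ENNReal.ofReal_le_ofReal (v1.trans ?_)
        have := n1 x
        gcongr
        linarith
    · rw [lintegral_add_left' (i3.aemeasurable.ennreal_ofReal), lintegral_indicator
        measurableSet_closedBall, lintegral_add_left measurable_const,
        lintegral_const_mul' _ _ ENNReal.ofReal_ne_top, setLIntegral_const,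
        ← ofReal_integral_eq_lintegral_ofReal i3 (Eventually.of_forall n3), integral_const_mul,
        integral_const_mul, integral_add i1 (i2.const_mul κ), integral_const_mul,
        mul_add (θ ^ 2)⁻¹, add_assoc, add_comm (_ * (η / 2)),
        ENNReal.ofReal_add (by positivity) (by positivity),
        ENNReal.ofReal_add (by positivity) (by positivity),
        ENNReal.ofReal_mul (p := ε * C') (by positivity), ENNReal.ofReal_toReal hV]
      refine add_le_add le_rfl (add_le_add le_rfl ((mul_le_mul_right hk4 _).trans_eq ?_))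
      rw [← ENNReal.ofReal_mul (by positivity)]
      congr 1
      field_simp
  have l0 : 0 < 1 - Real.artanh θ * (ε * K) - Real.artanh θ * (ε * K) :=
    (mul_pos_iff_of_pos_left (by positivity)).1 (lt_of_le_of_lt (by positivity) h1)
  have fin := (key.trans bd).trans (ENNReal.ofReal_le_ofReal h1.le)
  rw [ENNReal.ofReal_mul (by positivity)] at fin
  exact (ENNReal.mul_le_mul_iff_left (ENNReal.ofReal_pos.2 l0).ne' ENNReal.ofReal_ne_top).1 fin

end Vale.Agent.P366Z.Y
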