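import Vale.Agent.P366Y.G.Top
import Vale.Agent.P366Y.G.Flow
import Vale.Agent.P366Y.G.One
import Vale.Agent.P366Y.G.Res
import Vale.Agent.P366Y.G.Ex3
import Vale.Agent.P366Y.G.Dens
import Vale.Agent.P366Y.G.Up
import Vale.Agent.P366Y.G.Low
import Vale.Agent.P366Y.G.Exp
import Vale.Agent.P366Y.G.B1
import Vale.Agent.P366Y.G.B2
import Vale.Agent.P366Y.G.Col
import Vale.Agent.P366Y.G.Conf
import Vale.Agent.P366Y.G.Sch
import Vale.Agent.P366Y.G.Hb
import Vale.Agent.P366Y.G.Mc
import Vale.Agent.P366Y.G.Upd
import Vale.Agent.P366Y.G.Area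
import Vale.Agent.P366Y.G.Link
import Vale.Agent.P366Z.Sp.All
import Vale.Agent.P366Z.Chain
import Vale.Agent.P366Z.Grad
import Vale.Agent.P366Z.Grow
import Vale.Agent.P366Z.MvH
import Vale.Agent.P366Z.Mv
import Vale.Agent.P366Z.Newt
import Vale.Agent.P366Z.Boch
import Vale.Agent.P366Z.E4
import Vale.Agent.P366Z.Stab

/-!
# P366Y, block G: assembly
-/

namespace Vale.Agent.P366Z.Y

namespace All

theorem res : RES := res_of linv
theorem chain : CHAIN := chain_of wmp
theorem gw : GW := gw_of grad stwt
theorem exp : EXP := exp_of wmp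
theorem b1 : B1 := b1_of boch ptm gw stwt
theorem b2 : B2 := b2_of boch ptm b1
theorem sch : SCH := sch_of res reg wmb wmp chain grad newt asy flux stwt
theorem mcT : MC := mc_of b1 b2 exp
theorem harn : HARN := harn_of mv flux
theorem exT : EX := ex_of res reg grad wmb chain stwt
theorem densT : DENS := dens_of gw stwt

theorem one : ONE :=
  one_of exT up low exp densT (col_of densT exp low up) (conf_of densT exp low up) sch
    (hb_of b1 densT grow grad ptm wmp low stwt) mcT spinex asy

theorem flow : FLOW :=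
  flow_of one fc (upd_of asy) (hlow_of wmp asy) nest area ramp (e4_of mv) (stab_of grad newt asy)
    newt harn asy

end All

/-- the inequality from the two reductions -/
theorem rps_of (h1 : NK2) (h2 : RED) : RPS := fun n D m hn h =>
  pen_of link All.flow hn (h2 n D m hn (h1 n D m hn h))

end Vale.Agent.P366Z.Y
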