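import Vale.Agent.P366Z.Defs

/-!
# P366Y, block G: backgrounds with a shield
-/

open MeasureTheory Metric Filter Topology Set
open scoped ContDiff ENNReal
open Vale.Agent.P366.Stmt

noncomputable section

namespace Vale.Agent.P366Z.Y

variable {n : ℕ}

/-- the background -/
structure Bg (n : ℕ) where
  g : Field n
  F : E n → ℝ
  U : E n → ℝ
  Q : E n → ℝ
  ρ : ℝ
  s : ℝ
  h : ℝ
  δ : ℝ

/-- the properties of the background -/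
structure Bg.Ok (B : Bg n) : Prop where
  dim : 3 ≤ n
  met : Met B.g
  flat : Flat B.g B.ρ
  one : 1 ≤ B.ρ
  smF : Smooth B.F
  smU : Smooth B.U
  s0 : 0 < B.s
  h0 : 0 < B.h
  δ0 : 0 < B.δ
  far : ∀ x, B.ρ ≤ ‖x‖ → B.s < B.F x
  deep : ∃ x, B.F x ≤ -B.s
  Ub : ∀ x, 1 / 2 ≤ B.U x ∧ B.U x ≤ 2
  eqn : ∀ x, lap B.g B.U x = B.Q x * B.U x
  slack : ∃ P : E n → ℝ, Smooth P ∧ (∀ x, 0 ≤ P x) ∧ (∀ x, B.ρ ≤ ‖x‖ → P x = 0) ∧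
    ∀ x, 0 ≤ B.F x → 0 < scal B.g x - 4 * gam n * B.Q x + P x ^ 2 ∧
      gn B.g P x ≤ B.δ * (max (scal B.g x - 4 * gam n * B.Q x) 0 + P x ^ 2)
  Qf : ∀ x, B.ρ ≤ ‖x‖ → -(B.δ * ‖x‖ ^ (-(n + 2) : ℝ)) ≤ B.Q x ∧ B.Q x ≤ 0
  Qd : ∃ C, ∀ x, ‖fderiv ℝ B.Q x‖ ≤ C
  cal : ∀ x, |B.F x| ≤ B.s → gn B.g B.F x ≠ 0 ∧
    dv B.g (fun i y => B.U y ^ (2 * gam n) * gr B.g B.F i y / gn B.g B.F y) x ≤ -B.h

/-- a state of the flow: the factor `U` tends to `a`, has the coefficient `β`, solves the equation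
outside the ball of radius `R` and is unchanged on `{F ≤ s'}` -/
structure St (B : Bg n) (U : E n → ℝ) (a β R s' : ℝ) : Prop where
  sm : Smooth U
  a0 : 0 < a
  a1 : a ≤ 1
  lo : ∀ x, a * B.U x ≤ U x
  hi : ∀ x, U x ≤ B.U x
  sup : ∀ x, lap B.g U x ≤ B.Q x * U x
  eqn : ∀ x, R ≤ ‖x‖ → lap B.g U x = B.Q x * U x
  asy : Asy U a β
  Rρ : B.ρ ≤ R
  col : ∀ x, B.F x ≤ s' → U x = B.U x
  s1 : B.s / 2 ≤ s'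
  s2 : s' ≤ B.s

/-- the class of the competitors -/
structure Cls (B : Bg n) (L : ℝ) (ψ : E n → ℝ) : Prop where
  lip : Lip ψ
  mem : ∀ x, 0 ≤ ψ x ∧ ψ x ≤ 1
  zero : ∀ x, B.F x ≤ B.s / 4 → ψ x = 0
  one : ∀ x, L ≤ ‖x‖ → ψ x = 1

/-- the perimeter functional -/
def per (B : Bg n) (U ψ : E n → ℝ) : ℝ := ∫ x, U x ^ (2 * gam n) * gn B.g ψ x * dens B.g x

/-- the perimeter with the volume term -/
def pp (B : Bg n) (m U : E n → ℝ) (κ : ℝ) (ψ : E n → ℝ) : ℝ :=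
  per B U ψ + κ * ∫ x, m x * ψ x * dens B.g x

/-- `ψ` minimises `pp` up to `η` -/
def Near (B : Bg n) (L : ℝ) (m U : E n → ℝ) (κ η : ℝ) (ψ : E n → ℝ) : Prop :=
  Cls B L ψ ∧ ∀ ψ', Cls B L ψ' → pp B m U κ ψ ≤ pp B m U κ ψ' + η

/-- the weight of the volume term and the two penalties -/
structure Pen (B : Bg n) (L : ℝ) (m p q : E n → ℝ) : Prop where
  big : 2 * B.ρ ≤ L
  smm : Smooth m
  smp : Smooth p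
  smq : Smooth q
  m01 : ∀ x, 0 ≤ m x ∧ m x ≤ 1
  p04 : ∀ x, 0 ≤ p x ∧ p x ≤ 4
  q04 : ∀ x, 0 ≤ q x ∧ q x ≤ 4
  m1 : ∀ x, ‖x‖ ≤ L → m x = 1
  m0 : ∀ x, L + 1 ≤ ‖x‖ → m x = 0
  p0 : ∀ x, -(B.s / 2) ≤ B.F x → p x = 0
  p4 : ∀ x, B.F x ≤ -(3 * B.s / 4) → p x = 4
  q0 : ∀ x, ‖x‖ ≤ L + 1 → q x = 0
  q4 : ∀ x, L + 2 ≤ ‖x‖ → q x = 4

/-! ### the Allen-Cahn functional -/

/-- the energy -/
def en (B : Bg n) (m p q U : E n → ℝ) (κ ε : ℝ) (w : E n → ℝ) : ℝ≥0∞ :=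
  ∫⁻ x, ENNReal.ofReal ((ε * U x ^ 2 * ip B.g w w x / 2 + U x ^ (n * bb n) *
    (Wp (w x) + p x * (1 + w x) ^ 2 + q x * (1 - w x) ^ 2) / ε + κ * m x * Ph (w x)) * dens B.g x)

/-- a smooth minimiser of the energy -/
structure Mn (B : Bg n) (m p q U : E n → ℝ) (κ ε : ℝ) (w : E n → ℝ) : Prop where
  sm : Smooth w
  lip : Lip w
  lt : ∀ x, |w x| < 1
  fin : en B m p q U κ ε w < ⊤
  min : ∀ w', Lip w' → (∀ x, |w' x| ≤ 1) → en B m p q U κ ε w ≤ en B m p q U κ ε w'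
  eqn : ∀ x, ε * wl B.g U w x = U x ^ (n * bb n) * (-2 * w x * (1 - w x ^ 2) +
    2 * p x * (1 + w x) - 2 * q x * (1 - w x)) / ε + κ * m x * (1 - w x ^ 2)

/-- the output of one step: the near minimiser `ψ`, the potential `h` with the coefficient `βh`
of `h U`, and the radius `R₁` of the supports -/
structure Out (B : Bg n) (L : ℝ) (m U : E n → ℝ) (a β s' κ δ₀ η' ρ' η C : ℝ) (ψ h : E n → ℝ)
    (βh R₁ : ℝ) : Prop where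
  near : Near B L m U κ η ψ
  thin : volume {x | 0 < ψ x ∧ ψ x < 1} ≤ ENNReal.ofReal η
  sm : Smooth h
  h01 : ∀ x, 0 < h x ∧ h x ≤ 1
  sub : ∀ x, 0 ≤ wl B.g U h x
  harm : ∀ x, R₁ ≤ ‖x‖ → wl B.g U h x = 0
  asy : Asy (fun x => h x * U x) a βh
  small : ∀ x, ψ x < 1 ∨ B.F x ≤ s' - ρ' → h x ≤ η'
  Rρ : B.ρ ≤ R₁
  mass : 0 ≤ β + (1 - δ₀) * βh
  le : βh ≤ β
  ener : ∫⁻ x, ENNReal.ofReal (U x ^ 2 * ip B.g h h x * dens B.g x) ≤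
    ENNReal.ofReal ((n - 2) * omega n * a * (β - βh))
  par : ∀ e > 0, Par (fun x => U x * (1 + (1 - δ₀) * h x) / 2) R₁
    (C * (β + (1 - δ₀) * βh) * a ^ (-bb n - 1) + e)

/-- the shield is strong enough -/
def Sm (B : Bg n) (a₀ δ₀ : ℝ) : Prop := B.δ ≤ (δ₀ / 2) ^ bb n * (a₀ / 2) ^ bb n / 128

/-- the metric `U ^ (2 b) g` dominates the metric of the data -/
def Cmp (D : Exterior n) (η : ℝ) (g : Field n) (U : E n → ℝ) : Prop :=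
  ∀ x, 0 ≤ D.F x → ∀ ξ : Fin n → ℝ, (1 - η) * (dens D.g x * covNorm D.g (fun i _ => ξ i) x) ≤
    U x ^ (2 * gam n) * covNorm g (fun i _ => ξ i) x * dens g x

/-- a metric `u ^ (2 b) g` with positive scalar curvature outside a neck of length `ℓ` -/
structure Nk (D : Exterior n) (m η ρ δ c₀ ℓ : ℝ) (g : Field n) (u Q t : E n → ℝ) (β : ℝ) :
    Prop where
  met : Met g
  flat : Flat g (ρ / 2)
  smu : Smooth u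
  smt : Smooth t
  lo : ∀ x, 1 / 2 ≤ u x
  hi : ∀ x, ρ / 2 ≤ ‖x‖ → u x ≤ 3 / 2
  eqn : ∀ x, lap g u x = Q x * u x
  Qf : ∀ x, ρ ≤ ‖x‖ → -(δ * ‖x‖ ^ (-(n + 2) : ℝ)) ≤ Q x ∧ Q x ≤ 0
  Qd : ∃ C, ∀ x, ρ ≤ ‖x‖ → ‖fderiv ℝ Q x‖ ≤ C
  asy : Asy u 1 β
  mass : 2 * β ≤ m + η
  pos : ∀ x, t x ≤ ℓ → 0 < scal g x - 4 * gam n * Q x
  out : ∀ x, ρ / 2 ≤ ‖x‖ → t x ≤ 0
  ann : ∀ x, ρ / 2 ≤ ‖x‖ → ‖x‖ ≤ ρ → c₀ ≤ scal g x - 4 * gam n * Q x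
  nk : ∀ x, 0 ≤ t x → t x ≤ ℓ →
    ip g t t x ≤ scal g x - 4 * gam n * Q x ∧ c₀ * gn g t x ≤ 1
  deep : ∀ x, D.F x ≤ 0 → ℓ ≤ t x
  cmp : Cmp D η g u

/-- **the input of block G**: necks of any length -/
def Neck (D : Exterior n) (m : ℝ) : Prop := ∀ η > (0 : ℝ), ∃ ρ ≥ (2 : ℝ), ∀ δ > (0 : ℝ),
  ∃ c₀ > (0 : ℝ), ∀ ℓ : ℝ, ∃ g u Q t β, Nk D m η ρ δ c₀ ℓ g u Q t β

/-- the same with a bounded factor -/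
def Neck2 (D : Exterior n) (m : ℝ) : Prop := ∀ η > (0 : ℝ), ∃ ρ ≥ (2 : ℝ), ∀ δ > (0 : ℝ),
  ∃ c₀ > (0 : ℝ), ∀ ℓ : ℝ, ∃ g u Q t β, Nk D m η ρ δ c₀ ℓ g u Q t β ∧ ∀ x, u x ≤ 7 / 4

/-- the reduction to a background -/
def Red (D : Exterior n) (m : ℝ) : Prop := ∀ η > (0 : ℝ), ∃ ρ : ℝ, ∀ δ > (0 : ℝ),
  ∃ (B : Bg n) (β : ℝ), B.Ok ∧ B.ρ ≤ ρ ∧ B.δ ≤ δ ∧ Asy B.U 1 β ∧ 2 * β ≤ m + η ∧
    (∀ x, D.F x ≤ 0 → B.F x ≤ 0) ∧ Cmp D η B.g B.U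

end Vale.Agent.P366Z.Y
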