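import Vale.Agent.P366Y.G.Defs
import Vale.Agent.P366Z.Sk

/-!
# P366Y, block G: the statements of the rows
-/

open MeasureTheory Metric Filter Topology Set
open scoped ContDiff ENNReal
open Vale.Agent.P366.Stmt

noncomputable section

namespace Vale.Agent.P366Z.Y

/-- **STWT**: the states are weights -/
def STWT : Prop := ∀ (n : ℕ) (B : Bg n) U a β R s', B.Ok → St B U a β R s' → Wt B.g U

/-- a statement for all backgrounds, penalties and states -/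
def ForS (P : ∀ (n : ℕ) (_ : Bg n) (_ : ℝ) (_ _ _ _ : E n → ℝ) (_ _ _ _ : ℝ), Prop) : Prop :=
  ∀ (n : ℕ) (B : Bg n) (L : ℝ) (m p q U : E n → ℝ) (a β R s' : ℝ), B.Ok → Pen B L m p q →
    St B U a β R s' → P n B L m p q U a β R s'

/-- **EX**: minimisers exist -/
def EX : Prop := ForS fun _ B _ m p q U _ _ _ _ => ∀ κ ε : ℝ, 0 ≤ κ → 0 < ε →
  ∃ w, Mn B m p q U κ ε w

/-- **UP**: the upper bound of the energy -/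
def UP : Prop := ForS fun _ B L m p q U _ _ _ _ => ∀ κ ∈ Icc (0 : ℝ) 1, ∀ ψ, Cls B L ψ →
  ∀ η > (0 : ℝ), ∀ᶠ ε in 𝓝[>] (0 : ℝ), ∀ w, Mn B m p q U κ ε w →
    en B m p q U κ ε w ≤ ENNReal.ofReal (4 / 3 * pp B m U κ ψ + η)

/-- **LOW**: the lower bound of the energy -/
def LOW : Prop := ForS fun _ B _ m p q U _ _ _ _ => ∀ ι ∈ Ioo (0 : ℝ) 1, ∃ C : ℝ,
  ∀ (κ ε : ℝ) w, 0 ≤ κ → 0 < ε → Mn B m p q U κ ε w → (∃ R, ∀ x, R ≤ ‖x‖ → 1 - ι ≤ w x) →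
    Lip (tru ι w) ∧
    ENNReal.ofReal ((Ph (1 - ι) - Ph (-1 + ι)) * pp B m U κ (tru ι w)) ≤ en B m p q U κ ε w ∧
    volume {x | |w x| < 1 - ι} ≤ ENNReal.ofReal (C * ε) * en B m p q U κ ε w

/-- **GW**: the coarse gradient bound -/
def GW : Prop := ForS fun _ B _ m p q U _ _ _ _ => ∃ C : ℝ, ∀ ε ∈ Ioc (0 : ℝ) 1,
  ∀ κ ∈ Icc (0 : ℝ) 1, ∀ w, Mn B m p q U κ ε w → ∀ x, ε * ‖fderiv ℝ w x‖ ≤ C

/-- **EXP**: exponential convergence to the wells; the sign `σ` is `1` or `-1` -/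
def EXP : Prop := ∀ (n : ℕ) (C : ℝ), ∃ c > (0 : ℝ), ∀ (B : Bg n) L m p q U a β R s', B.Ok →
  Pen B L m p q → St B U a β R s' → ∀ κ ∈ Icc (0 : ℝ) 1, ∀ t₀ > (0 : ℝ), ∀ᶠ ε in 𝓝[>] (0 : ℝ),
    ∀ w, Mn B m p q U κ ε w → ∀ (σ lam t : ℝ) (x : E n), σ = 1 ∨ σ = -1 → 0 < lam → t₀ ≤ t →
      Rat B.g U C lam (ball x t) →
      (∀ y ∈ ball x t, if σ = 1 then p y = 0 ∧ (9 / 10 ≤ w y ∨ q y = 4)
        else q y = 0 ∧ (w y ≤ -(9 / 10) ∨ p y = 4)) → c * lam * t ≤ σ * dd ε w x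

/-- **B1**: the gradient of the approximate distance -/
def B1 : Prop := ForS fun _ B L m p q U _ _ _ _ => ∀ κ ∈ Icc (0 : ℝ) 1, ∃ C : ℝ,
  ∀ᶠ ε in 𝓝[>] (0 : ℝ), ∀ w, Mn B m p q U κ ε w → ∀ x, -(B.s / 4) ≤ B.F x → ‖x‖ ≤ L + 1 / 2 →
    ip (cf U B.g) (dd ε w) (dd ε w) x ≤ 1 + C * ε

/-- the layer `|d| ≤ t` lies in the good region -/
structure Lay {n : ℕ} (B : Bg n) (L t ε : ℝ) (w : E n → ℝ) : Prop where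
  inn : ∀ x, B.F x ≤ B.s / 4 → dd ε w x < -t
  out : ∀ x, L ≤ ‖x‖ → t < dd ε w x

/-- **B2**: the discrepancy -/
def B2 : Prop := ForS fun _ B L m p q U _ _ _ _ => ∀ κ ∈ Icc (0 : ℝ) 1, ∀ t > (0 : ℝ), ∃ C : ℝ,
  ∀ᶠ ε in 𝓝[>] (0 : ℝ), ∀ w, Mn B m p q U κ ε w → Lay B L t ε w →
    ∀ x, |dd ε w x| ≤ t → ε * ip (cf U B.g) w w x / 2 - Wp (w x) / ε ≤ C * ε

/-- **DENS**: the density estimate -/
def DENS : Prop := ∀ (n : ℕ) (C : ℝ), ∃ c > (0 : ℝ), ∀ (B : Bg n) L m p q U a β R s', B.Ok →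
  Pen B L m p q → St B U a β R s' → ∀ κ ∈ Icc (0 : ℝ) 1, ∀ t₀ > (0 : ℝ), ∀ᶠ ε in 𝓝[>] (0 : ℝ),
    ∀ w, Mn B m p q U κ ε w → ∀ (σ lam t : ℝ) (x : E n), σ = 1 ∨ σ = -1 → 0 < lam → t₀ ≤ t →
      Rat B.g U C lam (ball x t) →
      (∀ y ∈ ball x t, if σ = 1 then p y = 0 ∧ κ * dens B.g y * t ≤ c * lam ^ (n - 1 : ℝ)
        else q y = 0) →
      σ * w x ≤ 9 / 10 → ENNReal.ofReal (c * t ^ n) ≤ volume (ball x t ∩ {y | σ * w y ≤ 9 / 10})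

/-- **COL**: the layer avoids the collar -/
def COL : Prop := ForS fun _ B L m p q U _ _ _ s' => ∀ κ ∈ Icc (0 : ℝ) 1, ∀ ρ' ∈ Ioo 0 (B.s / 8),
  ∀ t₁ > (0 : ℝ), ∃ t > (0 : ℝ), ∀ᶠ ε in 𝓝[>] (0 : ℝ), ∀ w, Mn B m p q U κ ε w →
    (∀ x, L ≤ ‖x‖ → t₁ ≤ dd ε w x) → ∀ x, B.F x ≤ s' - ρ' → dd ε w x < -t

/-- the hypotheses of the confinement in the ball of radius `r` -/
structure Cf {n : ℕ} (B : Bg n) (L : ℝ) (U : E n → ℝ) (a κ C c r : ℝ) : Prop where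
  rL : r ≤ L
  ρr : B.ρ ≤ c * r
  up : ∀ x, r / 2 ≤ ‖x‖ → U x ≤ C * a
  per : ∃ ψ, Cls B L ψ ∧ per B U ψ ≤ c * a ^ (2 * gam n) * r ^ (n - 1 : ℝ)
  kap : ∀ x, κ * (L + 1) ^ n * dens B.g x ≤ c * a ^ (2 * gam n)

/-- **CONF**: the confinement -/
def CONF : Prop := ∀ (n : ℕ) (C : ℝ), ∃ c > (0 : ℝ), c ≤ 1 / 8 ∧ ∀ (B : Bg n) L m p q U a β R s',
  B.Ok → Pen B L m p q → St B U a β R s' → ∀ κ ∈ Icc (0 : ℝ) 1, ∀ r, Cf B L U a κ C c r →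
    ∀ᶠ ε in 𝓝[>] (0 : ℝ), ∀ w, Mn B m p q U κ ε w → ∀ x, r ≤ ‖x‖ → c * a ^ bb n * r ≤ dd ε w x

/-- **SCH**: the potential -/
def SCH : Prop := ∀ (n : ℕ) (B : Bg n) U a β R s' (V : E n → ℝ), B.Ok → St B U a β R s' →
  Smooth V → (∀ x, 0 ≤ V x) → (∃ R', ∀ x, R' ≤ ‖x‖ → V x = 0) → ∃ (h : E n → ℝ) (βh : ℝ),
    Smooth h ∧ (∀ x, 0 < h x ∧ h x ≤ 1) ∧ (∀ x, wl B.g U h x = V x * h x) ∧
    Asy (fun x => h x * U x) a βh ∧ βh ≤ β ∧ (∃ C, ∀ x, ‖fderiv ℝ h x‖ ≤ C) ∧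
    ∫⁻ x, ENNReal.ofReal (U x ^ 2 * ip B.g h h x * dens B.g x) ≤
      ENNReal.ofReal ((n - 2) * omega n * a * (β - βh))

/-- the bounds of the potential near the layer -/
def Hb {n : ℕ} (B : Bg n) (U : E n → ℝ) (C Λ t ε : ℝ) (w h : E n → ℝ) : Prop :=
  ∀ x, (dd ε w x ≤ t → h x ≤ C * (max (dd ε w x) 0 + 1 / Λ)) ∧
    (|dd ε w x| ≤ t / 2 → gn (cf U B.g) h x ≤ C)

/-- the equation of the potential -/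
structure Pot {n : ℕ} (B : Bg n) (U : E n → ℝ) (Λ : ℝ) (w h : E n → ℝ) : Prop where
  sm : Smooth h
  h01 : ∀ x, 0 < h x ∧ h x ≤ 1
  eqn : ∀ x, wl B.g U h x = Λ ^ 2 * U x ^ (n * bb n) * cv (w x) * h x

/-- **HB**: the bounds of the potential near the layer -/
def HB : Prop := ForS fun _ B L m p q U _ _ _ _ => ∀ κ ∈ Icc (0 : ℝ) 1, ∀ t > (0 : ℝ), ∀ e : ℝ,
  ∃ C : ℝ, ∀ᶠ Λ in atTop, ∀ᶠ ε in 𝓝[>] (0 : ℝ), ∀ w h, Mn B m p q U κ ε w →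
    en B m p q U κ ε w ≤ ENNReal.ofReal e → Lay B L t ε w → Pot B U Λ w h → Hb B U C Λ t ε w h

/-- **MC**: the choice of the tensor -/
def MC : Prop := ∀ (n : ℕ) (B : Bg n) (L a₀ δ₀ D : ℝ), B.Ok → 0 < a₀ → δ₀ ∈ Ioo (0 : ℝ) 1 →
  0 < D → Sm B a₀ δ₀ → ∃ κ₀ > (0 : ℝ), ∀ m p q U a β R s', Pen B L m p q → St B U a β R s' → a₀ ≤ a →
    ∀ κ ∈ Icc 0 κ₀, ∀ t ∈ Ioc 0 D, ∀ C : ℝ, ∀ᶠ Λ in atTop, ∀ᶠ ε in 𝓝[>] (0 : ℝ), ∀ w h,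
      Mn B m p q U κ ε w → Lay B L t ε w → (∀ x, L ≤ ‖x‖ → 2 * D ≤ dd ε w x) → Pot B U Λ w h →
      Hb B U C Λ t ε w h → ∃ T : Field n, (∀ i j, Smooth fun x => T x i j) ∧
        (∀ x i j, T x i j = T x j i) ∧ (∀ x, 2 * D ≤ dd ε w x → B.ρ ≤ ‖x‖ → T x = 0) ∧
        let v := fun x => U x * (1 + (1 - δ₀) * h x) / 2
        let v' := fun x => U x * (1 - (1 - δ₀) * h x) / 2
        ∀ x, 0 < cq B.g T v v' x ∧ 0 < cq B.g T v' v x ∧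
          4 * covNorm B.g (wq B.g T v v') x ^ 2 ≤ cq B.g T v v' x * cq B.g T v' v x

/-- the set `{ψ = 0}` is fat near a point of norm almost `R₁` -/
def Tip {n : ℕ} (B : Bg n) (U : E n → ℝ) (a C₀ c K D η : ℝ) (ψ : E n → ℝ) (R₁ : ℝ) : Prop :=
  ∀ r, 2 * B.ρ ≤ r → r ≤ R₁ → K * D ≤ a ^ bb n * r → (∀ x, r / 2 ≤ ‖x‖ → U x ≤ C₀ * a) →
    ∃ x₀ : E n, R₁ - K * D * a ^ (-bb n) / 4 ≤ ‖x₀‖ ∧ ‖x₀‖ ≤ R₁ ∧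
      Fat {x | ψ x = 0} c x₀ η (‖x₀‖ / 4)

/-- **ONE**: one step -/
def ONE : Prop := ∀ (n : ℕ) (C' : ℝ), ∃ c' > (0 : ℝ), c' ≤ 1 / 8 ∧ ∃ C > (0 : ℝ), ∀ C₀ : ℝ,
  ∃ c > (0 : ℝ), ∃ K > (0 : ℝ), ∀ (B : Bg n) (L a₀ δ₀ D : ℝ) m p q, B.Ok → Pen B L m p q →
    0 < a₀ → δ₀ ∈ Ioo (0 : ℝ) 1 → 0 < D → Sm B a₀ δ₀ → ∃ κ₀ > (0 : ℝ), ∀ U a β R s',
      St B U a β R s' → a₀ ≤ a →
      ∀ κ ∈ Icc 0 κ₀, ∀ r, Cf B L U a κ C' c' r → 2 * D ≤ c' * a ^ bb n * r →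
        ∀ η' > (0 : ℝ), ∀ ρ' ∈ Ioo 0 (B.s / 8), ∀ η > (0 : ℝ), ∃ ψ h βh R₁,
          Out B L m U a β s' κ δ₀ η' ρ' η C ψ h βh R₁ ∧ R₁ ≤ r ∧ Tip B U a C₀ c K D η ψ R₁

/-- **FC**: the truncation and the penalties exist -/
def FC : Prop := (∀ η' > (0 : ℝ), ∃ η'' f, Fc η' η'' f) ∧
  ∀ (n : ℕ) (B : Bg n) (L : ℝ), B.Ok → 2 * B.ρ ≤ L → ∃ m p q, Pen B L m p q

/-- **UPD**: the new state -/
def UPD : Prop := ∀ (n : ℕ) (B : Bg n) L m U a β R s' κ δ₀ η' ρ' η C ψ h βh R₁ η'' f (τ R' : ℝ),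
  B.Ok → St B U a β R s' → Out B L m U a β s' κ δ₀ η' ρ' η C ψ h βh R₁ → Fc η' η'' f → 0 < η' →
  2 * η' < 1 → τ ∈ Ioc (0 : ℝ) (1 / 2) → 0 ≤ ρ' → B.s / 2 ≤ s' - ρ' → R ≤ R' → R₁ ≤ R' →
  (∀ x, R' ≤ ‖x‖ → 2 * η' ≤ h x) → St B (fun x => U x * (1 - τ * f (h x))) (a * (1 - τ * (1 - η'')))
    (β * (1 + τ * η'') - τ * βh) R' (s' - ρ')

/-- **HLOW**: the lower bound of the potential -/
def HLOW : Prop := ∀ (n : ℕ) (B : Bg n) L m U a β R s' κ δ₀ η' ρ' η C ψ h βh R₁ (R' : ℝ),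
  B.Ok → St B U a β R s' → Out B L m U a β s' κ δ₀ η' ρ' η C ψ h βh R₁ → R₁ ≤ R' →
  ∀ x, R' ≤ ‖x‖ → a * (1 - (R' / ‖x‖) ^ (n - 2 : ℝ)) ≤ h x * U x

/-- **NEST**: the near minimisers are almost nested -/
def NEST : Prop := ∀ (n : ℕ) (B : Bg n) L m p q U U' (κ κ' η : ℝ) ψ ψ', B.Ok → Pen B L m p q →
  Continuous U → Continuous U' → (∀ x, 0 < U x ∧ 0 < U' x) → (∀ x, ψ x < 1 → U' x = U x) →
  Near B L m U κ η ψ → Near B L m U' κ' η ψ' →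
  (κ' - κ) * ∫ x, m x * max (ψ' x - ψ x) 0 * dens B.g x ≤ 2 * η

/-- **AREA**: the loss of area in one step -/
def AREA : Prop := ∀ n : ℕ, ∃ C > (0 : ℝ), ∀ (B : Bg n) L m p q U a β R s' h η' η'' f
  (τ κ η e V : ℝ) ψ, B.Ok → Pen B L m p q → St B U a β R s' → Smooth h → (∀ x, 0 < h x ∧ h x ≤ 1) →
  (∀ x, B.F x ≤ B.s / 4 → h x ≤ η') → Fc η' η'' f → 0 < η' → τ ∈ Ioc (0 : ℝ) (1 / 2) → 0 ≤ κ →
  0 ≤ η → 0 ≤ e → 0 ≤ V → Near B L m (fun x => U x * (1 - τ * f (h x))) κ η ψ →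
  ∫⁻ x, ENNReal.ofReal (U x ^ 2 * ip B.g h h x * dens B.g x) ≤ ENNReal.ofReal e →
  ∫⁻ x in {x | η' < h x ∧ ψ x < 1}, ENNReal.ofReal (dens B.g x) ≤ ENNReal.ofReal V →
  per B U ψ ≤ per B (fun x => U x * (1 - τ * f (h x))) ψ +
    C * τ * (√(e * V) + η + κ * ∫ x, m x * dens B.g x)

/-- **RAMP**: the perimeter of a sphere -/
def RAMP : Prop := ∀ (n : ℕ) (B : Bg n) (U : E n → ℝ) (L r M η : ℝ), B.Ok → Continuous U →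
  B.ρ ≤ r → r < L → 0 < η → (∀ x, r ≤ ‖x‖ → 0 ≤ U x ∧ U x ≤ M) →
  ∃ ψ, Cls B L ψ ∧ per B U ψ ≤ omega n * r ^ (n - 1 : ℝ) * M ^ (2 * gam n) + η

/-- **FLOW**: the inequality for the background -/
def FLOW : Prop := ∀ (n : ℕ) (μ η ρ : ℝ), 0 < μ → 0 < η → ∃ δ > (0 : ℝ), ∀ (B : Bg n) (β : ℝ),
  B.Ok → B.ρ ≤ ρ → B.δ ≤ δ → Asy B.U 1 β → 2 * β ≤ μ →
  0 ≤ β ∧ ∃ L ψ, Cls B L ψ ∧ per B B.U ψ ≤ (1 + η) * omega n * (2 * μ) ^ gam n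

/-- **LINK** -/
def LINK : Prop := ∀ (n : ℕ) (D : Exterior n) (B : Bg n) (η L : ℝ) (ψ : E n → ℝ), B.Ok →
  η < 1 → (∀ x, D.F x ≤ 0 → B.F x ≤ 0) → (∀ x, 0 ≤ D.F x → ∀ ξ : Fin n → ℝ,
    (1 - η) * (dens D.g x * covNorm D.g (fun i _ => ξ i) x) ≤
      B.U x ^ (2 * gam n) * covNorm B.g (fun i _ => ξ i) x * dens B.g x) → Cls B L ψ →
  D.Amin ≤ ENNReal.ofReal (per B B.U ψ / (1 - η))

/-- **SCF**: the conformal change of the conformal Laplacian -/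
def SCF : Prop := ∀ (n : ℕ) (g : Field n) (a v : E n → ℝ) (x : E n), 3 ≤ n → Met g → Smooth a →
  (∀ y, 0 < a y) → Smooth v →
  cl (cf a g) v x = a x ^ (-(2 * bb n) - 1) * cl g (fun y => a y * v y) x

/-- **NK2**: the factor is made bounded -/
def NK2 : Prop := ∀ (n : ℕ) (D : Exterior n) (m : ℝ), 3 ≤ n → Neck D m → Neck2 D m

/-- **RED**: from a neck to a background -/
def RED : Prop := ∀ (n : ℕ) (D : Exterior n) (m : ℝ), 3 ≤ n → Neck2 D m → Red D m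

/-- **the output of block G** -/
def RPS : Prop := ∀ (n : ℕ) (D : Exterior n) (m : ℝ), 3 ≤ n → Neck D m →
  D.Amin ≠ ⊤ ∧ (D.Amin.toReal / omega n) ^ (((n : ℝ) - 2) / (n - 1)) / 2 ≤ m

end Vale.Agent.P366Z.Y
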